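import Vale.Agent.P154.NegEnd.Poisson
import Vale.Agent.P154.NegMid.Mid

/-!
P154: three states, Poisson trees, `lam ∈ [-473/1000, 0)`.
-/

namespace Vale.Agent.P154.NegEnd

/-- No reconstruction on Poisson trees at and below the threshold. -/
theorem nonReconstructs_poisson_range (lam : ℝ) (h0 : -(473 / 1000) ≤ lam) (h1 : lam < 0) (d : ℝ)
    (hd : 0 ≤ d) (hdl : d * lam ^ 2 ≤ 1) : NonReconstructs (aPoisson 3 lam d) := by
  rcases le_or_gt lam (-(447 / 1000)) with h | h
  · exact nonReconstructs_poisson_end lam h0 h d hd hdl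
  · refine (NegMid.nonReconstructs_mid lam ?_ h1).2 d hd hdl
    have h5 : √(5 : ℝ) ≤ 1000 / 447 := Real.sqrt_le_iff.2 ⟨by norm_num, by norm_num⟩
    have := one_div_le_one_div_of_le (Real.sqrt_pos.2 (by norm_num : (0 : ℝ) < 5)) h5
    norm_num at this ⊢
    linarith

end Vale.Agent.P154.NegEnd
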