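import Vale.Agent.P154.AffAssembly
import Vale.Agent.P154.PointAssembly

/-!
P154: affinity certificates from tangent bounds around multiples of a reference atom, for any
number of atoms.
-/

namespace Vale.Agent.P154.NegEnd

open Finset

variable {q N : ℕ}

/-- An atom at a vertex, averaged over the permutations. -/
noncomputable def vert (α : Fin q → ℝ) (u : Fin q → ℝ) : ℝ :=
  PointAssembly.pav (fun u => 1 - aff α u) u

/-- An atom after one edge, times `d`, averaged over the permutations. -/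
noncomputable def edge (lam d : ℝ) (α : Fin q → ℝ) (u : Fin q → ℝ) : ℝ :=
  PointAssembly.pav (fun u => d * (1 - aff α fun i => lam * u i)) u

/-- Tangent bounds of the second order remainder at all points of `[0, A]`. -/
def TanBd (G : ℝ → ℝ) (d κ A : ℝ) (L L1 U U1 : ℝ → ℝ) : Prop :=
  ∀ z, 0 ≤ z → z ≤ A → ∀ a, 0 ≤ a → a ≤ A → a ≤ d →
    L z + L1 z * (a - z) ≤ G (1 - a / d) - 1 + a ∧
    G (1 - a / d) - 1 + a ≤ U z + U1 z * (a - z) + κ / 2 * (a - z) ^ 2

/-- The tangent bound of one atom with coefficient `c` at `z`, `D` away from `z`. -/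
noncomputable def tanTerm (κ : ℝ) (L L1 U U1 : ℝ → ℝ) (c z D : ℝ) : ℝ :=
  if 0 ≤ c then c * (L z + L1 z * D) else c * (U z + U1 z * D + κ / 2 * D ^ 2)

/-- Pointwise certificate with tangents at the multiples `r j * m` of the value of atom `0`. -/
def TanCertN [NeZero N] (lam d κ A ε : ℝ) (c r : Fin N → ℝ) (α : Fin N → Fin q → ℝ)
    (L L1 U U1 μ : ℝ → ℝ) : Prop :=
  0 < ε ∧ (∀ j i, 0 ≤ α j i) ∧ (∀ j, ∑ i, α j i = 1) ∧ (∀ j, 0 ≤ r j ∧ r j ≤ 1) ∧
    ∀ u, Dev u →
      (∀ j, edge lam d (α j) u ≤ A) ∧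
      ∀ m, 0 ≤ m → m ≤ A →
        ε * ss u ^ 2 ≤ ∑ j, c j * (vert (α j) u - edge lam d (α j) u) +
          ∑ j, tanTerm κ L L1 U U1 (c j) (r j * m)
            (edge lam d (α j) u - r j * edge lam d (α 0) u) +
          μ m * (edge lam d (α 0) u - m)

open PointAssembly in
/-- A tangent certificate is an affinity certificate. -/
theorem affCert_of_tanCertN [NeZero N] (hq : 2 ≤ q) (lam : ℝ)
    (hl : -(1 / ((q : ℝ) - 1)) ≤ lam) (hl' : lam ≤ 1) {G : ℝ → ℝ} {d κ A ε : ℝ}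
    {c r : Fin N → ℝ} {α : Fin N → Fin q → ℝ} {L L1 U U1 μ : ℝ → ℝ} (hd : 0 < d) (hκ : 0 ≤ κ)
    (hB : TanBd G d κ A L L1 U U1)
    (hP : TanCertN lam d κ A ε c r α L L1 U U1 μ) : AffCert q lam G := by
  obtain ⟨hε, hα0, hα1, hr, hpt⟩ := hP
  refine ⟨N, α, fun x => ∑ j, c j * x j, ε, hε, by fun_prop, hα0, hα1, fun Λ => ?_⟩
  have hE : ∀ j, Λ.E (edge lam d (α j)) = d * Λ.defectEdge (α j) lam := fun j => by
    rw [show edge lam d (α j) = pav fun u => d * (1 - aff (α j) fun i => lam * u i) from rfl,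
      E_pav, Law.defectEdge, Λ.smul_fun, Λ.sub_fun, Λ.const]
  have hV : ∀ j, Λ.E (vert (α j)) = Λ.defect (α j) := fun j => by
    rw [show vert (α j) = pav fun u => 1 - aff (α j) u from rfl, E_pav, Law.defect, Λ.sub_fun,
      Λ.const]
  set e : Fin N → ℝ := fun j => Λ.E (edge lam d (α j)) with he
  have h01 : ∀ j, 0 ≤ e j ∧ e j ≤ d := fun j => by
    simp only [he, hE, Law.defectEdge, Law.E_scale_aff hq lam hl hl']
    have h0 := (Λ.scale hq lam hl hl').E_aff_nonneg (α j)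
    have h1 := (Λ.scale hq lam hl hl').E_aff_le_one (hα0 j) (hα1 j)
    exact ⟨mul_nonneg hd.le (by linarith), mul_le_of_le_one_right hd.le (by linarith)⟩
  have hA : ∀ j, e j ≤ A := fun j =>
    le_of_le_of_eq (Λ.mono _ _ fun u hu => (hpt u hu).1 j) (Λ.const A)
  obtain ⟨m, hm⟩ : ∃ m, m = e 0 := ⟨_, rfl⟩
  have hm0 : 0 ≤ m := hm ▸ (h01 0).1
  have hmA : m ≤ A := hm ▸ hA 0
  have hterm : ∀ j,
      Λ.E (fun u => tanTerm κ L L1 U U1 (c j) (r j * m)
        (edge lam d (α j) u - r j * edge lam d (α 0) u)) ≤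
      c j * (G (1 - e j / d) - 1 + e j) := fun j => by
    have hz0 : 0 ≤ r j * m := mul_nonneg (hr j).1 hm0
    have hzA : r j * m ≤ A := (mul_le_of_le_one_left hm0 (hr j).2).trans hmA
    obtain ⟨hlo, hhi⟩ := hB _ hz0 hzA (e j) (h01 j).1 (hA j) (h01 j).2
    rw [hm] at hlo hhi hz0 hzA ⊢
    by_cases hc : 0 ≤ c j
    · simp only [tanTerm, if_pos hc, Λ.smul_fun, Λ.add_fun, Λ.sub_fun, Λ.const]
      exact mul_le_mul_of_nonneg_left hlo hc
    · simp only [tanTerm, if_neg hc, Λ.smul_fun, Λ.add_fun, Λ.sub_fun, Λ.const]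
      have hsq := E_sq Λ (fun u => edge lam d (α j) u - r j * edge lam d (α 0) u)
      simp only [Λ.sub_fun, Λ.smul_fun] at hsq
      exact mul_le_mul_of_nonpos_left
        (hhi.trans (by nlinarith [mul_le_mul_of_nonneg_left hsq (show (0:ℝ) ≤ κ / 2 by linarith)]))
        (le_of_lt (not_le.1 hc))
  have h := Λ.mono _ _ fun u hu => (hpt u hu).2 m hm0 hmA
  simp only [Λ.add_fun, E_fsum, Λ.sub_fun, Λ.smul_fun, Λ.const, hV] at h
  have hS := mul_le_mul_of_nonneg_left (E_sq Λ ss) hε.le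
  have hG1 : ∀ j, 1 - G (1 - Λ.defectEdge (α j) lam) = e j - (G (1 - e j / d) - 1 + e j) :=
    fun j => by simp only [he, hE, mul_div_cancel_left₀ _ hd.ne']; ring
  have hsum := sum_le_sum fun j (_ : j ∈ Finset.univ) => hterm j
  simp only [hG1, Law.S, mul_sub, sum_sub_distrib] at hS h hsum ⊢
  simp only [he] at hm hsum ⊢
  simp only [← hm, sub_self, add_zero] at h
  linarith

end Vale.Agent.P154.NegEnd
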