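import Vale.Agent.P154.NegEnd.TanAssembly
import Vale.Agent.P154.NegMid.Bounds

/-!
P154 NegEnd: tangent bounds of the second order remainder of Poisson trees on `[0, 23/10]`.
-/

namespace Vale.Agent.P154.NegEnd

open Finset Set NegMid.TanBd

/-- Lower bound of `exp (-x) - 1 + x`, of degree nine. -/
noncomputable def sLo (x : ℝ) : ℝ :=
  x ^ 2 / 2 - x ^ 3 / 6 + x ^ 4 / 24 - x ^ 5 / 120 + x ^ 6 / 720 - x ^ 7 / 5040 + x ^ 8 / 40320 -
    x ^ 9 / 362880

/-- Its derivative. -/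
noncomputable def sLo' (x : ℝ) : ℝ :=
  x - x ^ 2 / 2 + x ^ 3 / 6 - x ^ 4 / 24 + x ^ 5 / 120 - x ^ 6 / 720 + x ^ 7 / 5040 -
    x ^ 8 / 40320

/-- Upper bound of `exp (-x) - 1 + x`, of degree ten. -/
noncomputable def sHi (x : ℝ) : ℝ := sLo x + x ^ 10 / 3628800

/-- Its derivative. -/
noncomputable def sHi' (x : ℝ) : ℝ := sLo' x + x ^ 9 / 362880

namespace Ser

lemma sLo_eq : sLo = fun x => T 10 x - 1 + x := by
  funext x
  simp [T, sLo, Finset.sum_range_succ, Nat.factorial]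
  ring

lemma sHi_eq : sHi = fun x => T 11 x - 1 + x := by
  funext x
  simp [T, sHi, sLo, Finset.sum_range_succ, Nat.factorial]
  ring

lemma sLo'_eq : sLo' = fun x => 1 - T 9 x := by
  funext x
  simp [T, sLo', Finset.sum_range_succ, Nat.factorial]
  ring

lemma sHi'_eq : sHi' = fun x => 1 - T 10 x := by
  funext x
  simp [T, sHi', sLo', Finset.sum_range_succ, Nat.factorial]
  ring

lemma T_eight_nonneg {x : ℝ} (hx : x ∈ Icc (0 : ℝ) (23 / 10)) : 0 ≤ T 8 x := by
  have hanti : AntitoneOn (T 8) (Icc (0 : ℝ) (23 / 10)) :=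
    antitoneOn_of_hasDerivWithinAt_nonpos (convex_Icc 0 _)
      (fun y _ => (hasDerivAt_T 7 y).continuousAt.continuousWithinAt)
      (fun y _ => (hasDerivAt_T 7 y).hasDerivWithinAt)
      fun y hy => by
        have := T_sign 7 y (interior_subset hy).1
        norm_num at this
        linarith [Real.exp_pos (-y)]
  refine le_trans ?_ (hanti hx (right_mem_Icc.2 (by norm_num)) hx.2)
  simp [T, Finset.sum_range_succ, Nat.factorial]
  norm_num

lemma T_nine_le {x : ℝ} (hx : x ∈ Icc (0 : ℝ) (23 / 10)) : T 9 x ≤ 1 := by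
  obtain ⟨h0, h2⟩ := hx
  have e : T 9 x = T 8 x + x ^ 8 / 40320 := by
    simp [T, Finset.sum_range_succ, Nat.factorial, (show Even 8 by decide).neg_pow]
  have h8 := T_sign 8 x h0
  norm_num at h8
  have he : Real.exp (-x) ≤ 1 / (1 + x) := by
    rw [Real.exp_neg, one_div]
    exact inv_anti₀ (by linarith) (by linarith [Real.add_one_le_exp x])
  have hp : x ^ 7 * (1 + x) ≤ 40320 :=
    le_trans (mul_le_mul (pow_le_pow_left₀ h0 h2 7) (by linarith : 1 + x ≤ 33 / 10)
      (by linarith) (by positivity)) (by norm_num)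
  have hle : x ^ 8 / 40320 ≤ x / (1 + x) := by
    rw [div_le_div_iff₀ (by norm_num) (by linarith)]
    nlinarith [mul_le_mul_of_nonneg_left hp h0]
  have : 1 / (1 + x) + x / (1 + x) = 1 := by rw [← add_div]; exact div_self (by linarith)
  linarith

end Ser

open Ser

/-- The tangent bounds for a Poisson number of children. -/
theorem tanBd_poisson {d : ℝ} (hd : 0 < d) :
    TanBd (genPoisson d) d 1 (23 / 10) sLo sLo' sHi sHi' := by
  intro z hz hz2 a ha ha2 _
  have hG : genPoisson d (1 - a / d) = Real.exp (-a) := by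
    rw [genPoisson]
    congr 1
    field_simp
    ring
  rw [hG, sLo'_eq, sHi'_eq, sLo_eq, sHi_eq]
  have d1l : ∀ x ∈ Icc (0 : ℝ) (23 / 10), HasDerivAt (fun x => T 10 x - 1 + x) (1 - T 9 x) x :=
    fun x _ => (((hasDerivAt_T 9 x).sub_const 1).add (hasDerivAt_id x)).congr_deriv (by ring)
  have d1h : ∀ x ∈ Icc (0 : ℝ) (23 / 10), HasDerivAt (fun x => T 11 x - 1 + x) (1 - T 10 x) x :=
    fun x _ => (((hasDerivAt_T 10 x).sub_const 1).add (hasDerivAt_id x)).congr_deriv (by ring)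
  have d2l : ∀ x ∈ Icc (0 : ℝ) (23 / 10), HasDerivAt (fun x => 1 - T 9 x) (T 8 x) x :=
    fun x _ => ((hasDerivAt_T 8 x).const_sub 1).congr_deriv (by ring)
  have d2h : ∀ x ∈ Icc (0 : ℝ) (23 / 10), HasDerivAt (fun x => 1 - T 10 x) (T 9 x) x :=
    fun x _ => ((hasDerivAt_T 9 x).const_sub 1).congr_deriv (by ring)
  have l1 := tangent_le d1l d2l (fun x => T_eight_nonneg) (z := z) ⟨hz, hz2⟩ ⟨ha, ha2⟩
  have u1 := le_tangent d1h d2h (fun x => T_nine_le) (z := z) ⟨hz, hz2⟩ ⟨ha, ha2⟩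
  have h10 := T_sign 10 a ha
  have h11 := T_sign 11 a ha
  norm_num at h10 h11
  exact ⟨by linarith, by linarith⟩

end Vale.Agent.P154.NegEnd
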