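import Vale.Agent.P154.NegEnd.Param
import Vale.Agent.P154.Cert.AltCheck

/-!
P154 NegEnd: envelope polynomials in `S` and `C` as expressions in the chart.
-/

namespace Vale.Agent.P154.NegEnd

open PolyCheck

/-- `∑ k S ^ i C ^ j`. -/
def sval : List (ℤ × ℕ × ℕ) → ℝ → ℝ → ℝ
  | [], _, _ => 0
  | (k, i, j) :: l, S, C => (k : ℝ) * S ^ i * C ^ j + sval l S C

/-- The roots in the chart, as expressions. -/
def eY : Fin 3 → Ex := ![Ex.c 1, Ex.c 1 - Ex.v 0 * Ex.v 1, Ex.c 1 - Ex.v 0]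

/-- `ysum`. -/
def eYs : Ex := eY 0 ^ 6 + eY 1 ^ 6 + eY 2 ^ 6

/-- `numS`. -/
def eNS : Ex :=
  (Ex.c 3 * eY 0 ^ 6 - eYs) ^ 2 + (Ex.c 3 * eY 1 ^ 6 - eYs) ^ 2 + (Ex.c 3 * eY 2 ^ 6 - eYs) ^ 2

/-- `numC`. -/
def eNC : Ex :=
  (Ex.c 3 * eY 0 ^ 6 - eYs) ^ 3 + (Ex.c 3 * eY 1 ^ 6 - eYs) ^ 3 + (Ex.c 3 * eY 2 ^ 6 - eYs) ^ 3

/-- `pmon`. -/
def ePm (a : Fin 3 → ℕ) : Ex :=
  eY 0 ^ a 0 * eY 1 ^ a 1 * eY 2 ^ a 2 + eY 1 ^ a 0 * eY 2 ^ a 1 * eY 0 ^ a 2 +
    eY 2 ^ a 0 * eY 0 ^ a 1 * eY 1 ^ a 2 + eY 0 ^ a 0 * eY 2 ^ a 1 * eY 1 ^ a 2 +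
    eY 2 ^ a 0 * eY 1 ^ a 1 * eY 0 ^ a 2 + eY 1 ^ a 0 * eY 0 ^ a 1 * eY 2 ^ a 2

/-- `2 ysum tau`. -/
def eT (a : Fin 3 → ℕ) : Ex := Ex.c 2 * eYs - ePm a

/-- A list in weight `W`, times `6 ^ M`. -/
def polEx (W M : ℕ) : List (ℤ × ℕ × ℕ) → Ex
  | [] => Ex.c 0
  | (k, i, j) :: l =>
    Ex.c (k * 6 ^ (M - (i + j))) * (eNS ^ i * eNC ^ j * eYs ^ (W - (2 * i + 3 * j))) + polEx W M l

/-- The weights and sizes of a list. -/
def okList (W M : ℕ) (l : List (ℤ × ℕ × ℕ)) : Bool :=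
  l.all fun t => decide (2 * t.2.1 + 3 * t.2.2 ≤ W) && decide (t.2.1 + t.2.2 ≤ M)

lemma eY_eval (p z : ℝ) (i : Fin 3) : (eY i).eval (pt [p, z]) = chart p z i := by
  fin_cases i <;> simp [eY, chart]

lemma eYs_eval (p z : ℝ) : eYs.eval (pt [p, z]) = ysum (chart p z) := by
  simp only [eYs, eval_add, eval_pow, eY_eval, ysum]

lemma eNS_eval (p z : ℝ) : eNS.eval (pt [p, z]) = numS (chart p z) := by
  simp only [eNS, eval_add, eval_sub, eval_mul, eval_pow, eval_c, eYs_eval, eY_eval, numS]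
  norm_num

lemma eNC_eval (p z : ℝ) : eNC.eval (pt [p, z]) = numC (chart p z) := by
  simp only [eNC, eval_add, eval_sub, eval_mul, eval_pow, eval_c, eYs_eval, eY_eval, numC]
  norm_num

lemma eT_eval (a : Fin 3 → ℕ) (p z : ℝ) :
    (eT a).eval (pt [p, z]) = 2 * ysum (chart p z) - pmon a (chart p z) := by
  simp only [eT, ePm, eval_add, eval_sub, eval_mul, eval_pow, eval_c, eYs_eval, eY_eval, pmon]
  norm_num

lemma polEx_eval (W M : ℕ) (p z : ℝ) (hY : ysum (chart p z) ≠ 0) :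
    ∀ l, okList W M l = true → (polEx W M l).eval (pt [p, z]) =
      6 ^ M * ysum (chart p z) ^ W *
        sval l (numS (chart p z) / (6 * ysum (chart p z) ^ 2))
          (numC (chart p z) / (6 * ysum (chart p z) ^ 3))
  | [], _ => by simp [polEx, sval]
  | (k, i, j) :: l, h => by
    simp only [okList, List.all_cons, Bool.and_eq_true, decide_eq_true_eq] at h
    have ih := polEx_eval W M p z hY l h.2
    simp only [polEx, eval_add, eval_mul, eval_pow, eval_c, eNS_eval, eNC_eval, eYs_eval, ih, sval]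
    rw [mul_add]
    congr 1
    push_cast
    set Y := ysum (chart p z)
    have hM : (6 : ℝ) ^ M = 6 ^ (M - (i + j)) * 6 ^ i * 6 ^ j := by
      rw [mul_assoc, ← pow_add, ← pow_add]; congr 1; omega
    have hW : Y ^ W = Y ^ (W - (2 * i + 3 * j)) * Y ^ (2 * i) * Y ^ (3 * j) := by
      rw [mul_assoc, ← pow_add, ← pow_add]; congr 1; omega
    rw [hM, hW, div_pow, div_pow, mul_pow, mul_pow, ← pow_mul, ← pow_mul]
    field_simp

/-- Outside the range: `v` exceeds `473 / 1000`. -/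
def eOut : Ex := Ex.c 1000000 * (Ex.c 3000 - Ex.c 1473 * eYs) - Ex.c 1

/-- The alternatives of an envelope: the expression, out of range, or the expression plus a
multiple of a quantity that is nonpositive in range. -/
def envAlts (n : ℕ) (e : Ex) (ks : List ℤ) : List (List Ex) :=
  [e] :: [eOut] :: ks.map fun k => [e + Ex.c k * (Ex.c 3000 - Ex.c 1473 * eYs) * eYs ^ n]

theorem checkAlt_cut {n : ℕ} {alts : List (List Ex)} {i : ℕ} {l r : ACut} {B : List Iv}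
    (hl : checkAlt n alts l (halve Iv.low i B) = true)
    (hr : checkAlt n alts r (halve Iv.high i B) = true) :
    checkAlt n alts (.cut i l r) B = true := by
  simp [checkAlt, hl, hr]

/-- An expression certified on the unit square, in range. -/
theorem env_nonneg {e : Ex} {n : ℕ} {ks : List ℤ} {T : ACut} (hk : ∀ k ∈ ks, 0 ≤ k)
    (h : checkAlt 2 (envAlts n e ks) T [⟨0, 1, 1⟩, ⟨0, 1, 1⟩] = true) {p z : ℝ} (hp : 0 ≤ p)
    (hp1 : p ≤ 1) (hz : 0 ≤ z) (hz1 : z ≤ 1) (hY : 0 ≤ ysum (chart p z))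
    (hr : 3000 ≤ 1473 * ysum (chart p z)) :
    0 ≤ e.eval (pt [p, z]) := by
  have hm : ∀ x : ℝ, 0 ≤ x → x ≤ 1 → (⟨0, 1, 1⟩ : Iv).Mem x := fun x h0 h1 => by
    simp [Iv.Mem, h0, h1]
  obtain ⟨es, hes, hall⟩ := checkAlt_sound 2 _ T _ (pt [p, z]) h
    ⟨hm p hp hp1, hm z hz hz1, trivial⟩
  simp only [envAlts, List.mem_cons, List.mem_map] at hes
  rcases hes with rfl | rfl | ⟨k, hkm, rfl⟩
  · exact hall e (by simp)
  · have := hall eOut (by simp)
    simp only [eOut, eval_sub, eval_mul, eval_c, eYs_eval] at this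
    push_cast at this
    linarith
  · have := hall _ (List.mem_cons_self ..)
    simp only [eval_add, eval_sub, eval_mul, eval_pow, eval_c, eYs_eval] at this
    push_cast at this
    have hkr : (0 : ℝ) ≤ k := by exact_mod_cast hk k hkm
    have := mul_nonpos_of_nonpos_of_nonneg
      (mul_nonpos_of_nonneg_of_nonpos hkr
        (sub_nonpos.2 hr)) (pow_nonneg hY n)
    linarith

/-- An expression certified on the whole unit square. -/
theorem single_nonneg {e : Ex} {T : ACut}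
    (h : checkAlt 2 [[e]] T [⟨0, 1, 1⟩, ⟨0, 1, 1⟩] = true) {p z : ℝ} (hp : 0 ≤ p)
    (hp1 : p ≤ 1) (hz : 0 ≤ z) (hz1 : z ≤ 1) : 0 ≤ e.eval (pt [p, z]) := by
  obtain ⟨es, hes, hall⟩ := checkAlt_sound 2 _ T _ (pt [p, z]) h
    (show BoxMem [⟨0, 1, 1⟩, ⟨0, 1, 1⟩] (pt [p, z]) from
      ⟨by simp [Iv.Mem, pt, hp, hp1], by simp [Iv.Mem, pt, hz, hz1], trivial⟩)
  simp only [List.mem_singleton] at hes
  subst hes
  exact hall e (by simp)

end Vale.Agent.P154.NegEnd
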