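import Vale.Agent.P154.NegEnd.ClosingChk2.Leaves0
import Vale.Agent.P154.NegEnd.ClosingChk2.Leaves1
import Vale.Agent.P154.NegEnd.ClosingChk2.Leaves2

/-!
P154 NegEnd: certificate of the closing inequality in chart 2 (generated).
-/

namespace Vale.Agent.P154.NegEnd

open PolyCheck

theorem chkClo2_0 : checkAlt 4 alts2 (.leaf 0)
    [⟨0, 708, 2000⟩, ⟨-1, 1, 1⟩, ⟨447, 473, 1000⟩, ⟨0, 1517, 2000⟩] = true := leavesClosingChk20.1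

theorem chkClo2_1 : checkAlt 4 alts2 (.leaf 0)
    [⟨708, 1416, 2000⟩, ⟨-1, 1, 1⟩, ⟨447, 473, 1000⟩, ⟨0, 1517, 4000⟩] = true := leavesClosingChk20.2.1

theorem chkClo2_2 : checkAlt 4 alts2 (.leaf 0)
    [⟨708, 1416, 2000⟩, ⟨-1, 1, 1⟩, ⟨447, 473, 1000⟩, ⟨1517, 3034, 4000⟩] = true := leavesClosingChk20.2.2.1

theorem chkClo2_3 : checkAlt 4 alts2 (.cut 3 (.leaf 0) (.leaf 0))
    [⟨708, 1416, 2000⟩, ⟨-1, 1, 1⟩, ⟨447, 473, 1000⟩, ⟨0, 1517, 2000⟩] = true := checkAlt_cut chkClo2_1 chkClo2_2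

theorem chkClo2_4 : checkAlt 4 alts2 (.cut 0 (.leaf 0) (.cut 3 (.leaf 0) (.leaf 0)))
    [⟨0, 708, 1000⟩, ⟨-1, 1, 1⟩, ⟨447, 473, 1000⟩, ⟨0, 1517, 2000⟩] = true := checkAlt_cut chkClo2_0 chkClo2_3

theorem chkClo2_5 : checkAlt 4 alts2 (.leaf 0)
    [⟨0, 708, 4000⟩, ⟨-2, 0, 2⟩, ⟨447, 473, 1000⟩, ⟨6068, 7585, 8000⟩] = true := leavesClosingChk20.2.2.2

theorem chkClo2_6 : checkAlt 4 alts2 (.leaf 0)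
    [⟨0, 708, 4000⟩, ⟨-2, 0, 2⟩, ⟨447, 473, 1000⟩, ⟨7585, 9102, 8000⟩] = true := leavesClosingChk21.1

theorem chkClo2_7 : checkAlt 4 alts2 (.cut 3 (.leaf 0) (.leaf 0))
    [⟨0, 708, 4000⟩, ⟨-2, 0, 2⟩, ⟨447, 473, 1000⟩, ⟨3034, 4551, 4000⟩] = true := checkAlt_cut chkClo2_5 chkClo2_6

theorem chkClo2_8 : checkAlt 4 alts2 (.leaf 0)
    [⟨0, 708, 4000⟩, ⟨0, 2, 2⟩, ⟨447, 473, 1000⟩, ⟨6068, 7585, 8000⟩] = true := leavesClosingChk21.2.1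

theorem chkClo2_9 : checkAlt 4 alts2 (.leaf 0)
    [⟨0, 708, 4000⟩, ⟨0, 2, 2⟩, ⟨447, 473, 1000⟩, ⟨7585, 9102, 8000⟩] = true := leavesClosingChk21.2.2.1

theorem chkClo2_10 : checkAlt 4 alts2 (.cut 3 (.leaf 0) (.leaf 0))
    [⟨0, 708, 4000⟩, ⟨0, 2, 2⟩, ⟨447, 473, 1000⟩, ⟨3034, 4551, 4000⟩] = true := checkAlt_cut chkClo2_8 chkClo2_9

theorem chkClo2_11 : checkAlt 4 alts2 (.cut 1 (.cut 3 (.leaf 0) (.leaf 0)) (.cut 3 (.leaf 0) (.leaf 0)))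
    [⟨0, 708, 4000⟩, ⟨-1, 1, 1⟩, ⟨447, 473, 1000⟩, ⟨3034, 4551, 4000⟩] = true := checkAlt_cut chkClo2_7 chkClo2_10

theorem chkClo2_12 : checkAlt 4 alts2 (.leaf 0)
    [⟨708, 1416, 4000⟩, ⟨-1, 1, 1⟩, ⟨447, 473, 1000⟩, ⟨3034, 4551, 4000⟩] = true := leavesClosingChk21.2.2.2

theorem chkClo2_13 : checkAlt 4 alts2 (.cut 0 (.cut 1 (.cut 3 (.leaf 0) (.leaf 0)) (.cut 3 (.leaf 0) (.leaf 0))) (.leaf 0))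
    [⟨0, 708, 2000⟩, ⟨-1, 1, 1⟩, ⟨447, 473, 1000⟩, ⟨3034, 4551, 4000⟩] = true := checkAlt_cut chkClo2_11 chkClo2_12

theorem chkClo2_14 : checkAlt 4 alts2 (.leaf 0)
    [⟨0, 708, 2000⟩, ⟨-1, 1, 1⟩, ⟨447, 473, 1000⟩, ⟨4551, 6068, 4000⟩] = true := leavesClosingChk22.1

theorem chkClo2_15 : checkAlt 4 alts2 (.cut 3 (.cut 0 (.cut 1 (.cut 3 (.leaf 0) (.leaf 0)) (.cut 3 (.leaf 0) (.leaf 0))) (.leaf 0)) (.leaf 0))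
    [⟨0, 708, 2000⟩, ⟨-1, 1, 1⟩, ⟨447, 473, 1000⟩, ⟨1517, 3034, 2000⟩] = true := checkAlt_cut chkClo2_13 chkClo2_14

theorem chkClo2_16 : checkAlt 4 alts2 (.leaf 0)
    [⟨1416, 2124, 4000⟩, ⟨-1, 1, 1⟩, ⟨447, 473, 1000⟩, ⟨3034, 4551, 4000⟩] = true := leavesClosingChk22.2.1

theorem chkClo2_17 : checkAlt 4 alts2 (.leaf 1)
    [⟨2124, 2832, 4000⟩, ⟨-1, 1, 1⟩, ⟨447, 473, 1000⟩, ⟨3034, 4551, 4000⟩] = true := leavesClosingChk22.2.2.1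

theorem chkClo2_18 : checkAlt 4 alts2 (.cut 0 (.leaf 0) (.leaf 1))
    [⟨708, 1416, 2000⟩, ⟨-1, 1, 1⟩, ⟨447, 473, 1000⟩, ⟨3034, 4551, 4000⟩] = true := checkAlt_cut chkClo2_16 chkClo2_17

theorem chkClo2_19 : checkAlt 4 alts2 (.leaf 1)
    [⟨708, 1416, 2000⟩, ⟨-1, 1, 1⟩, ⟨447, 473, 1000⟩, ⟨4551, 6068, 4000⟩] = true := leavesClosingChk22.2.2.2

theorem chkClo2_20 : checkAlt 4 alts2 (.cut 3 (.cut 0 (.leaf 0) (.leaf 1)) (.leaf 1))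
    [⟨708, 1416, 2000⟩, ⟨-1, 1, 1⟩, ⟨447, 473, 1000⟩, ⟨1517, 3034, 2000⟩] = true := checkAlt_cut chkClo2_18 chkClo2_19

theorem chkClo2_21 : checkAlt 4 alts2 (.cut 0 (.cut 3 (.cut 0 (.cut 1 (.cut 3 (.leaf 0) (.leaf 0)) (.cut 3 (.leaf 0) (.leaf 0))) (.leaf 0)) (.leaf 0)) (.cut 3 (.cut 0 (.leaf 0) (.leaf 1)) (.leaf 1)))
    [⟨0, 708, 1000⟩, ⟨-1, 1, 1⟩, ⟨447, 473, 1000⟩, ⟨1517, 3034, 2000⟩] = true := checkAlt_cut chkClo2_15 chkClo2_20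

theorem chkClo2_22 : checkAlt 4 alts2 (.cut 3 (.cut 0 (.leaf 0) (.cut 3 (.leaf 0) (.leaf 0))) (.cut 0 (.cut 3 (.cut 0 (.cut 1 (.cut 3 (.leaf 0) (.leaf 0)) (.cut 3 (.leaf 0) (.leaf 0))) (.leaf 0)) (.leaf 0)) (.cut 3 (.cut 0 (.leaf 0) (.leaf 1)) (.leaf 1))))
    [⟨0, 708, 1000⟩, ⟨-1, 1, 1⟩, ⟨447, 473, 1000⟩, ⟨0, 1517, 1000⟩] = true := checkAlt_cut chkClo2_4 chkClo2_21

theorem chkClo2 : checkAlt 4 alts2 (.cut 3 (.cut 0 (.leaf 0) (.cut 3 (.leaf 0) (.leaf 0))) (.cut 0 (.cut 3 (.cut 0 (.cut 1 (.cut 3 (.leaf 0) (.leaf 0)) (.cut 3 (.leaf 0) (.leaf 0))) (.leaf 0)) (.leaf 0)) (.cut 3 (.cut 0 (.leaf 0) (.leaf 1)) (.leaf 1))))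
    [⟨0, 708, 1000⟩, ⟨-1, 1, 1⟩, ⟨447, 473, 1000⟩, ⟨0, 1517, 1000⟩] = true :=
  chkClo2_22

end Vale.Agent.P154.NegEnd
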