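import Vale.Agent.P154.NegEnd.ClosingData
import Vale.Agent.P154.NegEnd.EnvBase

/-!
P154 NegEnd: certificate of the closing inequality in chart 0 (generated).
-/

namespace Vale.Agent.P154.NegEnd

open PolyCheck

theorem leavesClosingChk00 :
    (checkAlt 4 alts0 (.leaf 0) [⟨12, 19, 40⟩, ⟨-4, -2, 4⟩, ⟨447, 473, 1000⟩, ⟨0, 23, 40⟩] = true) ∧
    (checkAlt 4 alts0 (.leaf 0) [⟨19, 26, 40⟩, ⟨-4, -2, 4⟩, ⟨447, 473, 1000⟩, ⟨0, 23, 40⟩] = true) ∧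
    (checkAlt 4 alts0 (.leaf 0) [⟨6, 13, 20⟩, ⟨-4, -2, 4⟩, ⟨447, 473, 1000⟩, ⟨23, 46, 40⟩] = true) ∧
    (checkAlt 4 alts0 (.leaf 0) [⟨12, 19, 40⟩, ⟨-4, -2, 8⟩, ⟨447, 473, 1000⟩, ⟨0, 23, 40⟩] = true) ∧
    (checkAlt 4 alts0 (.leaf 0) [⟨12, 19, 40⟩, ⟨-2, 0, 8⟩, ⟨447, 473, 1000⟩, ⟨0, 23, 40⟩] = true) ∧
    (checkAlt 4 alts0 (.leaf 0) [⟨19, 26, 40⟩, ⟨-2, 0, 4⟩, ⟨447, 473, 1000⟩, ⟨0, 23, 40⟩] = true) ∧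
    (checkAlt 4 alts0 (.leaf 0) [⟨6, 13, 20⟩, ⟨-2, 0, 4⟩, ⟨447, 473, 1000⟩, ⟨23, 46, 40⟩] = true) ∧
    (checkAlt 4 alts0 (.leaf 1) [⟨13, 20, 20⟩, ⟨-2, 0, 2⟩, ⟨447, 473, 1000⟩, ⟨0, 23, 20⟩] = true) ∧
    (checkAlt 4 alts0 (.leaf 0) [⟨6, 13, 20⟩, ⟨-2, 0, 2⟩, ⟨447, 473, 1000⟩, ⟨23, 46, 20⟩] = true) ∧
    (checkAlt 4 alts0 (.leaf 1) [⟨13, 20, 20⟩, ⟨-2, 0, 2⟩, ⟨447, 473, 1000⟩, ⟨23, 46, 20⟩] = true) ∧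
    (checkAlt 4 alts0 (.leaf 0) [⟨12, 19, 40⟩, ⟨0, 2, 8⟩, ⟨447, 473, 1000⟩, ⟨0, 23, 80⟩] = true) ∧
    (checkAlt 4 alts0 (.leaf 0) [⟨12, 19, 40⟩, ⟨0, 2, 8⟩, ⟨447, 473, 1000⟩, ⟨23, 46, 80⟩] = true) := by
  refine ⟨?_, ?_, ?_, ?_, ?_, ?_, ?_, ?_, ?_, ?_, ?_, ?_⟩ <;> decide +kernel

theorem leavesClosingChk01 :
    (checkAlt 4 alts0 (.leaf 0) [⟨12, 19, 40⟩, ⟨2, 4, 8⟩, ⟨447, 473, 1000⟩, ⟨0, 23, 80⟩] = true) ∧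
    (checkAlt 4 alts0 (.leaf 0) [⟨12, 19, 40⟩, ⟨2, 4, 8⟩, ⟨447, 473, 1000⟩, ⟨23, 46, 80⟩] = true) ∧
    (checkAlt 4 alts0 (.leaf 0) [⟨19, 26, 40⟩, ⟨0, 2, 4⟩, ⟨447, 473, 1000⟩, ⟨0, 23, 40⟩] = true) ∧
    (checkAlt 4 alts0 (.leaf 0) [⟨6, 13, 20⟩, ⟨0, 2, 4⟩, ⟨447, 473, 1000⟩, ⟨23, 46, 40⟩] = true) ∧
    (checkAlt 4 alts0 (.leaf 0) [⟨12, 19, 40⟩, ⟨4, 6, 8⟩, ⟨447, 473, 1000⟩, ⟨0, 23, 80⟩] = true) ∧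
    (checkAlt 4 alts0 (.leaf 0) [⟨12, 19, 40⟩, ⟨4, 6, 8⟩, ⟨447, 473, 1000⟩, ⟨23, 46, 80⟩] = true) ∧
    (checkAlt 4 alts0 (.leaf 0) [⟨12, 19, 40⟩, ⟨6, 8, 8⟩, ⟨447, 473, 1000⟩, ⟨0, 23, 80⟩] = true) ∧
    (checkAlt 4 alts0 (.leaf 0) [⟨12, 19, 40⟩, ⟨6, 8, 8⟩, ⟨447, 473, 1000⟩, ⟨23, 46, 80⟩] = true) ∧
    (checkAlt 4 alts0 (.leaf 0) [⟨19, 26, 40⟩, ⟨4, 6, 8⟩, ⟨447, 473, 1000⟩, ⟨0, 23, 40⟩] = true) ∧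
    (checkAlt 4 alts0 (.leaf 0) [⟨19, 26, 40⟩, ⟨6, 8, 8⟩, ⟨447, 473, 1000⟩, ⟨0, 23, 80⟩] = true) ∧
    (checkAlt 4 alts0 (.leaf 0) [⟨19, 26, 40⟩, ⟨6, 8, 8⟩, ⟨447, 473, 1000⟩, ⟨23, 46, 80⟩] = true) ∧
    (checkAlt 4 alts0 (.leaf 0) [⟨6, 13, 20⟩, ⟨2, 4, 4⟩, ⟨447, 473, 1000⟩, ⟨23, 46, 40⟩] = true) ∧
    (checkAlt 4 alts0 (.leaf 2) [⟨13, 20, 20⟩, ⟨0, 2, 4⟩, ⟨447, 473, 1000⟩, ⟨0, 23, 20⟩] = true) := by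
  refine ⟨?_, ?_, ?_, ?_, ?_, ?_, ?_, ?_, ?_, ?_, ?_, ?_, ?_⟩ <;> decide +kernel

theorem leavesClosingChk02 :
    (checkAlt 4 alts0 (.leaf 0) [⟨26, 33, 40⟩, ⟨2, 4, 4⟩, ⟨447, 473, 1000⟩, ⟨0, 23, 40⟩] = true) ∧
    (checkAlt 4 alts0 (.leaf 1) [⟨33, 40, 40⟩, ⟨4, 6, 8⟩, ⟨447, 473, 1000⟩, ⟨0, 23, 40⟩] = true) ∧
    (checkAlt 4 alts0 (.leaf 0) [⟨33, 40, 40⟩, ⟨6, 8, 8⟩, ⟨447, 473, 1000⟩, ⟨0, 23, 40⟩] = true) ∧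
    (checkAlt 4 alts0 (.leaf 0) [⟨26, 33, 40⟩, ⟨2, 4, 4⟩, ⟨447, 473, 1000⟩, ⟨23, 46, 40⟩] = true) ∧
    (checkAlt 4 alts0 (.leaf 1) [⟨33, 40, 40⟩, ⟨4, 6, 8⟩, ⟨447, 473, 1000⟩, ⟨23, 46, 40⟩] = true) ∧
    (checkAlt 4 alts0 (.leaf 0) [⟨66, 73, 80⟩, ⟨6, 8, 8⟩, ⟨447, 473, 1000⟩, ⟨46, 69, 80⟩] = true) ∧
    (checkAlt 4 alts0 (.leaf 3) [⟨73, 80, 80⟩, ⟨6, 8, 8⟩, ⟨447, 473, 1000⟩, ⟨46, 69, 80⟩] = true) ∧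
    (checkAlt 4 alts0 (.leaf 1) [⟨66, 73, 80⟩, ⟨12, 14, 16⟩, ⟨447, 473, 1000⟩, ⟨69, 92, 80⟩] = true) ∧
    (checkAlt 4 alts0 (.leaf 0) [⟨66, 73, 80⟩, ⟨14, 16, 16⟩, ⟨447, 473, 1000⟩, ⟨69, 92, 80⟩] = true) ∧
    (checkAlt 4 alts0 (.leaf 1) [⟨73, 80, 80⟩, ⟨12, 14, 16⟩, ⟨447, 473, 1000⟩, ⟨69, 92, 80⟩] = true) ∧
    (checkAlt 4 alts0 (.leaf 3) [⟨73, 80, 80⟩, ⟨14, 16, 16⟩, ⟨447, 473, 1000⟩, ⟨138, 161, 160⟩] = true) ∧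
    (checkAlt 4 alts0 (.leaf 3) [⟨146, 153, 160⟩, ⟨14, 16, 16⟩, ⟨447, 473, 1000⟩, ⟨161, 184, 160⟩] = true) := by
  refine ⟨?_, ?_, ?_, ?_, ?_, ?_, ?_, ?_, ?_, ?_, ?_, ?_⟩ <;> decide +kernel

theorem leavesClosingChk03 :
    (checkAlt 4 alts0 (.leaf 2) [⟨153, 160, 160⟩, ⟨14, 16, 16⟩, ⟨447, 473, 1000⟩, ⟨161, 184, 160⟩] = true) ∧
    (checkAlt 4 alts0 (.leaf 0) [⟨6, 13, 20⟩, ⟨0, 2, 2⟩, ⟨447, 473, 1000⟩, ⟨23, 46, 20⟩] = true) ∧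
    (checkAlt 4 alts0 (.leaf 2) [⟨13, 20, 20⟩, ⟨0, 2, 4⟩, ⟨447, 473, 1000⟩, ⟨23, 46, 20⟩] = true) ∧
    (checkAlt 4 alts0 (.leaf 0) [⟨26, 33, 40⟩, ⟨2, 4, 4⟩, ⟨447, 473, 1000⟩, ⟨46, 69, 40⟩] = true) ∧
    (checkAlt 4 alts0 (.leaf 1) [⟨33, 40, 40⟩, ⟨4, 6, 8⟩, ⟨447, 473, 1000⟩, ⟨46, 69, 40⟩] = true) ∧
    (checkAlt 4 alts0 (.leaf 3) [⟨66, 73, 80⟩, ⟨6, 8, 8⟩, ⟨447, 473, 1000⟩, ⟨92, 115, 80⟩] = true) ∧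
    (checkAlt 4 alts0 (.leaf 1) [⟨73, 80, 80⟩, ⟨12, 14, 16⟩, ⟨447, 473, 1000⟩, ⟨92, 115, 80⟩] = true) ∧
    (checkAlt 4 alts0 (.leaf 3) [⟨146, 153, 160⟩, ⟨14, 16, 16⟩, ⟨447, 473, 1000⟩, ⟨184, 207, 160⟩] = true) ∧
    (checkAlt 4 alts0 (.leaf 2) [⟨153, 160, 160⟩, ⟨14, 16, 16⟩, ⟨447, 473, 1000⟩, ⟨184, 207, 160⟩] = true) ∧
    (checkAlt 4 alts0 (.leaf 2) [⟨73, 80, 80⟩, ⟨14, 16, 16⟩, ⟨447, 473, 1000⟩, ⟨207, 230, 160⟩] = true) ∧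
    (checkAlt 4 alts0 (.leaf 2) [⟨33, 40, 40⟩, ⟨6, 8, 8⟩, ⟨447, 473, 1000⟩, ⟨115, 138, 80⟩] = true) ∧
    (checkAlt 4 alts0 (.leaf 0) [⟨26, 33, 40⟩, ⟨2, 4, 4⟩, ⟨447, 473, 1000⟩, ⟨69, 92, 40⟩] = true) ∧
    (checkAlt 4 alts0 (.leaf 2) [⟨33, 40, 40⟩, ⟨2, 4, 4⟩, ⟨447, 473, 1000⟩, ⟨69, 92, 40⟩] = true) := by
  refine ⟨?_, ?_, ?_, ?_, ?_, ?_, ?_, ?_, ?_, ?_, ?_, ?_, ?_⟩ <;> decide +kernel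

theorem chkClo0_0 : checkAlt 4 alts0 (.leaf 0)
    [⟨12, 19, 40⟩, ⟨-4, -2, 4⟩, ⟨447, 473, 1000⟩, ⟨0, 23, 40⟩] = true := leavesClosingChk00.1

theorem chkClo0_1 : checkAlt 4 alts0 (.leaf 0)
    [⟨19, 26, 40⟩, ⟨-4, -2, 4⟩, ⟨447, 473, 1000⟩, ⟨0, 23, 40⟩] = true := leavesClosingChk00.2.1

theorem chkClo0_2 : checkAlt 4 alts0 (.cut 0 (.leaf 0) (.leaf 0))
    [⟨6, 13, 20⟩, ⟨-4, -2, 4⟩, ⟨447, 473, 1000⟩, ⟨0, 23, 40⟩] = true := checkAlt_cut chkClo0_0 chkClo0_1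

theorem chkClo0_3 : checkAlt 4 alts0 (.leaf 0)
    [⟨6, 13, 20⟩, ⟨-4, -2, 4⟩, ⟨447, 473, 1000⟩, ⟨23, 46, 40⟩] = true := leavesClosingChk00.2.2.1

theorem chkClo0_4 : checkAlt 4 alts0 (.cut 3 (.cut 0 (.leaf 0) (.leaf 0)) (.leaf 0))
    [⟨6, 13, 20⟩, ⟨-4, -2, 4⟩, ⟨447, 473, 1000⟩, ⟨0, 23, 20⟩] = true := checkAlt_cut chkClo0_2 chkClo0_3

theorem chkClo0_5 : checkAlt 4 alts0 (.leaf 0)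
    [⟨12, 19, 40⟩, ⟨-4, -2, 8⟩, ⟨447, 473, 1000⟩, ⟨0, 23, 40⟩] = true := leavesClosingChk00.2.2.2.1

theorem chkClo0_6 : checkAlt 4 alts0 (.leaf 0)
    [⟨12, 19, 40⟩, ⟨-2, 0, 8⟩, ⟨447, 473, 1000⟩, ⟨0, 23, 40⟩] = true := leavesClosingChk00.2.2.2.2.1

theorem chkClo0_7 : checkAlt 4 alts0 (.cut 1 (.leaf 0) (.leaf 0))
    [⟨12, 19, 40⟩, ⟨-2, 0, 4⟩, ⟨447, 473, 1000⟩, ⟨0, 23, 40⟩] = true := checkAlt_cut chkClo0_5 chkClo0_6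

theorem chkClo0_8 : checkAlt 4 alts0 (.leaf 0)
    [⟨19, 26, 40⟩, ⟨-2, 0, 4⟩, ⟨447, 473, 1000⟩, ⟨0, 23, 40⟩] = true := leavesClosingChk00.2.2.2.2.2.1

theorem chkClo0_9 : checkAlt 4 alts0 (.cut 0 (.cut 1 (.leaf 0) (.leaf 0)) (.leaf 0))
    [⟨6, 13, 20⟩, ⟨-2, 0, 4⟩, ⟨447, 473, 1000⟩, ⟨0, 23, 40⟩] = true := checkAlt_cut chkClo0_7 chkClo0_8

theorem chkClo0_10 : checkAlt 4 alts0 (.leaf 0)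
    [⟨6, 13, 20⟩, ⟨-2, 0, 4⟩, ⟨447, 473, 1000⟩, ⟨23, 46, 40⟩] = true := leavesClosingChk00.2.2.2.2.2.2.1

theorem chkClo0_11 : checkAlt 4 alts0 (.cut 3 (.cut 0 (.cut 1 (.leaf 0) (.leaf 0)) (.leaf 0)) (.leaf 0))
    [⟨6, 13, 20⟩, ⟨-2, 0, 4⟩, ⟨447, 473, 1000⟩, ⟨0, 23, 20⟩] = true := checkAlt_cut chkClo0_9 chkClo0_10

theorem chkClo0_12 : checkAlt 4 alts0 (.cut 1 (.cut 3 (.cut 0 (.leaf 0) (.leaf 0)) (.leaf 0)) (.cut 3 (.cut 0 (.cut 1 (.leaf 0) (.leaf 0)) (.leaf 0)) (.leaf 0)))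
    [⟨6, 13, 20⟩, ⟨-2, 0, 2⟩, ⟨447, 473, 1000⟩, ⟨0, 23, 20⟩] = true := checkAlt_cut chkClo0_4 chkClo0_11

theorem chkClo0_13 : checkAlt 4 alts0 (.leaf 1)
    [⟨13, 20, 20⟩, ⟨-2, 0, 2⟩, ⟨447, 473, 1000⟩, ⟨0, 23, 20⟩] = true := leavesClosingChk00.2.2.2.2.2.2.2.1

theorem chkClo0_14 : checkAlt 4 alts0 (.cut 0 (.cut 1 (.cut 3 (.cut 0 (.leaf 0) (.leaf 0)) (.leaf 0)) (.cut 3 (.cut 0 (.cut 1 (.leaf 0) (.leaf 0)) (.leaf 0)) (.leaf 0))) (.leaf 1))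
    [⟨3, 10, 10⟩, ⟨-2, 0, 2⟩, ⟨447, 473, 1000⟩, ⟨0, 23, 20⟩] = true := checkAlt_cut chkClo0_12 chkClo0_13

theorem chkClo0_15 : checkAlt 4 alts0 (.leaf 0)
    [⟨6, 13, 20⟩, ⟨-2, 0, 2⟩, ⟨447, 473, 1000⟩, ⟨23, 46, 20⟩] = true := leavesClosingChk00.2.2.2.2.2.2.2.2.1

theorem chkClo0_16 : checkAlt 4 alts0 (.leaf 1)
    [⟨13, 20, 20⟩, ⟨-2, 0, 2⟩, ⟨447, 473, 1000⟩, ⟨23, 46, 20⟩] = true := leavesClosingChk00.2.2.2.2.2.2.2.2.2.1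

theorem chkClo0_17 : checkAlt 4 alts0 (.cut 0 (.leaf 0) (.leaf 1))
    [⟨3, 10, 10⟩, ⟨-2, 0, 2⟩, ⟨447, 473, 1000⟩, ⟨23, 46, 20⟩] = true := checkAlt_cut chkClo0_15 chkClo0_16

theorem chkClo0_18 : checkAlt 4 alts0 (.cut 3 (.cut 0 (.cut 1 (.cut 3 (.cut 0 (.leaf 0) (.leaf 0)) (.leaf 0)) (.cut 3 (.cut 0 (.cut 1 (.leaf 0) (.leaf 0)) (.leaf 0)) (.leaf 0))) (.leaf 1)) (.cut 0 (.leaf 0) (.leaf 1)))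
    [⟨3, 10, 10⟩, ⟨-2, 0, 2⟩, ⟨447, 473, 1000⟩, ⟨0, 23, 10⟩] = true := checkAlt_cut chkClo0_14 chkClo0_17

theorem chkClo0_19 : checkAlt 4 alts0 (.leaf 0)
    [⟨12, 19, 40⟩, ⟨0, 2, 8⟩, ⟨447, 473, 1000⟩, ⟨0, 23, 80⟩] = true := leavesClosingChk00.2.2.2.2.2.2.2.2.2.2.1

theorem chkClo0_20 : checkAlt 4 alts0 (.leaf 0)
    [⟨12, 19, 40⟩, ⟨0, 2, 8⟩, ⟨447, 473, 1000⟩, ⟨23, 46, 80⟩] = true := leavesClosingChk00.2.2.2.2.2.2.2.2.2.2.2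

theorem chkClo0_21 : checkAlt 4 alts0 (.cut 3 (.leaf 0) (.leaf 0))
    [⟨12, 19, 40⟩, ⟨0, 2, 8⟩, ⟨447, 473, 1000⟩, ⟨0, 23, 40⟩] = true := checkAlt_cut chkClo0_19 chkClo0_20

theorem chkClo0_22 : checkAlt 4 alts0 (.leaf 0)
    [⟨12, 19, 40⟩, ⟨2, 4, 8⟩, ⟨447, 473, 1000⟩, ⟨0, 23, 80⟩] = true := leavesClosingChk01.1

theorem chkClo0_23 : checkAlt 4 alts0 (.leaf 0)
    [⟨12, 19, 40⟩, ⟨2, 4, 8⟩, ⟨447, 473, 1000⟩, ⟨23, 46, 80⟩] = true := leavesClosingChk01.2.1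

theorem chkClo0_24 : checkAlt 4 alts0 (.cut 3 (.leaf 0) (.leaf 0))
    [⟨12, 19, 40⟩, ⟨2, 4, 8⟩, ⟨447, 473, 1000⟩, ⟨0, 23, 40⟩] = true := checkAlt_cut chkClo0_22 chkClo0_23

theorem chkClo0_25 : checkAlt 4 alts0 (.cut 1 (.cut 3 (.leaf 0) (.leaf 0)) (.cut 3 (.leaf 0) (.leaf 0)))
    [⟨12, 19, 40⟩, ⟨0, 2, 4⟩, ⟨447, 473, 1000⟩, ⟨0, 23, 40⟩] = true := checkAlt_cut chkClo0_21 chkClo0_24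

theorem chkClo0_26 : checkAlt 4 alts0 (.leaf 0)
    [⟨19, 26, 40⟩, ⟨0, 2, 4⟩, ⟨447, 473, 1000⟩, ⟨0, 23, 40⟩] = true := leavesClosingChk01.2.2.1

theorem chkClo0_27 : checkAlt 4 alts0 (.cut 0 (.cut 1 (.cut 3 (.leaf 0) (.leaf 0)) (.cut 3 (.leaf 0) (.leaf 0))) (.leaf 0))
    [⟨6, 13, 20⟩, ⟨0, 2, 4⟩, ⟨447, 473, 1000⟩, ⟨0, 23, 40⟩] = true := checkAlt_cut chkClo0_25 chkClo0_26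

theorem chkClo0_28 : checkAlt 4 alts0 (.leaf 0)
    [⟨6, 13, 20⟩, ⟨0, 2, 4⟩, ⟨447, 473, 1000⟩, ⟨23, 46, 40⟩] = true := leavesClosingChk01.2.2.2.1

theorem chkClo0_29 : checkAlt 4 alts0 (.cut 3 (.cut 0 (.cut 1 (.cut 3 (.leaf 0) (.leaf 0)) (.cut 3 (.leaf 0) (.leaf 0))) (.leaf 0)) (.leaf 0))
    [⟨6, 13, 20⟩, ⟨0, 2, 4⟩, ⟨447, 473, 1000⟩, ⟨0, 23, 20⟩] = true := checkAlt_cut chkClo0_27 chkClo0_28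

theorem chkClo0_30 : checkAlt 4 alts0 (.leaf 0)
    [⟨12, 19, 40⟩, ⟨4, 6, 8⟩, ⟨447, 473, 1000⟩, ⟨0, 23, 80⟩] = true := leavesClosingChk01.2.2.2.2.1

theorem chkClo0_31 : checkAlt 4 alts0 (.leaf 0)
    [⟨12, 19, 40⟩, ⟨4, 6, 8⟩, ⟨447, 473, 1000⟩, ⟨23, 46, 80⟩] = true := leavesClosingChk01.2.2.2.2.2.1

theorem chkClo0_32 : checkAlt 4 alts0 (.cut 3 (.leaf 0) (.leaf 0))
    [⟨12, 19, 40⟩, ⟨4, 6, 8⟩, ⟨447, 473, 1000⟩, ⟨0, 23, 40⟩] = true := checkAlt_cut chkClo0_30 chkClo0_31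

theorem chkClo0_33 : checkAlt 4 alts0 (.leaf 0)
    [⟨12, 19, 40⟩, ⟨6, 8, 8⟩, ⟨447, 473, 1000⟩, ⟨0, 23, 80⟩] = true := leavesClosingChk01.2.2.2.2.2.2.1

theorem chkClo0_34 : checkAlt 4 alts0 (.leaf 0)
    [⟨12, 19, 40⟩, ⟨6, 8, 8⟩, ⟨447, 473, 1000⟩, ⟨23, 46, 80⟩] = true := leavesClosingChk01.2.2.2.2.2.2.2.1

theorem chkClo0_35 : checkAlt 4 alts0 (.cut 3 (.leaf 0) (.leaf 0))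
    [⟨12, 19, 40⟩, ⟨6, 8, 8⟩, ⟨447, 473, 1000⟩, ⟨0, 23, 40⟩] = true := checkAlt_cut chkClo0_33 chkClo0_34

theorem chkClo0_36 : checkAlt 4 alts0 (.cut 1 (.cut 3 (.leaf 0) (.leaf 0)) (.cut 3 (.leaf 0) (.leaf 0)))
    [⟨12, 19, 40⟩, ⟨2, 4, 4⟩, ⟨447, 473, 1000⟩, ⟨0, 23, 40⟩] = true := checkAlt_cut chkClo0_32 chkClo0_35

theorem chkClo0_37 : checkAlt 4 alts0 (.leaf 0)
    [⟨19, 26, 40⟩, ⟨4, 6, 8⟩, ⟨447, 473, 1000⟩, ⟨0, 23, 40⟩] = true := leavesClosingChk01.2.2.2.2.2.2.2.2.1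

theorem chkClo0_38 : checkAlt 4 alts0 (.leaf 0)
    [⟨19, 26, 40⟩, ⟨6, 8, 8⟩, ⟨447, 473, 1000⟩, ⟨0, 23, 80⟩] = true := leavesClosingChk01.2.2.2.2.2.2.2.2.2.1

theorem chkClo0_39 : checkAlt 4 alts0 (.leaf 0)
    [⟨19, 26, 40⟩, ⟨6, 8, 8⟩, ⟨447, 473, 1000⟩, ⟨23, 46, 80⟩] = true := leavesClosingChk01.2.2.2.2.2.2.2.2.2.2.1

theorem chkClo0_40 : checkAlt 4 alts0 (.cut 3 (.leaf 0) (.leaf 0))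
    [⟨19, 26, 40⟩, ⟨6, 8, 8⟩, ⟨447, 473, 1000⟩, ⟨0, 23, 40⟩] = true := checkAlt_cut chkClo0_38 chkClo0_39

theorem chkClo0_41 : checkAlt 4 alts0 (.cut 1 (.leaf 0) (.cut 3 (.leaf 0) (.leaf 0)))
    [⟨19, 26, 40⟩, ⟨2, 4, 4⟩, ⟨447, 473, 1000⟩, ⟨0, 23, 40⟩] = true := checkAlt_cut chkClo0_37 chkClo0_40

theorem chkClo0_42 : checkAlt 4 alts0 (.cut 0 (.cut 1 (.cut 3 (.leaf 0) (.leaf 0)) (.cut 3 (.leaf 0) (.leaf 0))) (.cut 1 (.leaf 0) (.cut 3 (.leaf 0) (.leaf 0))))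
    [⟨6, 13, 20⟩, ⟨2, 4, 4⟩, ⟨447, 473, 1000⟩, ⟨0, 23, 40⟩] = true := checkAlt_cut chkClo0_36 chkClo0_41

theorem chkClo0_43 : checkAlt 4 alts0 (.leaf 0)
    [⟨6, 13, 20⟩, ⟨2, 4, 4⟩, ⟨447, 473, 1000⟩, ⟨23, 46, 40⟩] = true := leavesClosingChk01.2.2.2.2.2.2.2.2.2.2.2.1

theorem chkClo0_44 : checkAlt 4 alts0 (.cut 3 (.cut 0 (.cut 1 (.cut 3 (.leaf 0) (.leaf 0)) (.cut 3 (.leaf 0) (.leaf 0))) (.cut 1 (.leaf 0) (.cut 3 (.leaf 0) (.leaf 0)))) (.leaf 0))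
    [⟨6, 13, 20⟩, ⟨2, 4, 4⟩, ⟨447, 473, 1000⟩, ⟨0, 23, 20⟩] = true := checkAlt_cut chkClo0_42 chkClo0_43

theorem chkClo0_45 : checkAlt 4 alts0 (.cut 1 (.cut 3 (.cut 0 (.cut 1 (.cut 3 (.leaf 0) (.leaf 0)) (.cut 3 (.leaf 0) (.leaf 0))) (.leaf 0)) (.leaf 0)) (.cut 3 (.cut 0 (.cut 1 (.cut 3 (.leaf 0) (.leaf 0)) (.cut 3 (.leaf 0) (.leaf 0))) (.cut 1 (.leaf 0) (.cut 3 (.leaf 0) (.leaf 0)))) (.leaf 0)))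
    [⟨6, 13, 20⟩, ⟨0, 2, 2⟩, ⟨447, 473, 1000⟩, ⟨0, 23, 20⟩] = true := checkAlt_cut chkClo0_29 chkClo0_44

theorem chkClo0_46 : checkAlt 4 alts0 (.leaf 2)
    [⟨13, 20, 20⟩, ⟨0, 2, 4⟩, ⟨447, 473, 1000⟩, ⟨0, 23, 20⟩] = true := leavesClosingChk01.2.2.2.2.2.2.2.2.2.2.2.2

theorem chkClo0_47 : checkAlt 4 alts0 (.leaf 0)
    [⟨26, 33, 40⟩, ⟨2, 4, 4⟩, ⟨447, 473, 1000⟩, ⟨0, 23, 40⟩] = true := leavesClosingChk02.1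

theorem chkClo0_48 : checkAlt 4 alts0 (.leaf 1)
    [⟨33, 40, 40⟩, ⟨4, 6, 8⟩, ⟨447, 473, 1000⟩, ⟨0, 23, 40⟩] = true := leavesClosingChk02.2.1

theorem chkClo0_49 : checkAlt 4 alts0 (.leaf 0)
    [⟨33, 40, 40⟩, ⟨6, 8, 8⟩, ⟨447, 473, 1000⟩, ⟨0, 23, 40⟩] = true := leavesClosingChk02.2.2.1

theorem chkClo0_50 : checkAlt 4 alts0 (.cut 1 (.leaf 1) (.leaf 0))
    [⟨33, 40, 40⟩, ⟨2, 4, 4⟩, ⟨447, 473, 1000⟩, ⟨0, 23, 40⟩] = true := checkAlt_cut chkClo0_48 chkClo0_49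

theorem chkClo0_51 : checkAlt 4 alts0 (.cut 0 (.leaf 0) (.cut 1 (.leaf 1) (.leaf 0)))
    [⟨13, 20, 20⟩, ⟨2, 4, 4⟩, ⟨447, 473, 1000⟩, ⟨0, 23, 40⟩] = true := checkAlt_cut chkClo0_47 chkClo0_50

theorem chkClo0_52 : checkAlt 4 alts0 (.leaf 0)
    [⟨26, 33, 40⟩, ⟨2, 4, 4⟩, ⟨447, 473, 1000⟩, ⟨23, 46, 40⟩] = true := leavesClosingChk02.2.2.2.1

theorem chkClo0_53 : checkAlt 4 alts0 (.leaf 1)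
    [⟨33, 40, 40⟩, ⟨4, 6, 8⟩, ⟨447, 473, 1000⟩, ⟨23, 46, 40⟩] = true := leavesClosingChk02.2.2.2.2.1

theorem chkClo0_54 : checkAlt 4 alts0 (.leaf 0)
    [⟨66, 73, 80⟩, ⟨6, 8, 8⟩, ⟨447, 473, 1000⟩, ⟨46, 69, 80⟩] = true := leavesClosingChk02.2.2.2.2.2.1

theorem chkClo0_55 : checkAlt 4 alts0 (.leaf 3)
    [⟨73, 80, 80⟩, ⟨6, 8, 8⟩, ⟨447, 473, 1000⟩, ⟨46, 69, 80⟩] = true := leavesClosingChk02.2.2.2.2.2.2.1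

theorem chkClo0_56 : checkAlt 4 alts0 (.cut 0 (.leaf 0) (.leaf 3))
    [⟨33, 40, 40⟩, ⟨6, 8, 8⟩, ⟨447, 473, 1000⟩, ⟨46, 69, 80⟩] = true := checkAlt_cut chkClo0_54 chkClo0_55

theorem chkClo0_57 : checkAlt 4 alts0 (.leaf 1)
    [⟨66, 73, 80⟩, ⟨12, 14, 16⟩, ⟨447, 473, 1000⟩, ⟨69, 92, 80⟩] = true := leavesClosingChk02.2.2.2.2.2.2.2.1

theorem chkClo0_58 : checkAlt 4 alts0 (.leaf 0)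
    [⟨66, 73, 80⟩, ⟨14, 16, 16⟩, ⟨447, 473, 1000⟩, ⟨69, 92, 80⟩] = true := leavesClosingChk02.2.2.2.2.2.2.2.2.1

theorem chkClo0_59 : checkAlt 4 alts0 (.cut 1 (.leaf 1) (.leaf 0))
    [⟨66, 73, 80⟩, ⟨6, 8, 8⟩, ⟨447, 473, 1000⟩, ⟨69, 92, 80⟩] = true := checkAlt_cut chkClo0_57 chkClo0_58

theorem chkClo0_60 : checkAlt 4 alts0 (.leaf 1)
    [⟨73, 80, 80⟩, ⟨12, 14, 16⟩, ⟨447, 473, 1000⟩, ⟨69, 92, 80⟩] = true := leavesClosingChk02.2.2.2.2.2.2.2.2.2.1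

theorem chkClo0_61 : checkAlt 4 alts0 (.leaf 3)
    [⟨73, 80, 80⟩, ⟨14, 16, 16⟩, ⟨447, 473, 1000⟩, ⟨138, 161, 160⟩] = true := leavesClosingChk02.2.2.2.2.2.2.2.2.2.2.1

theorem chkClo0_62 : checkAlt 4 alts0 (.leaf 3)
    [⟨146, 153, 160⟩, ⟨14, 16, 16⟩, ⟨447, 473, 1000⟩, ⟨161, 184, 160⟩] = true := leavesClosingChk02.2.2.2.2.2.2.2.2.2.2.2

theorem chkClo0_63 : checkAlt 4 alts0 (.leaf 2)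
    [⟨153, 160, 160⟩, ⟨14, 16, 16⟩, ⟨447, 473, 1000⟩, ⟨161, 184, 160⟩] = true := leavesClosingChk03.1

theorem chkClo0_64 : checkAlt 4 alts0 (.cut 0 (.leaf 3) (.leaf 2))
    [⟨73, 80, 80⟩, ⟨14, 16, 16⟩, ⟨447, 473, 1000⟩, ⟨161, 184, 160⟩] = true := checkAlt_cut chkClo0_62 chkClo0_63

theorem chkClo0_65 : checkAlt 4 alts0 (.cut 3 (.leaf 3) (.cut 0 (.leaf 3) (.leaf 2)))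
    [⟨73, 80, 80⟩, ⟨14, 16, 16⟩, ⟨447, 473, 1000⟩, ⟨69, 92, 80⟩] = true := checkAlt_cut chkClo0_61 chkClo0_64

theorem chkClo0_66 : checkAlt 4 alts0 (.cut 1 (.leaf 1) (.cut 3 (.leaf 3) (.cut 0 (.leaf 3) (.leaf 2))))
    [⟨73, 80, 80⟩, ⟨6, 8, 8⟩, ⟨447, 473, 1000⟩, ⟨69, 92, 80⟩] = true := checkAlt_cut chkClo0_60 chkClo0_65

theorem chkClo0_67 : checkAlt 4 alts0 (.cut 0 (.cut 1 (.leaf 1) (.leaf 0)) (.cut 1 (.leaf 1) (.cut 3 (.leaf 3) (.cut 0 (.leaf 3) (.leaf 2)))))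
    [⟨33, 40, 40⟩, ⟨6, 8, 8⟩, ⟨447, 473, 1000⟩, ⟨69, 92, 80⟩] = true := checkAlt_cut chkClo0_59 chkClo0_66

theorem chkClo0_68 : checkAlt 4 alts0 (.cut 3 (.cut 0 (.leaf 0) (.leaf 3)) (.cut 0 (.cut 1 (.leaf 1) (.leaf 0)) (.cut 1 (.leaf 1) (.cut 3 (.leaf 3) (.cut 0 (.leaf 3) (.leaf 2))))))
    [⟨33, 40, 40⟩, ⟨6, 8, 8⟩, ⟨447, 473, 1000⟩, ⟨23, 46, 40⟩] = true := checkAlt_cut chkClo0_56 chkClo0_67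

theorem chkClo0_69 : checkAlt 4 alts0 (.cut 1 (.leaf 1) (.cut 3 (.cut 0 (.leaf 0) (.leaf 3)) (.cut 0 (.cut 1 (.leaf 1) (.leaf 0)) (.cut 1 (.leaf 1) (.cut 3 (.leaf 3) (.cut 0 (.leaf 3) (.leaf 2)))))))
    [⟨33, 40, 40⟩, ⟨2, 4, 4⟩, ⟨447, 473, 1000⟩, ⟨23, 46, 40⟩] = true := checkAlt_cut chkClo0_53 chkClo0_68

theorem chkClo0_70 : checkAlt 4 alts0 (.cut 0 (.leaf 0) (.cut 1 (.leaf 1) (.cut 3 (.cut 0 (.leaf 0) (.leaf 3)) (.cut 0 (.cut 1 (.leaf 1) (.leaf 0)) (.cut 1 (.leaf 1) (.cut 3 (.leaf 3) (.cut 0 (.leaf 3) (.leaf 2))))))))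
    [⟨13, 20, 20⟩, ⟨2, 4, 4⟩, ⟨447, 473, 1000⟩, ⟨23, 46, 40⟩] = true := checkAlt_cut chkClo0_52 chkClo0_69

theorem chkClo0_71 : checkAlt 4 alts0 (.cut 3 (.cut 0 (.leaf 0) (.cut 1 (.leaf 1) (.leaf 0))) (.cut 0 (.leaf 0) (.cut 1 (.leaf 1) (.cut 3 (.cut 0 (.leaf 0) (.leaf 3)) (.cut 0 (.cut 1 (.leaf 1) (.leaf 0)) (.cut 1 (.leaf 1) (.cut 3 (.leaf 3) (.cut 0 (.leaf 3) (.leaf 2)))))))))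
    [⟨13, 20, 20⟩, ⟨2, 4, 4⟩, ⟨447, 473, 1000⟩, ⟨0, 23, 20⟩] = true := checkAlt_cut chkClo0_51 chkClo0_70

theorem chkClo0_72 : checkAlt 4 alts0 (.cut 1 (.leaf 2) (.cut 3 (.cut 0 (.leaf 0) (.cut 1 (.leaf 1) (.leaf 0))) (.cut 0 (.leaf 0) (.cut 1 (.leaf 1) (.cut 3 (.cut 0 (.leaf 0) (.leaf 3)) (.cut 0 (.cut 1 (.leaf 1) (.leaf 0)) (.cut 1 (.leaf 1) (.cut 3 (.leaf 3) (.cut 0 (.leaf 3) (.leaf 2))))))))))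
    [⟨13, 20, 20⟩, ⟨0, 2, 2⟩, ⟨447, 473, 1000⟩, ⟨0, 23, 20⟩] = true := checkAlt_cut chkClo0_46 chkClo0_71

theorem chkClo0_73 : checkAlt 4 alts0 (.cut 0 (.cut 1 (.cut 3 (.cut 0 (.cut 1 (.cut 3 (.leaf 0) (.leaf 0)) (.cut 3 (.leaf 0) (.leaf 0))) (.leaf 0)) (.leaf 0)) (.cut 3 (.cut 0 (.cut 1 (.cut 3 (.leaf 0) (.leaf 0)) (.cut 3 (.leaf 0) (.leaf 0))) (.cut 1 (.leaf 0) (.cut 3 (.leaf 0) (.leaf 0)))) (.leaf 0))) (.cut 1 (.leaf 2) (.cut 3 (.cut 0 (.leaf 0) (.cut 1 (.leaf 1) (.leaf 0))) (.cut 0 (.leaf 0) (.cut 1 (.leaf 1) (.cut 3 (.cut 0 (.leaf 0) (.leaf 3)) (.cut 0 (.cut 1 (.leaf 1) (.leaf 0)) (.cut 1 (.leaf 1) (.cut 3 (.leaf 3) (.cut 0 (.leaf 3) (.leaf 2)))))))))))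
    [⟨3, 10, 10⟩, ⟨0, 2, 2⟩, ⟨447, 473, 1000⟩, ⟨0, 23, 20⟩] = true := checkAlt_cut chkClo0_45 chkClo0_72

theorem chkClo0_74 : checkAlt 4 alts0 (.leaf 0)
    [⟨6, 13, 20⟩, ⟨0, 2, 2⟩, ⟨447, 473, 1000⟩, ⟨23, 46, 20⟩] = true := leavesClosingChk03.2.1

theorem chkClo0_75 : checkAlt 4 alts0 (.leaf 2)
    [⟨13, 20, 20⟩, ⟨0, 2, 4⟩, ⟨447, 473, 1000⟩, ⟨23, 46, 20⟩] = true := leavesClosingChk03.2.2.1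

theorem chkClo0_76 : checkAlt 4 alts0 (.leaf 0)
    [⟨26, 33, 40⟩, ⟨2, 4, 4⟩, ⟨447, 473, 1000⟩, ⟨46, 69, 40⟩] = true := leavesClosingChk03.2.2.2.1

theorem chkClo0_77 : checkAlt 4 alts0 (.leaf 1)
    [⟨33, 40, 40⟩, ⟨4, 6, 8⟩, ⟨447, 473, 1000⟩, ⟨46, 69, 40⟩] = true := leavesClosingChk03.2.2.2.2.1

theorem chkClo0_78 : checkAlt 4 alts0 (.leaf 3)
    [⟨66, 73, 80⟩, ⟨6, 8, 8⟩, ⟨447, 473, 1000⟩, ⟨92, 115, 80⟩] = true := leavesClosingChk03.2.2.2.2.2.1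

theorem chkClo0_79 : checkAlt 4 alts0 (.leaf 1)
    [⟨73, 80, 80⟩, ⟨12, 14, 16⟩, ⟨447, 473, 1000⟩, ⟨92, 115, 80⟩] = true := leavesClosingChk03.2.2.2.2.2.2.1

theorem chkClo0_80 : checkAlt 4 alts0 (.leaf 3)
    [⟨146, 153, 160⟩, ⟨14, 16, 16⟩, ⟨447, 473, 1000⟩, ⟨184, 207, 160⟩] = true := leavesClosingChk03.2.2.2.2.2.2.2.1

theorem chkClo0_81 : checkAlt 4 alts0 (.leaf 2)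
    [⟨153, 160, 160⟩, ⟨14, 16, 16⟩, ⟨447, 473, 1000⟩, ⟨184, 207, 160⟩] = true := leavesClosingChk03.2.2.2.2.2.2.2.2.1

theorem chkClo0_82 : checkAlt 4 alts0 (.cut 0 (.leaf 3) (.leaf 2))
    [⟨73, 80, 80⟩, ⟨14, 16, 16⟩, ⟨447, 473, 1000⟩, ⟨184, 207, 160⟩] = true := checkAlt_cut chkClo0_80 chkClo0_81

theorem chkClo0_83 : checkAlt 4 alts0 (.leaf 2)
    [⟨73, 80, 80⟩, ⟨14, 16, 16⟩, ⟨447, 473, 1000⟩, ⟨207, 230, 160⟩] = true := leavesClosingChk03.2.2.2.2.2.2.2.2.2.1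

theorem chkClo0_84 : checkAlt 4 alts0 (.cut 3 (.cut 0 (.leaf 3) (.leaf 2)) (.leaf 2))
    [⟨73, 80, 80⟩, ⟨14, 16, 16⟩, ⟨447, 473, 1000⟩, ⟨92, 115, 80⟩] = true := checkAlt_cut chkClo0_82 chkClo0_83

theorem chkClo0_85 : checkAlt 4 alts0 (.cut 1 (.leaf 1) (.cut 3 (.cut 0 (.leaf 3) (.leaf 2)) (.leaf 2)))
    [⟨73, 80, 80⟩, ⟨6, 8, 8⟩, ⟨447, 473, 1000⟩, ⟨92, 115, 80⟩] = true := checkAlt_cut chkClo0_79 chkClo0_84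

theorem chkClo0_86 : checkAlt 4 alts0 (.cut 0 (.leaf 3) (.cut 1 (.leaf 1) (.cut 3 (.cut 0 (.leaf 3) (.leaf 2)) (.leaf 2))))
    [⟨33, 40, 40⟩, ⟨6, 8, 8⟩, ⟨447, 473, 1000⟩, ⟨92, 115, 80⟩] = true := checkAlt_cut chkClo0_78 chkClo0_85

theorem chkClo0_87 : checkAlt 4 alts0 (.leaf 2)
    [⟨33, 40, 40⟩, ⟨6, 8, 8⟩, ⟨447, 473, 1000⟩, ⟨115, 138, 80⟩] = true := leavesClosingChk03.2.2.2.2.2.2.2.2.2.2.1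

theorem chkClo0_88 : checkAlt 4 alts0 (.cut 3 (.cut 0 (.leaf 3) (.cut 1 (.leaf 1) (.cut 3 (.cut 0 (.leaf 3) (.leaf 2)) (.leaf 2)))) (.leaf 2))
    [⟨33, 40, 40⟩, ⟨6, 8, 8⟩, ⟨447, 473, 1000⟩, ⟨46, 69, 40⟩] = true := checkAlt_cut chkClo0_86 chkClo0_87

theorem chkClo0_89 : checkAlt 4 alts0 (.cut 1 (.leaf 1) (.cut 3 (.cut 0 (.leaf 3) (.cut 1 (.leaf 1) (.cut 3 (.cut 0 (.leaf 3) (.leaf 2)) (.leaf 2)))) (.leaf 2)))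
    [⟨33, 40, 40⟩, ⟨2, 4, 4⟩, ⟨447, 473, 1000⟩, ⟨46, 69, 40⟩] = true := checkAlt_cut chkClo0_77 chkClo0_88

theorem chkClo0_90 : checkAlt 4 alts0 (.cut 0 (.leaf 0) (.cut 1 (.leaf 1) (.cut 3 (.cut 0 (.leaf 3) (.cut 1 (.leaf 1) (.cut 3 (.cut 0 (.leaf 3) (.leaf 2)) (.leaf 2)))) (.leaf 2))))
    [⟨13, 20, 20⟩, ⟨2, 4, 4⟩, ⟨447, 473, 1000⟩, ⟨46, 69, 40⟩] = true := checkAlt_cut chkClo0_76 chkClo0_89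

theorem chkClo0_91 : checkAlt 4 alts0 (.leaf 0)
    [⟨26, 33, 40⟩, ⟨2, 4, 4⟩, ⟨447, 473, 1000⟩, ⟨69, 92, 40⟩] = true := leavesClosingChk03.2.2.2.2.2.2.2.2.2.2.2.1

theorem chkClo0_92 : checkAlt 4 alts0 (.leaf 2)
    [⟨33, 40, 40⟩, ⟨2, 4, 4⟩, ⟨447, 473, 1000⟩, ⟨69, 92, 40⟩] = true := leavesClosingChk03.2.2.2.2.2.2.2.2.2.2.2.2

theorem chkClo0_93 : checkAlt 4 alts0 (.cut 0 (.leaf 0) (.leaf 2))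
    [⟨13, 20, 20⟩, ⟨2, 4, 4⟩, ⟨447, 473, 1000⟩, ⟨69, 92, 40⟩] = true := checkAlt_cut chkClo0_91 chkClo0_92

theorem chkClo0_94 : checkAlt 4 alts0 (.cut 3 (.cut 0 (.leaf 0) (.cut 1 (.leaf 1) (.cut 3 (.cut 0 (.leaf 3) (.cut 1 (.leaf 1) (.cut 3 (.cut 0 (.leaf 3) (.leaf 2)) (.leaf 2)))) (.leaf 2)))) (.cut 0 (.leaf 0) (.leaf 2)))
    [⟨13, 20, 20⟩, ⟨2, 4, 4⟩, ⟨447, 473, 1000⟩, ⟨23, 46, 20⟩] = true := checkAlt_cut chkClo0_90 chkClo0_93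

theorem chkClo0_95 : checkAlt 4 alts0 (.cut 1 (.leaf 2) (.cut 3 (.cut 0 (.leaf 0) (.cut 1 (.leaf 1) (.cut 3 (.cut 0 (.leaf 3) (.cut 1 (.leaf 1) (.cut 3 (.cut 0 (.leaf 3) (.leaf 2)) (.leaf 2)))) (.leaf 2)))) (.cut 0 (.leaf 0) (.leaf 2))))
    [⟨13, 20, 20⟩, ⟨0, 2, 2⟩, ⟨447, 473, 1000⟩, ⟨23, 46, 20⟩] = true := checkAlt_cut chkClo0_75 chkClo0_94

theorem chkClo0_96 : checkAlt 4 alts0 (.cut 0 (.leaf 0) (.cut 1 (.leaf 2) (.cut 3 (.cut 0 (.leaf 0) (.cut 1 (.leaf 1) (.cut 3 (.cut 0 (.leaf 3) (.cut 1 (.leaf 1) (.cut 3 (.cut 0 (.leaf 3) (.leaf 2)) (.leaf 2)))) (.leaf 2)))) (.cut 0 (.leaf 0) (.leaf 2)))))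
    [⟨3, 10, 10⟩, ⟨0, 2, 2⟩, ⟨447, 473, 1000⟩, ⟨23, 46, 20⟩] = true := checkAlt_cut chkClo0_74 chkClo0_95

theorem chkClo0_97 : checkAlt 4 alts0 (.cut 3 (.cut 0 (.cut 1 (.cut 3 (.cut 0 (.cut 1 (.cut 3 (.leaf 0) (.leaf 0)) (.cut 3 (.leaf 0) (.leaf 0))) (.leaf 0)) (.leaf 0)) (.cut 3 (.cut 0 (.cut 1 (.cut 3 (.leaf 0) (.leaf 0)) (.cut 3 (.leaf 0) (.leaf 0))) (.cut 1 (.leaf 0) (.cut 3 (.leaf 0) (.leaf 0)))) (.leaf 0))) (.cut 1 (.leaf 2) (.cut 3 (.cut 0 (.leaf 0) (.cut 1 (.leaf 1) (.leaf 0))) (.cut 0 (.leaf 0) (.cut 1 (.leaf 1) (.cut 3 (.cut 0 (.leaf 0) (.leaf 3)) (.cut 0 (.cut 1 (.leaf 1) (.leaf 0)) (.cut 1 (.leaf 1) (.cut 3 (.leaf 3) (.cut 0 (.leaf 3) (.leaf 2))))))))))) (.cut 0 (.leaf 0) (.cut 1 (.leaf 2) (.cut 3 (.cut 0 (.leaf 0) (.cut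 1 (.leaf 1) (.cut 3 (.cut 0 (.leaf 3) (.cut 1 (.leaf 1) (.cut 3 (.cut 0 (.leaf 3) (.leaf 2)) (.leaf 2)))) (.leaf 2)))) (.cut 0 (.leaf 0) (.leaf 2))))))
    [⟨3, 10, 10⟩, ⟨0, 2, 2⟩, ⟨447, 473, 1000⟩, ⟨0, 23, 10⟩] = true := checkAlt_cut chkClo0_73 chkClo0_96

theorem chkClo0_98 : checkAlt 4 alts0 (.cut 1 (.cut 3 (.cut 0 (.cut 1 (.cut 3 (.cut 0 (.leaf 0) (.leaf 0)) (.leaf 0)) (.cut 3 (.cut 0 (.cut 1 (.leaf 0) (.leaf 0)) (.leaf 0)) (.leaf 0))) (.leaf 1)) (.cut 0 (.leaf 0) (.leaf 1))) (.cut 3 (.cut 0 (.cut 1 (.cut 3 (.cut 0 (.cut 1 (.cut 3 (.leaf 0) (.leaf 0)) (.cut 3 (.leaf 0) (.leaf 0))) (.leaf 0)) (.leaf 0)) (.cut 3 (.cut 0 (.cut 1 (.cut 3 (.leaf 0) (.leaf 0)) (.cut 3 (.leaf 0) (.leaf 0))) (.cut 1 (.leaf 0) (.cut 3 (.leaf 0) (.leaf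 0)))) (.leaf 0))) (.cut 1 (.leaf 2) (.cut 3 (.cut 0 (.leaf 0) (.cut 1 (.leaf 1) (.leaf 0))) (.cut 0 (.leaf 0) (.cut 1 (.leaf 1) (.cut 3 (.cut 0 (.leaf 0) (.leaf 3)) (.cut 0 (.cut 1 (.leaf 1) (.leaf 0)) (.cut 1 (.leaf 1) (.cut 3 (.leaf 3) (.cut 0 (.leaf 3) (.leaf 2))))))))))) (.cut 0 (.leaf 0) (.cut 1 (.leaf 2) (.cut 3 (.cut 0 (.leaf 0) (.cut 1 (.leaf 1) (.cut 3 (.cut 0 (.leaf 3) (.cut 1 (.leaf 1) (.cut 3 (.cut 0 (.leaf 3) (.leaf 2)) (.leaf 2)))) (.leaf 2)))) (.cut 0 (.leaf 0) (.leaf 2)))))))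
    [⟨3, 10, 10⟩, ⟨-1, 1, 1⟩, ⟨447, 473, 1000⟩, ⟨0, 23, 10⟩] = true := checkAlt_cut chkClo0_18 chkClo0_97

theorem chkClo0 : checkAlt 4 alts0 (.cut 1 (.cut 3 (.cut 0 (.cut 1 (.cut 3 (.cut 0 (.leaf 0) (.leaf 0)) (.leaf 0)) (.cut 3 (.cut 0 (.cut 1 (.leaf 0) (.leaf 0)) (.leaf 0)) (.leaf 0))) (.leaf 1)) (.cut 0 (.leaf 0) (.leaf 1))) (.cut 3 (.cut 0 (.cut 1 (.cut 3 (.cut 0 (.cut 1 (.cut 3 (.leaf 0) (.leaf 0)) (.cut 3 (.leaf 0) (.leaf 0))) (.leaf 0)) (.leaf 0)) (.cut 3 (.cut 0 (.cut 1 (.cut 3 (.leaf 0) (.leaf 0)) (.cut 3 (.leaf 0) (.leaf 0))) (.cut 1 (.leaf 0) (.cut 3 (.leaf 0) (.leaf 0)))) (.leaf 0))) (.cut 1 (.leaf 2) (.cut 3 (.cut 0 (.leaf 0) (.cut 1 (.leaf 1) (.leaf 0))) (.cut 0 (.leaf 0) (.cut 1 (.leaf 1) (.cut 3 (.cut 0 (.leaf 0)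 (.leaf 3)) (.cut 0 (.cut 1 (.leaf 1) (.leaf 0)) (.cut 1 (.leaf 1) (.cut 3 (.leaf 3) (.cut 0 (.leaf 3) (.leaf 2))))))))))) (.cut 0 (.leaf 0) (.cut 1 (.leaf 2) (.cut 3 (.cut 0 (.leaf 0) (.cut 1 (.leaf 1) (.cut 3 (.cut 0 (.leaf 3) (.cut 1 (.leaf 1) (.cut 3 (.cut 0 (.leaf 3) (.leaf 2)) (.leaf 2)))) (.leaf 2)))) (.cut 0 (.leaf 0) (.leaf 2)))))))
    [⟨3, 10, 10⟩, ⟨-1, 1, 1⟩, ⟨447, 473, 1000⟩, ⟨0, 23, 10⟩] = true :=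
  chkClo0_98

end Vale.Agent.P154.NegEnd
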