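import Vale.Agent.P154.NegEnd.EnvBase

/-!
P154 NegEnd: a list after one edge, with powers of `a` and `l` taken out.
-/

namespace Vale.Agent.P154.NegEnd

open PolyCheck

/-- A list at `(l² a², -(l³ η a³))` over `l ^ sh * a ^ sub`. -/
def mon (sh sub : ℕ) : List (ℤ × ℕ × ℕ) → ℝ → ℝ → ℝ → ℝ
  | [], _, _, _ => 0
  | (k, i, j) :: L, a, η, l =>
    (k : ℝ) * (-η) ^ j * a ^ (2 * i + 3 * j - sub) * l ^ (2 * i + 3 * j - sh) + mon sh sub L a η l

/-- The same as an expression. -/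
def monEx (sh sub : ℕ) : List (ℤ × ℕ × ℕ) → Ex → Ex → Ex → Ex
  | [], _, _, _ => Ex.c 0
  | (k, i, j) :: L, A, E, l =>
    Ex.c k * (-E) ^ j * A ^ (2 * i + 3 * j - sub) * l ^ (2 * i + 3 * j - sh) + monEx sh sub L A E l

/-- All weights are at least `n`. -/
def wGe (n : ℕ) (L : List (ℤ × ℕ × ℕ)) : Bool :=
  L.all fun t => decide (n ≤ 2 * t.2.1 + 3 * t.2.2)

lemma monEx_eval (sh sub : ℕ) (A E l : Ex) (x : ℕ → ℝ) :
    ∀ L, (monEx sh sub L A E l).eval x = mon sh sub L (A.eval x) (E.eval x) (l.eval x)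
  | [] => by simp [monEx, mon]
  | (k, i, j) :: L => by
    simp only [monEx, mon, eval_add, eval_mul, eval_pow, eval_c, eval_neg, monEx_eval sh sub A E l x L]

lemma mon_sub (sh sub : ℕ) (a η l : ℝ) :
    ∀ L, wGe sub L = true → a ^ sub * mon sh sub L a η l = mon sh 0 L a η l
  | [], _ => by simp [mon]
  | (k, i, j) :: L, h => by
    simp only [wGe, List.all_cons, Bool.and_eq_true, decide_eq_true_eq] at h
    have hp : a ^ (2 * i + 3 * j - 0) = a ^ sub * a ^ (2 * i + 3 * j - sub) := by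
      rw [← pow_add]; congr 1; omega
    simp only [mon, mul_add, mon_sub sh sub a η l L h.2, hp]
    ring

lemma sval_edge (sh : ℕ) (a η l : ℝ) :
    ∀ L, wGe sh L = true →
      sval L (l ^ 2 * a ^ 2) (-(l ^ 3 * (η * a ^ 3))) = l ^ sh * mon sh 0 L a η l
  | [], _ => by simp [mon, sval]
  | (k, i, j) :: L, h => by
    simp only [wGe, List.all_cons, Bool.and_eq_true, decide_eq_true_eq] at h
    have hl : l ^ sh * l ^ (2 * i + 3 * j - sh) = (l ^ 2) ^ i * (l ^ 3) ^ j := by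
      rw [← pow_add, ← pow_mul, ← pow_mul, ← pow_add]; congr 1; omega
    have hn : (-(l ^ 3 * (η * a ^ 3))) ^ j = (-η) ^ j * (l ^ 3) ^ j * (a ^ 3) ^ j := by
      rw [← mul_pow, ← mul_pow]; congr 1; ring
    have ha : a ^ (2 * i + 3 * j - 0) = (a ^ 2) ^ i * (a ^ 3) ^ j := by
      rw [← pow_mul, ← pow_mul, ← pow_add]; congr 1
    simp only [sval, mon, mul_add, sval_edge sh a η l L h.2, hn, ha, mul_pow]
    linear_combination
      (-((k : ℝ) * (-η) ^ j * (a ^ 2) ^ i * (a ^ 3) ^ j)) * hl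

lemma sval_vertex (a η : ℝ) (L : List (ℤ × ℕ × ℕ)) :
    sval L (a ^ 2) (η * a ^ 3) = mon 0 0 L a (-η) 1 := by
  have := sval_edge 0 a (-η) 1 L (by simp [wGe])
  simpa using this

end Vale.Agent.P154.NegEnd
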