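import Vale.Agent.P154.NegEnd.EnvDefs
import Vale.Agent.P154.NegEnd.Mon

/-!
P154 NegEnd: coefficients of the closing inequality and its expression (generated).
-/

namespace Vale.Agent.P154.NegEnd

open PolyCheck

/-- Full envelope of atom 1 minus its multiple of atom 0, times `4800000000`. -/
def L_D1f : List (ℤ × ℕ × ℕ) :=
  [(51200000, 1, 0), (99200000, 0, 1), (-66720000, 2, 0), (183648000, 1, 1), (124224000, 3, 0), (-113136000, 0, 2), (-570048000, 2, 1), (-3341472000, 4, 0), (-740064000, 1, 2)]

/-- Full envelope of atom 2 minus its multiple of atom 0, times `4800000000`. -/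
def L_D2f : List (ℤ × ℕ × ℕ) :=
  [(24000000, 1, 0), (184000000, 0, 1), (-11520000, 2, 0), (-539040000, 1, 1), (-2580480000, 3, 0), (3261792000, 0, 2), (27433200000, 2, 1), (52148928000, 4, 0), (2463840000, 1, 2)]

/-- Full envelope of atom 3 minus its multiple of atom 0, times `4800000000`. -/
def L_D3f : List (ℤ × ℕ × ℕ) :=
  [(286400000, 1, 0), (342400000, 0, 1), (1509888000, 2, 0), (11342016000, 1, 1), (-18129072000, 3, 0), (3219168000, 0, 2), (-188365776000, 2, 1), (-54774672000, 4, 0), (-242458320000, 1, 2)]

/-- Full envelope of atom 4 minus its multiple of atom 0, times `4800000000`. -/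
def L_D4f : List (ℤ × ℕ × ℕ) :=
  [(128000000, 1, 0), (248000000, 0, 1), (-98976000, 2, 0), (278592000, 1, 1), (166176000, 3, 0), (-105504000, 0, 2), (1197072000, 2, 1), (-2032560000, 4, 0), (-786144000, 1, 2)]

/-- Full envelope of atom 0, times `300000`. -/
def L_Af : List (ℤ × ℕ × ℕ) :=
  [(300000, 1, 0), (-200000, 0, 1), (362079, 2, 0), (-819354, 1, 1), (-816705, 3, 0), (-654963, 0, 2), (8527656, 2, 1), (17085804, 4, 0), (18479868, 1, 2)]

/-- Full envelope of the squares, times `57600000000`. -/
def L_Qf : List (ℤ × ℕ × ℕ) :=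
  [(1118925568, 2, 0), (3037720576, 1, 1), (-1958976000, 3, 0), (9289152000, 0, 2), (-17361216000, 2, 1), (158491584000, 4, 0), (-300705984000, 1, 2), (-19642176000, 3, 1), (277227072000, 0, 3), (-1725585984000, 5, 0), (2808158976000, 2, 2)]

/-- Vertex list, times `100000`. -/
def L_Vp : List (ℤ × ℕ × ℕ) :=
  [(17979, 2, 0), (32267, 1, 1), (-46817, 3, 0), (49710, 0, 2), (-55571, 2, 1), (166375, 4, 0), (-147072, 1, 2), (103826, 3, 1), (-55770, 0, 3), (-113899, 5, 0), (114957, 2, 2)]

/-- Coefficients of the series part. -/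
def h0 : List ℤ :=
  [-38375285760000000000000000000000000000, 40717191029961600000000000000000000000, -18379908370596175200000000000000000000, 5464892120038731344160000000000000000, -1219217415572354921024400000000000000, 218125034990460625038463440000000000, -32611258480410630022902869790000000, 4191360633900359483492347219690000, -1079500690807671289516627114537867]

/-- Coefficients of the derivative part of atom 1. -/
def h1 : List ℤ :=
  [103263615000000000000000000000, -46778417595000000000000000000, 14127082113690000000000000000, -3199784098750785000000000000, 579800878693642242000000000, -87549932682739978542000000, 11331462715794631508436000, -1283288152563742018330377]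

/-- Coefficients of the derivative part of atom 2. -/
def h2 : List ℤ :=
  [-415250841600000000000000000, 154680938496000000000000000, -38412433059840000000000000, 7154315657395200000000000, -1065993032951884800000000, 132360801591525696000000, -14086971026526663360000, 1311849176845295525400, -108591959638860574047]

/-- Coefficients of the derivative part of atom 3. -/
def h3 : List ℤ :=
  [-4185095040000000000000000000000000, 1270176344640000000000000000000000, -256999013732160000000000000000000, 38999600333855280000000000000000, -4734551480530030992000000000000, 478978791446954802024000000000, -41534303772614509261224000000, 3151415298747125890195371000, -212545454037722823927621133]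

/-- Coefficients of the derivative part of atom 4. -/
def h4 : List ℤ :=
  [646464000000000000000, -126060480000000000000, 16387862400000000000, -1597816584000000000, 124629693552000000, -8100930080880000, 451337533077600, -22002704737533]

/-- Coefficients of the multiplier. -/
def muA : List ℤ :=
  [-1105754, 962884, -218738, 1586]

/-- Coefficients of the multiplier, in `1000 l - 447`. -/
def muB : List ℤ :=
  [-4929, 8259, 2192, -4551]

/-- Horner form. -/
def horEx : List ℤ → Ex → Ex
  | [], _ => Ex.c 0
  | k :: l, u => Ex.c k + u * horEx l u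

/-- Its value. -/
def hor : List ℤ → ℝ → ℝ
  | [], _ => 0
  | k :: l, u => (k : ℝ) + u * hor l u

lemma horEx_eval (u : Ex) (x : ℕ → ℝ) : ∀ l, (horEx l u).eval x = hor l (u.eval x)
  | [] => by simp [horEx, hor]
  | k :: l => by simp [horEx, hor, horEx_eval u x l]

/-- The multiplier over `m`, times `2600000`. -/
def muFac (l m : ℝ) : ℝ := hor muA m + (1000 * l - 447) * hor muB m

/-- The closing expression in `a`, `C / a ^ 3`, `l = |lam|` and the tangent point `m`, times
`closeScale`. -/
def Kclo (a η l m : ℝ) : ℝ :=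
  5660928000000000000000000000000000000000 * mon 0 0 L_Vp a (-η) 1 - 5660928000000000000000000000000000000000 * mon 2 0 L_G a η l - 4914000000000000000000000000000000 * mon 4 0 L_Qf a η l - 1132185600000000000000000000000000000000000 * a ^ 4 +
    6240000 * (m ^ 2 * hor h0 m) + 67392000 * (m * hor h1 m * mon 2 0 L_D1f a η l) +
    4113281250 * (m * hor h2 m * mon 2 0 L_D2f a η l) + 91 * (m * hor h3 m * mon 2 0 L_D3f a η l) +
    263250000000000 * (m * hor h4 m * mon 2 0 L_D4f a η l) +
    725760000000000000000000000000000 * (m * muFac l m * (mon 2 0 L_Af a η l - 300000 * m))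

/-- The same over the square of a common factor `τ`, with `a ^ 2 = s * τ`, `m = p * τ`. -/
def eK (A E l s p u : Ex) : Ex :=
  s ^ 2 * (Ex.c (5660928000000000000000000000000000000000) * monEx 0 4 L_Vp A (-E) (Ex.c 1) - Ex.c (5660928000000000000000000000000000000000) * monEx 2 4 L_G A E l -
      Ex.c (4914000000000000000000000000000000) * monEx 4 4 L_Qf A E l - Ex.c (1132185600000000000000000000000000000000000)) +
    Ex.c (6240000) * (p ^ 2 * horEx h0 u) + Ex.c (67392000) * (p * s * horEx h1 u * monEx 2 2 L_D1f A E l) +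
    Ex.c (4113281250) * (p * s * horEx h2 u * monEx 2 2 L_D2f A E l) +
    Ex.c (91) * (p * s * horEx h3 u * monEx 2 2 L_D3f A E l) +
    Ex.c (263250000000000) * (p * s * horEx h4 u * monEx 2 2 L_D4f A E l) +
    Ex.c (725760000000000000000000000000000) * (p * (horEx muA u + (Ex.c 1000 * l - Ex.c 447) * horEx muB u) *
      (s * monEx 2 2 L_Af A E l - Ex.c 300000 * p))

lemma eK_eval (A E l s p u : Ex) (x : ℕ → ℝ) (τ : ℝ) (hs : s.eval x * τ = A.eval x ^ 2)
    (hu : p.eval x * τ = u.eval x) :
    Kclo (A.eval x) (E.eval x) (l.eval x) (u.eval x) = τ ^ 2 * (eK A E l s p u).eval x := by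
  have hV := mon_sub 0 4 (A.eval x) (-(E.eval x)) 1 L_Vp (by decide)
  have hG := mon_sub 2 4 (A.eval x) (E.eval x) (l.eval x) L_G (by decide)
  have hQ := mon_sub 4 4 (A.eval x) (E.eval x) (l.eval x) L_Qf (by decide)
  have h1 := mon_sub 2 2 (A.eval x) (E.eval x) (l.eval x) L_D1f (by decide)
  have h2 := mon_sub 2 2 (A.eval x) (E.eval x) (l.eval x) L_D2f (by decide)
  have h3 := mon_sub 2 2 (A.eval x) (E.eval x) (l.eval x) L_D3f (by decide)
  have h4 := mon_sub 2 2 (A.eval x) (E.eval x) (l.eval x) L_D4f (by decide)
  have hA := mon_sub 2 2 (A.eval x) (E.eval x) (l.eval x) L_Af (by decide)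
  have h2s : A.eval x ^ 4 = (s.eval x * τ) ^ 2 := by rw [hs]; ring
  simp only [Kclo, eK, muFac, eval_add, eval_sub, eval_mul, eval_pow, eval_c, eval_neg, horEx_eval,
    monEx_eval, ← hV, ← hG, ← hQ, ← h1, ← h2, ← h3, ← h4, ← hA, h2s, ← hs, Int.cast_one,
    Int.cast_ofNat]
  rw [← hu]
  ring

/-- The closing expression in chart 0. -/
def eK0 : Ex :=
  eK (Ex.v 0) (Ex.v 1) (Ex.v 2) (Ex.v 0 ^ 2) (Ex.v 3) (Ex.v 3)

/-- The closing expression in chart 1. -/
def eK1 : Ex :=
  eK (Ex.v 0) (Ex.v 1) (Ex.v 2) (Ex.c 1) (Ex.v 3) (Ex.v 3 * Ex.v 0 ^ 2)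

/-- The closing expression in chart 2. -/
def eK2 : Ex :=
  eK (Ex.v 0 * Ex.v 3) (Ex.v 1) (Ex.v 2) (Ex.v 0 ^ 2) (Ex.c 1) (Ex.v 3 ^ 2)

/-- Positive outside the range of `C`. -/
def eB : Ex :=
  Ex.c 3 * Ex.v 0 ^ 2 - Ex.c 1 - Ex.c 2 * Ex.v 1 * Ex.v 0 ^ 3

/-- The alternatives of chart 0. -/
def alts0 : List (List Ex) :=
  [[eK0], [Ex.c 1000000 * eB - Ex.c 1], [eK0 + Ex.c (283046399999999997300803888127903336224522240) * eB], [eK0 + Ex.c (84913919999999999190241166438371000867356672) * eB]]

/-- The alternatives of chart 1. -/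
def alts1 : List (List Ex) :=
  [[eK1]]

/-- The alternatives of chart 2. -/
def alts2 : List (List Ex) :=
  [[eK2], [Ex.c 1000000 * (Ex.c 10 * (Ex.v 0 * Ex.v 3) - Ex.c 3) - Ex.c 1]]

end Vale.Agent.P154.NegEnd
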