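import Vale.Agent.P154.NegEnd.EnvDefs

/-!
P154 NegEnd: all atoms after one edge, times `d = 1 / l ^ 2`, are at most `23 / 10` (generated).
-/

namespace Vale.Agent.P154.NegEnd

open PolyCheck

/-- `23 / 10 - tau / l ^ 2`, scaled, or out of range. -/
def edgeAlts (j : Fin 5) : List (List Ex) :=
  [[Ex.c 46 * Ex.v 2 ^ 2 * eYs - Ex.c 10 * eT (atomI j)],
    [Ex.c 1000000 * (Ex.c 3 - (Ex.c 1 + Ex.v 2) * eYs) - Ex.c 1]]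

theorem leavesEdgeChk0 :
    (checkAlt 3 (edgeAlts 0) (.leaf 0) [⟨0, 1, 4⟩, ⟨0, 1, 1⟩, ⟨447, 473, 1000⟩] = true) ∧
    (checkAlt 3 (edgeAlts 0) (.cut 1 (.leaf 0) (.leaf 1)) [⟨2, 3, 8⟩, ⟨0, 1, 1⟩, ⟨447, 473, 1000⟩] = true) ∧
    (checkAlt 3 (edgeAlts 0) (.cut 1 (.cut 2 (.leaf 1) (.cut 0 (.cut 1 (.cut 2 (.cut 0 (.leaf 0) (.leaf 1)) (.cut 0 (.leaf 0) (.leaf 1))) (.leaf 0)) (.leaf 1))) (.leaf 1)) [⟨6, 7, 16⟩, ⟨0, 1, 2⟩, ⟨894, 920, 2000⟩] = true) ∧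
    (checkAlt 3 (edgeAlts 0) (.leaf 1) [⟨7, 8, 16⟩, ⟨0, 1, 2⟩, ⟨894, 920, 2000⟩] = true) ∧
    (checkAlt 3 (edgeAlts 0) (.cut 0 (.leaf 0) (.leaf 1)) [⟨6, 7, 16⟩, ⟨0, 1, 4⟩, ⟨1840, 1866, 4000⟩] = true) ∧
    (checkAlt 3 (edgeAlts 0) (.leaf 0) [⟨12, 13, 32⟩, ⟨0, 1, 4⟩, ⟨1866, 1892, 4000⟩] = true) := by
  refine ⟨?_, ?_, ?_, ?_, ?_, ?_⟩ <;> decide +kernel

theorem leavesEdgeChk1 :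
    (checkAlt 3 (edgeAlts 0) (.cut 0 (.cut 1 (.cut 2 (.cut 0 (.leaf 0) (.leaf 1)) (.cut 0 (.leaf 0) (.leaf 1))) (.leaf 0)) (.leaf 1)) [⟨13, 14, 32⟩, ⟨0, 1, 8⟩, ⟨3732, 3758, 8000⟩] = true) ∧
    (checkAlt 3 (edgeAlts 0) (.cut 1 (.cut 2 (.cut 0 (.leaf 0) (.cut 1 (.cut 2 (.cut 0 (.leaf 0) (.leaf 1)) (.leaf 0)) (.leaf 0))) (.leaf 0)) (.leaf 0)) [⟨26, 27, 64⟩, ⟨0, 1, 8⟩, ⟨3758, 3784, 8000⟩] = true) ∧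
    (checkAlt 3 (edgeAlts 0) (.leaf 1) [⟨27, 28, 64⟩, ⟨0, 1, 16⟩, ⟨7516, 7542, 16000⟩] = true) ∧
    (checkAlt 3 (edgeAlts 0) (.cut 1 (.cut 2 (.leaf 1) (.cut 0 (.cut 1 (.cut 2 (.cut 0 (.leaf 0) (.leaf 1)) (.cut 0 (.leaf 0) (.leaf 1))) (.leaf 0)) (.leaf 1))) (.leaf 1)) [⟨54, 55, 128⟩, ⟨0, 1, 16⟩, ⟨7542, 7568, 16000⟩] = true) ∧
    (checkAlt 3 (edgeAlts 0) (.leaf 1) [⟨55, 56, 128⟩, ⟨0, 1, 16⟩, ⟨7542, 7568, 16000⟩] = true) ∧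
    (checkAlt 3 (edgeAlts 0) (.leaf 1) [⟨27, 28, 64⟩, ⟨1, 2, 16⟩, ⟨3758, 3784, 8000⟩] = true) ∧
    (checkAlt 3 (edgeAlts 0) (.leaf 1) [⟨13, 14, 32⟩, ⟨1, 2, 8⟩, ⟨1866, 1892, 4000⟩] = true) := by
  refine ⟨?_, ?_, ?_, ?_, ?_, ?_, ?_⟩ <;> decide +kernel

theorem leavesEdgeChk2 :
    (checkAlt 3 (edgeAlts 0) (.leaf 1) [⟨6, 7, 16⟩, ⟨1, 2, 4⟩, ⟨920, 946, 2000⟩] = true) ∧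
    (checkAlt 3 (edgeAlts 0) (.leaf 1) [⟨7, 8, 16⟩, ⟨0, 1, 2⟩, ⟨920, 946, 2000⟩] = true) ∧
    (checkAlt 3 (edgeAlts 0) (.leaf 1) [⟨3, 4, 8⟩, ⟨1, 2, 2⟩, ⟨447, 473, 1000⟩] = true) ∧
    (checkAlt 3 (edgeAlts 0) (.leaf 1) [⟨1, 2, 2⟩, ⟨0, 1, 1⟩, ⟨447, 473, 1000⟩] = true) ∧
    (checkAlt 3 (edgeAlts 1) (.leaf 0) [⟨0, 1, 4⟩, ⟨0, 1, 1⟩, ⟨447, 473, 1000⟩] = true) ∧
    (checkAlt 3 (edgeAlts 1) (.cut 1 (.leaf 0) (.leaf 1)) [⟨2, 3, 8⟩, ⟨0, 1, 1⟩, ⟨447, 473, 1000⟩] = true) := by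
  refine ⟨?_, ?_, ?_, ?_, ?_, ?_⟩ <;> decide +kernel

theorem leavesEdgeChk3 :
    (checkAlt 3 (edgeAlts 1) (.cut 2 (.cut 0 (.cut 1 (.cut 2 (.leaf 1) (.cut 0 (.leaf 0) (.leaf 1))) (.leaf 1)) (.leaf 1)) (.cut 0 (.cut 1 (.leaf 0) (.leaf 1)) (.leaf 1))) [⟨3, 4, 8⟩, ⟨0, 1, 2⟩, ⟨447, 473, 1000⟩] = true) ∧
    (checkAlt 3 (edgeAlts 1) (.leaf 1) [⟨3, 4, 8⟩, ⟨1, 2, 2⟩, ⟨447, 473, 1000⟩] = true) ∧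
    (checkAlt 3 (edgeAlts 1) (.leaf 1) [⟨1, 2, 2⟩, ⟨0, 1, 1⟩, ⟨447, 473, 1000⟩] = true) ∧
    (checkAlt 3 (edgeAlts 2) (.cut 0 (.leaf 0) (.cut 0 (.cut 1 (.leaf 0) (.leaf 1)) (.cut 1 (.cut 2 (.cut 0 (.leaf 0) (.leaf 1)) (.cut 0 (.leaf 0) (.leaf 1))) (.leaf 1)))) [⟨0, 1, 2⟩, ⟨0, 1, 1⟩, ⟨447, 473, 1000⟩] = true) ∧
    (checkAlt 3 (edgeAlts 2) (.leaf 1) [⟨1, 2, 2⟩, ⟨0, 1, 1⟩, ⟨447, 473, 1000⟩] = true) ∧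
    (checkAlt 3 (edgeAlts 3) (.cut 0 (.cut 1 (.leaf 0) (.cut 2 (.cut 0 (.leaf 0) (.leaf 1)) (.cut 0 (.leaf 0) (.leaf 1)))) (.leaf 1)) [⟨0, 1, 1⟩, ⟨0, 1, 1⟩, ⟨447, 473, 1000⟩] = true) ∧
    (checkAlt 3 (edgeAlts 4) (.cut 0 (.cut 1 (.leaf 0) (.cut 2 (.cut 0 (.leaf 0) (.leaf 1)) (.leaf 0))) (.leaf 1)) [⟨0, 1, 1⟩, ⟨0, 1, 1⟩, ⟨447, 473, 1000⟩] = true) := by
  refine ⟨?_, ?_, ?_, ?_, ?_, ?_, ?_⟩ <;> decide +kernel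

theorem chkEdge0_0 : checkAlt 3 (edgeAlts 0) (.leaf 0)
    [⟨0, 1, 4⟩, ⟨0, 1, 1⟩, ⟨447, 473, 1000⟩] = true := leavesEdgeChk0.1

theorem chkEdge0_1 : checkAlt 3 (edgeAlts 0) (.cut 1 (.leaf 0) (.leaf 1))
    [⟨2, 3, 8⟩, ⟨0, 1, 1⟩, ⟨447, 473, 1000⟩] = true := leavesEdgeChk0.2.1

theorem chkEdge0_2 : checkAlt 3 (edgeAlts 0) (.cut 1 (.cut 2 (.leaf 1) (.cut 0 (.cut 1 (.cut 2 (.cut 0 (.leaf 0) (.leaf 1)) (.cut 0 (.leaf 0) (.leaf 1))) (.leaf 0)) (.leaf 1))) (.leaf 1))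
    [⟨6, 7, 16⟩, ⟨0, 1, 2⟩, ⟨894, 920, 2000⟩] = true := leavesEdgeChk0.2.2.1

theorem chkEdge0_3 : checkAlt 3 (edgeAlts 0) (.leaf 1)
    [⟨7, 8, 16⟩, ⟨0, 1, 2⟩, ⟨894, 920, 2000⟩] = true := leavesEdgeChk0.2.2.2.1

theorem chkEdge0_4 : checkAlt 3 (edgeAlts 0) (.cut 0 (.cut 1 (.cut 2 (.leaf 1) (.cut 0 (.cut 1 (.cut 2 (.cut 0 (.leaf 0) (.leaf 1)) (.cut 0 (.leaf 0) (.leaf 1))) (.leaf 0)) (.leaf 1))) (.leaf 1)) (.leaf 1))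
    [⟨3, 4, 8⟩, ⟨0, 1, 2⟩, ⟨894, 920, 2000⟩] = true := checkAlt_cut chkEdge0_2 chkEdge0_3

theorem chkEdge0_5 : checkAlt 3 (edgeAlts 0) (.cut 0 (.leaf 0) (.leaf 1))
    [⟨6, 7, 16⟩, ⟨0, 1, 4⟩, ⟨1840, 1866, 4000⟩] = true := leavesEdgeChk0.2.2.2.2.1

theorem chkEdge0_6 : checkAlt 3 (edgeAlts 0) (.leaf 0)
    [⟨12, 13, 32⟩, ⟨0, 1, 4⟩, ⟨1866, 1892, 4000⟩] = true := leavesEdgeChk0.2.2.2.2.2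

theorem chkEdge0_7 : checkAlt 3 (edgeAlts 0) (.cut 0 (.cut 1 (.cut 2 (.cut 0 (.leaf 0) (.leaf 1)) (.cut 0 (.leaf 0) (.leaf 1))) (.leaf 0)) (.leaf 1))
    [⟨13, 14, 32⟩, ⟨0, 1, 8⟩, ⟨3732, 3758, 8000⟩] = true := leavesEdgeChk1.1

theorem chkEdge0_8 : checkAlt 3 (edgeAlts 0) (.cut 1 (.cut 2 (.cut 0 (.leaf 0) (.cut 1 (.cut 2 (.cut 0 (.leaf 0) (.leaf 1)) (.leaf 0)) (.leaf 0))) (.leaf 0)) (.leaf 0))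
    [⟨26, 27, 64⟩, ⟨0, 1, 8⟩, ⟨3758, 3784, 8000⟩] = true := leavesEdgeChk1.2.1

theorem chkEdge0_9 : checkAlt 3 (edgeAlts 0) (.leaf 1)
    [⟨27, 28, 64⟩, ⟨0, 1, 16⟩, ⟨7516, 7542, 16000⟩] = true := leavesEdgeChk1.2.2.1

theorem chkEdge0_10 : checkAlt 3 (edgeAlts 0) (.cut 1 (.cut 2 (.leaf 1) (.cut 0 (.cut 1 (.cut 2 (.cut 0 (.leaf 0) (.leaf 1)) (.cut 0 (.leaf 0) (.leaf 1))) (.leaf 0)) (.leaf 1))) (.leaf 1))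
    [⟨54, 55, 128⟩, ⟨0, 1, 16⟩, ⟨7542, 7568, 16000⟩] = true := leavesEdgeChk1.2.2.2.1

theorem chkEdge0_11 : checkAlt 3 (edgeAlts 0) (.leaf 1)
    [⟨55, 56, 128⟩, ⟨0, 1, 16⟩, ⟨7542, 7568, 16000⟩] = true := leavesEdgeChk1.2.2.2.2.1

theorem chkEdge0_12 : checkAlt 3 (edgeAlts 0) (.cut 0 (.cut 1 (.cut 2 (.leaf 1) (.cut 0 (.cut 1 (.cut 2 (.cut 0 (.leaf 0) (.leaf 1)) (.cut 0 (.leaf 0) (.leaf 1))) (.leaf 0)) (.leaf 1))) (.leaf 1)) (.leaf 1))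
    [⟨27, 28, 64⟩, ⟨0, 1, 16⟩, ⟨7542, 7568, 16000⟩] = true := checkAlt_cut chkEdge0_10 chkEdge0_11

theorem chkEdge0_13 : checkAlt 3 (edgeAlts 0) (.cut 2 (.leaf 1) (.cut 0 (.cut 1 (.cut 2 (.leaf 1) (.cut 0 (.cut 1 (.cut 2 (.cut 0 (.leaf 0) (.leaf 1)) (.cut 0 (.leaf 0) (.leaf 1))) (.leaf 0)) (.leaf 1))) (.leaf 1)) (.leaf 1)))
    [⟨27, 28, 64⟩, ⟨0, 1, 16⟩, ⟨3758, 3784, 8000⟩] = true := checkAlt_cut chkEdge0_9 chkEdge0_12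

theorem chkEdge0_14 : checkAlt 3 (edgeAlts 0) (.leaf 1)
    [⟨27, 28, 64⟩, ⟨1, 2, 16⟩, ⟨3758, 3784, 8000⟩] = true := leavesEdgeChk1.2.2.2.2.2.1

theorem chkEdge0_15 : checkAlt 3 (edgeAlts 0) (.cut 1 (.cut 2 (.leaf 1) (.cut 0 (.cut 1 (.cut 2 (.leaf 1) (.cut 0 (.cut 1 (.cut 2 (.cut 0 (.leaf 0) (.leaf 1)) (.cut 0 (.leaf 0) (.leaf 1))) (.leaf 0)) (.leaf 1))) (.leaf 1)) (.leaf 1))) (.leaf 1))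
    [⟨27, 28, 64⟩, ⟨0, 1, 8⟩, ⟨3758, 3784, 8000⟩] = true := checkAlt_cut chkEdge0_13 chkEdge0_14

theorem chkEdge0_16 : checkAlt 3 (edgeAlts 0) (.cut 0 (.cut 1 (.cut 2 (.cut 0 (.leaf 0) (.cut 1 (.cut 2 (.cut 0 (.leaf 0) (.leaf 1)) (.leaf 0)) (.leaf 0))) (.leaf 0)) (.leaf 0)) (.cut 1 (.cut 2 (.leaf 1) (.cut 0 (.cut 1 (.cut 2 (.leaf 1) (.cut 0 (.cut 1 (.cut 2 (.cut 0 (.leaf 0) (.leaf 1)) (.cut 0 (.leaf 0) (.leaf 1))) (.leaf 0)) (.leaf 1))) (.leaf 1)) (.leaf 1))) (.leaf 1)))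
    [⟨13, 14, 32⟩, ⟨0, 1, 8⟩, ⟨3758, 3784, 8000⟩] = true := checkAlt_cut chkEdge0_8 chkEdge0_15

theorem chkEdge0_17 : checkAlt 3 (edgeAlts 0) (.cut 2 (.cut 0 (.cut 1 (.cut 2 (.cut 0 (.leaf 0) (.leaf 1)) (.cut 0 (.leaf 0) (.leaf 1))) (.leaf 0)) (.leaf 1)) (.cut 0 (.cut 1 (.cut 2 (.cut 0 (.leaf 0) (.cut 1 (.cut 2 (.cut 0 (.leaf 0) (.leaf 1)) (.leaf 0)) (.leaf 0))) (.leaf 0)) (.leaf 0)) (.cut 1 (.cut 2 (.leaf 1) (.cut 0 (.cut 1 (.cut 2 (.leaf 1) (.cut 0 (.cut 1 (.cut 2 (.cut 0 (.leaf 0) (.leaf 1)) (.cut 0 (.leaf 0) (.leaf 1))) (.leaf 0)) (.leaf 1))) (.leaf 1)) (.leaf 1))) (.leaf 1))))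
    [⟨13, 14, 32⟩, ⟨0, 1, 8⟩, ⟨1866, 1892, 4000⟩] = true := checkAlt_cut chkEdge0_7 chkEdge0_16

theorem chkEdge0_18 : checkAlt 3 (edgeAlts 0) (.leaf 1)
    [⟨13, 14, 32⟩, ⟨1, 2, 8⟩, ⟨1866, 1892, 4000⟩] = true := leavesEdgeChk1.2.2.2.2.2.2

theorem chkEdge0_19 : checkAlt 3 (edgeAlts 0) (.cut 1 (.cut 2 (.cut 0 (.cut 1 (.cut 2 (.cut 0 (.leaf 0) (.leaf 1)) (.cut 0 (.leaf 0) (.leaf 1))) (.leaf 0)) (.leaf 1)) (.cut 0 (.cut 1 (.cut 2 (.cut 0 (.leaf 0) (.cut 1 (.cut 2 (.cut 0 (.leaf 0) (.leaf 1)) (.leaf 0)) (.leaf 0))) (.leaf 0)) (.leaf 0)) (.cut 1 (.cut 2 (.leaf 1) (.cut 0 (.cut 1 (.cut 2 (.leaf 1) (.cut 0 (.cut 1 (.cut 2 (.cut 0 (.leaf 0) (.leaf 1)) (.cut 0 (.leaf 0) (.leaf 1))) (.leaf 0)) (.leaf 1))) (.leaf 1)) (.leaf 1))) (.leaf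 1)))) (.leaf 1))
    [⟨13, 14, 32⟩, ⟨0, 1, 4⟩, ⟨1866, 1892, 4000⟩] = true := checkAlt_cut chkEdge0_17 chkEdge0_18

theorem chkEdge0_20 : checkAlt 3 (edgeAlts 0) (.cut 0 (.leaf 0) (.cut 1 (.cut 2 (.cut 0 (.cut 1 (.cut 2 (.cut 0 (.leaf 0) (.leaf 1)) (.cut 0 (.leaf 0) (.leaf 1))) (.leaf 0)) (.leaf 1)) (.cut 0 (.cut 1 (.cut 2 (.cut 0 (.leaf 0) (.cut 1 (.cut 2 (.cut 0 (.leaf 0) (.leaf 1)) (.leaf 0)) (.leaf 0))) (.leaf 0)) (.leaf 0)) (.cut 1 (.cut 2 (.leaf 1) (.cut 0 (.cut 1 (.cut 2 (.leaf 1) (.cut 0 (.cut 1 (.cut 2 (.cut 0 (.leaf 0) (.leaf 1)) (.cut 0 (.leaf 0) (.leaf 1))) (.leaf 0)) (.leaf 1))) (.leaf 1)) (.leaf 1))) (.leaf 1)))) (.leaf 1)))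
    [⟨6, 7, 16⟩, ⟨0, 1, 4⟩, ⟨1866, 1892, 4000⟩] = true := checkAlt_cut chkEdge0_6 chkEdge0_19

theorem chkEdge0_21 : checkAlt 3 (edgeAlts 0) (.cut 2 (.cut 0 (.leaf 0) (.leaf 1)) (.cut 0 (.leaf 0) (.cut 1 (.cut 2 (.cut 0 (.cut 1 (.cut 2 (.cut 0 (.leaf 0) (.leaf 1)) (.cut 0 (.leaf 0) (.leaf 1))) (.leaf 0)) (.leaf 1)) (.cut 0 (.cut 1 (.cut 2 (.cut 0 (.leaf 0) (.cut 1 (.cut 2 (.cut 0 (.leaf 0) (.leaf 1)) (.leaf 0)) (.leaf 0))) (.leaf 0)) (.leaf 0)) (.cut 1 (.cut 2 (.leaf 1) (.cut 0 (.cut 1 (.cut 2 (.leaf 1) (.cut 0 (.cut 1 (.cut 2 (.cut 0 (.leaf 0) (.leaf 1)) (.cut 0 (.leaf 0) (.leaf 1))) (.leaf 0)) (.leaf 1))) (.leaf 1)) (.leaf 1))) (.leaf 1)))) (.leaf 1))))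
    [⟨6, 7, 16⟩, ⟨0, 1, 4⟩, ⟨920, 946, 2000⟩] = true := checkAlt_cut chkEdge0_5 chkEdge0_20

theorem chkEdge0_22 : checkAlt 3 (edgeAlts 0) (.leaf 1)
    [⟨6, 7, 16⟩, ⟨1, 2, 4⟩, ⟨920, 946, 2000⟩] = true := leavesEdgeChk2.1

theorem chkEdge0_23 : checkAlt 3 (edgeAlts 0) (.cut 1 (.cut 2 (.cut 0 (.leaf 0) (.leaf 1)) (.cut 0 (.leaf 0) (.cut 1 (.cut 2 (.cut 0 (.cut 1 (.cut 2 (.cut 0 (.leaf 0) (.leaf 1)) (.cut 0 (.leaf 0) (.leaf 1))) (.leaf 0)) (.leaf 1)) (.cut 0 (.cut 1 (.cut 2 (.cut 0 (.leaf 0) (.cut 1 (.cut 2 (.cut 0 (.leaf 0) (.leaf 1)) (.leaf 0)) (.leaf 0))) (.leaf 0)) (.leaf 0)) (.cut 1 (.cut 2 (.leaf 1) (.cut 0 (.cut 1 (.cut 2 (.leaf 1) (.cut 0 (.cut 1 (.cut 2 (.cut 0 (.leaf 0) (.leaf 1)) (.cut 0 (.leaf 0) (.leaf 1))) (.leaf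 0)) (.leaf 1))) (.leaf 1)) (.leaf 1))) (.leaf 1)))) (.leaf 1)))) (.leaf 1))
    [⟨6, 7, 16⟩, ⟨0, 1, 2⟩, ⟨920, 946, 2000⟩] = true := checkAlt_cut chkEdge0_21 chkEdge0_22

theorem chkEdge0_24 : checkAlt 3 (edgeAlts 0) (.leaf 1)
    [⟨7, 8, 16⟩, ⟨0, 1, 2⟩, ⟨920, 946, 2000⟩] = true := leavesEdgeChk2.2.1

theorem chkEdge0_25 : checkAlt 3 (edgeAlts 0) (.cut 0 (.cut 1 (.cut 2 (.cut 0 (.leaf 0) (.leaf 1)) (.cut 0 (.leaf 0) (.cut 1 (.cut 2 (.cut 0 (.cut 1 (.cut 2 (.cut 0 (.leaf 0) (.leaf 1)) (.cut 0 (.leaf 0) (.leaf 1))) (.leaf 0)) (.leaf 1)) (.cut 0 (.cut 1 (.cut 2 (.cut 0 (.leaf 0) (.cut 1 (.cut 2 (.cut 0 (.leaf 0) (.leaf 1)) (.leaf 0)) (.leaf 0))) (.leaf 0)) (.leaf 0)) (.cut 1 (.cut 2 (.leaf 1) (.cut 0 (.cut 1 (.cut 2 (.leaf 1) (.cut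 0 (.cut 1 (.cut 2 (.cut 0 (.leaf 0) (.leaf 1)) (.cut 0 (.leaf 0) (.leaf 1))) (.leaf 0)) (.leaf 1))) (.leaf 1)) (.leaf 1))) (.leaf 1)))) (.leaf 1)))) (.leaf 1)) (.leaf 1))
    [⟨3, 4, 8⟩, ⟨0, 1, 2⟩, ⟨920, 946, 2000⟩] = true := checkAlt_cut chkEdge0_23 chkEdge0_24

theorem chkEdge0_26 : checkAlt 3 (edgeAlts 0) (.cut 2 (.cut 0 (.cut 1 (.cut 2 (.leaf 1) (.cut 0 (.cut 1 (.cut 2 (.cut 0 (.leaf 0) (.leaf 1)) (.cut 0 (.leaf 0) (.leaf 1))) (.leaf 0)) (.leaf 1))) (.leaf 1)) (.leaf 1)) (.cut 0 (.cut 1 (.cut 2 (.cut 0 (.leaf 0) (.leaf 1)) (.cut 0 (.leaf 0) (.cut 1 (.cut 2 (.cut 0 (.cut 1 (.cut 2 (.cut 0 (.leaf 0) (.leaf 1)) (.cut 0 (.leaf 0) (.leaf 1))) (.leaf 0)) (.leaf 1)) (.cut 0 (.cut 1 (.cut 2 (.cut 0 (.leaf 0) (.cut 1 (.cut 2 (.cut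 0 (.leaf 0) (.leaf 1)) (.leaf 0)) (.leaf 0))) (.leaf 0)) (.leaf 0)) (.cut 1 (.cut 2 (.leaf 1) (.cut 0 (.cut 1 (.cut 2 (.leaf 1) (.cut 0 (.cut 1 (.cut 2 (.cut 0 (.leaf 0) (.leaf 1)) (.cut 0 (.leaf 0) (.leaf 1))) (.leaf 0)) (.leaf 1))) (.leaf 1)) (.leaf 1))) (.leaf 1)))) (.leaf 1)))) (.leaf 1)) (.leaf 1)))
    [⟨3, 4, 8⟩, ⟨0, 1, 2⟩, ⟨447, 473, 1000⟩] = true := checkAlt_cut chkEdge0_4 chkEdge0_25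

theorem chkEdge0_27 : checkAlt 3 (edgeAlts 0) (.leaf 1)
    [⟨3, 4, 8⟩, ⟨1, 2, 2⟩, ⟨447, 473, 1000⟩] = true := leavesEdgeChk2.2.2.1

theorem chkEdge0_28 : checkAlt 3 (edgeAlts 0) (.cut 1 (.cut 2 (.cut 0 (.cut 1 (.cut 2 (.leaf 1) (.cut 0 (.cut 1 (.cut 2 (.cut 0 (.leaf 0) (.leaf 1)) (.cut 0 (.leaf 0) (.leaf 1))) (.leaf 0)) (.leaf 1))) (.leaf 1)) (.leaf 1)) (.cut 0 (.cut 1 (.cut 2 (.cut 0 (.leaf 0) (.leaf 1)) (.cut 0 (.leaf 0) (.cut 1 (.cut 2 (.cut 0 (.cut 1 (.cut 2 (.cut 0 (.leaf 0) (.leaf 1)) (.cut 0 (.leaf 0) (.leaf 1))) (.leaf 0)) (.leaf 1)) (.cut 0 (.cut 1 (.cut 2 (.cut 0 (.leaf 0) (.cut 1 (.cut 2 (.cut 0 (.leaf 0) (.leaf 1)) (.leaf 0)) (.leaf 0))) (.leaf 0)) (.leaf 0)) (.cut 1 (.cut 2 (.leaf 1) (.cut 0 (.cut 1 (.cut 2 (.leaf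 1) (.cut 0 (.cut 1 (.cut 2 (.cut 0 (.leaf 0) (.leaf 1)) (.cut 0 (.leaf 0) (.leaf 1))) (.leaf 0)) (.leaf 1))) (.leaf 1)) (.leaf 1))) (.leaf 1)))) (.leaf 1)))) (.leaf 1)) (.leaf 1))) (.leaf 1))
    [⟨3, 4, 8⟩, ⟨0, 1, 1⟩, ⟨447, 473, 1000⟩] = true := checkAlt_cut chkEdge0_26 chkEdge0_27

theorem chkEdge0_29 : checkAlt 3 (edgeAlts 0) (.cut 0 (.cut 1 (.leaf 0) (.leaf 1)) (.cut 1 (.cut 2 (.cut 0 (.cut 1 (.cut 2 (.leaf 1) (.cut 0 (.cut 1 (.cut 2 (.cut 0 (.leaf 0) (.leaf 1)) (.cut 0 (.leaf 0) (.leaf 1))) (.leaf 0)) (.leaf 1))) (.leaf 1)) (.leaf 1)) (.cut 0 (.cut 1 (.cut 2 (.cut 0 (.leaf 0) (.leaf 1)) (.cut 0 (.leaf 0) (.cut 1 (.cut 2 (.cut 0 (.cut 1 (.cut 2 (.cut 0 (.leaf 0) (.leaf 1)) (.cut 0 (.leaf 0) (.leaf 1))) (.leaf 0)) (.leaf 1))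 (.cut 0 (.cut 1 (.cut 2 (.cut 0 (.leaf 0) (.cut 1 (.cut 2 (.cut 0 (.leaf 0) (.leaf 1)) (.leaf 0)) (.leaf 0))) (.leaf 0)) (.leaf 0)) (.cut 1 (.cut 2 (.leaf 1) (.cut 0 (.cut 1 (.cut 2 (.leaf 1) (.cut 0 (.cut 1 (.cut 2 (.cut 0 (.leaf 0) (.leaf 1)) (.cut 0 (.leaf 0) (.leaf 1))) (.leaf 0)) (.leaf 1))) (.leaf 1)) (.leaf 1))) (.leaf 1)))) (.leaf 1)))) (.leaf 1)) (.leaf 1))) (.leaf 1)))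
    [⟨1, 2, 4⟩, ⟨0, 1, 1⟩, ⟨447, 473, 1000⟩] = true := checkAlt_cut chkEdge0_1 chkEdge0_28

theorem chkEdge0_30 : checkAlt 3 (edgeAlts 0) (.cut 0 (.leaf 0) (.cut 0 (.cut 1 (.leaf 0) (.leaf 1)) (.cut 1 (.cut 2 (.cut 0 (.cut 1 (.cut 2 (.leaf 1) (.cut 0 (.cut 1 (.cut 2 (.cut 0 (.leaf 0) (.leaf 1)) (.cut 0 (.leaf 0) (.leaf 1))) (.leaf 0)) (.leaf 1))) (.leaf 1)) (.leaf 1)) (.cut 0 (.cut 1 (.cut 2 (.cut 0 (.leaf 0) (.leaf 1)) (.cut 0 (.leaf 0) (.cut 1 (.cut 2 (.cut 0 (.cut 1 (.cut 2 (.cut 0 (.leaf 0) (.leaf 1)) (.cut 0 (.leaf 0) (.leaf 1))) (.leaf 0)) (.leaf 1)) (.cut 0 (.cut 1 (.cut 2 (.cut 0 (.leaf 0) (.cut 1 (.cut 2 (.cut 0 (.leaf 0) (.leaf 1)) (.leaf 0)) (.leaf 0))) (.leaf 0)) (.leaf 0)) (.cut 1 (.cut 2 (.leaf 1) (.cut 0 (.cut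 1 (.cut 2 (.leaf 1) (.cut 0 (.cut 1 (.cut 2 (.cut 0 (.leaf 0) (.leaf 1)) (.cut 0 (.leaf 0) (.leaf 1))) (.leaf 0)) (.leaf 1))) (.leaf 1)) (.leaf 1))) (.leaf 1)))) (.leaf 1)))) (.leaf 1)) (.leaf 1))) (.leaf 1))))
    [⟨0, 1, 2⟩, ⟨0, 1, 1⟩, ⟨447, 473, 1000⟩] = true := checkAlt_cut chkEdge0_0 chkEdge0_29

theorem chkEdge0_31 : checkAlt 3 (edgeAlts 0) (.leaf 1)
    [⟨1, 2, 2⟩, ⟨0, 1, 1⟩, ⟨447, 473, 1000⟩] = true := leavesEdgeChk2.2.2.2.1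

theorem chkEdge0_32 : checkAlt 3 (edgeAlts 0) (.cut 0 (.cut 0 (.leaf 0) (.cut 0 (.cut 1 (.leaf 0) (.leaf 1)) (.cut 1 (.cut 2 (.cut 0 (.cut 1 (.cut 2 (.leaf 1) (.cut 0 (.cut 1 (.cut 2 (.cut 0 (.leaf 0) (.leaf 1)) (.cut 0 (.leaf 0) (.leaf 1))) (.leaf 0)) (.leaf 1))) (.leaf 1)) (.leaf 1)) (.cut 0 (.cut 1 (.cut 2 (.cut 0 (.leaf 0) (.leaf 1)) (.cut 0 (.leaf 0) (.cut 1 (.cut 2 (.cut 0 (.cut 1 (.cut 2 (.cut 0 (.leaf 0) (.leaf 1)) (.cut 0 (.leaf 0) (.leaf 1))) (.leaf 0)) (.leaf 1)) (.cut 0 (.cut 1 (.cut 2 (.cut 0 (.leaf 0) (.cut 1 (.cut 2 (.cut 0 (.leaf 0) (.leaf 1)) (.leaf 0)) (.leaf 0))) (.leaf 0)) (.leaf 0)) (.cut 1 (.cut 2 (.leaf 1) (.cut 0 (.cut 1 (.cut 2 (.leaf 1) (.cut 0 (.cut 1 (.cut 2 (.cut 0 (.leaf 0) (.leaf 1)) (.cut 0 (.leaf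 0) (.leaf 1))) (.leaf 0)) (.leaf 1))) (.leaf 1)) (.leaf 1))) (.leaf 1)))) (.leaf 1)))) (.leaf 1)) (.leaf 1))) (.leaf 1)))) (.leaf 1))
    [⟨0, 1, 1⟩, ⟨0, 1, 1⟩, ⟨447, 473, 1000⟩] = true := checkAlt_cut chkEdge0_30 chkEdge0_31

theorem chkEdge0 : checkAlt 3 (edgeAlts 0) (.cut 0 (.cut 0 (.leaf 0) (.cut 0 (.cut 1 (.leaf 0) (.leaf 1)) (.cut 1 (.cut 2 (.cut 0 (.cut 1 (.cut 2 (.leaf 1) (.cut 0 (.cut 1 (.cut 2 (.cut 0 (.leaf 0) (.leaf 1)) (.cut 0 (.leaf 0) (.leaf 1))) (.leaf 0)) (.leaf 1))) (.leaf 1)) (.leaf 1)) (.cut 0 (.cut 1 (.cut 2 (.cut 0 (.leaf 0) (.leaf 1)) (.cut 0 (.leaf 0) (.cut 1 (.cut 2 (.cut 0 (.cut 1 (.cut 2 (.cut 0 (.leaf 0) (.leaf 1)) (.cut 0 (.leaf 0) (.leaf 1))) (.leaf 0)) (.leaf 1)) (.cut 0 (.cut 1 (.cut 2 (.cut 0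 (.leaf 0) (.cut 1 (.cut 2 (.cut 0 (.leaf 0) (.leaf 1)) (.leaf 0)) (.leaf 0))) (.leaf 0)) (.leaf 0)) (.cut 1 (.cut 2 (.leaf 1) (.cut 0 (.cut 1 (.cut 2 (.leaf 1) (.cut 0 (.cut 1 (.cut 2 (.cut 0 (.leaf 0) (.leaf 1)) (.cut 0 (.leaf 0) (.leaf 1))) (.leaf 0)) (.leaf 1))) (.leaf 1)) (.leaf 1))) (.leaf 1)))) (.leaf 1)))) (.leaf 1)) (.leaf 1))) (.leaf 1)))) (.leaf 1))
    [⟨0, 1, 1⟩, ⟨0, 1, 1⟩, ⟨447, 473, 1000⟩] = true :=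
  chkEdge0_32

theorem chkEdge1_0 : checkAlt 3 (edgeAlts 1) (.leaf 0)
    [⟨0, 1, 4⟩, ⟨0, 1, 1⟩, ⟨447, 473, 1000⟩] = true := leavesEdgeChk2.2.2.2.2.1

theorem chkEdge1_1 : checkAlt 3 (edgeAlts 1) (.cut 1 (.leaf 0) (.leaf 1))
    [⟨2, 3, 8⟩, ⟨0, 1, 1⟩, ⟨447, 473, 1000⟩] = true := leavesEdgeChk2.2.2.2.2.2

theorem chkEdge1_2 : checkAlt 3 (edgeAlts 1) (.cut 2 (.cut 0 (.cut 1 (.cut 2 (.leaf 1) (.cut 0 (.leaf 0) (.leaf 1))) (.leaf 1)) (.leaf 1)) (.cut 0 (.cut 1 (.leaf 0) (.leaf 1)) (.leaf 1)))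
    [⟨3, 4, 8⟩, ⟨0, 1, 2⟩, ⟨447, 473, 1000⟩] = true := leavesEdgeChk3.1

theorem chkEdge1_3 : checkAlt 3 (edgeAlts 1) (.leaf 1)
    [⟨3, 4, 8⟩, ⟨1, 2, 2⟩, ⟨447, 473, 1000⟩] = true := leavesEdgeChk3.2.1

theorem chkEdge1_4 : checkAlt 3 (edgeAlts 1) (.cut 1 (.cut 2 (.cut 0 (.cut 1 (.cut 2 (.leaf 1) (.cut 0 (.leaf 0) (.leaf 1))) (.leaf 1)) (.leaf 1)) (.cut 0 (.cut 1 (.leaf 0) (.leaf 1)) (.leaf 1))) (.leaf 1))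
    [⟨3, 4, 8⟩, ⟨0, 1, 1⟩, ⟨447, 473, 1000⟩] = true := checkAlt_cut chkEdge1_2 chkEdge1_3

theorem chkEdge1_5 : checkAlt 3 (edgeAlts 1) (.cut 0 (.cut 1 (.leaf 0) (.leaf 1)) (.cut 1 (.cut 2 (.cut 0 (.cut 1 (.cut 2 (.leaf 1) (.cut 0 (.leaf 0) (.leaf 1))) (.leaf 1)) (.leaf 1)) (.cut 0 (.cut 1 (.leaf 0) (.leaf 1)) (.leaf 1))) (.leaf 1)))
    [⟨1, 2, 4⟩, ⟨0, 1, 1⟩, ⟨447, 473, 1000⟩] = true := checkAlt_cut chkEdge1_1 chkEdge1_4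

theorem chkEdge1_6 : checkAlt 3 (edgeAlts 1) (.cut 0 (.leaf 0) (.cut 0 (.cut 1 (.leaf 0) (.leaf 1)) (.cut 1 (.cut 2 (.cut 0 (.cut 1 (.cut 2 (.leaf 1) (.cut 0 (.leaf 0) (.leaf 1))) (.leaf 1)) (.leaf 1)) (.cut 0 (.cut 1 (.leaf 0) (.leaf 1)) (.leaf 1))) (.leaf 1))))
    [⟨0, 1, 2⟩, ⟨0, 1, 1⟩, ⟨447, 473, 1000⟩] = true := checkAlt_cut chkEdge1_0 chkEdge1_5

theorem chkEdge1_7 : checkAlt 3 (edgeAlts 1) (.leaf 1)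
    [⟨1, 2, 2⟩, ⟨0, 1, 1⟩, ⟨447, 473, 1000⟩] = true := leavesEdgeChk3.2.2.1

theorem chkEdge1_8 : checkAlt 3 (edgeAlts 1) (.cut 0 (.cut 0 (.leaf 0) (.cut 0 (.cut 1 (.leaf 0) (.leaf 1)) (.cut 1 (.cut 2 (.cut 0 (.cut 1 (.cut 2 (.leaf 1) (.cut 0 (.leaf 0) (.leaf 1))) (.leaf 1)) (.leaf 1)) (.cut 0 (.cut 1 (.leaf 0) (.leaf 1)) (.leaf 1))) (.leaf 1)))) (.leaf 1))
    [⟨0, 1, 1⟩, ⟨0, 1, 1⟩, ⟨447, 473, 1000⟩] = true := checkAlt_cut chkEdge1_6 chkEdge1_7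

theorem chkEdge1 : checkAlt 3 (edgeAlts 1) (.cut 0 (.cut 0 (.leaf 0) (.cut 0 (.cut 1 (.leaf 0) (.leaf 1)) (.cut 1 (.cut 2 (.cut 0 (.cut 1 (.cut 2 (.leaf 1) (.cut 0 (.leaf 0) (.leaf 1))) (.leaf 1)) (.leaf 1)) (.cut 0 (.cut 1 (.leaf 0) (.leaf 1)) (.leaf 1))) (.leaf 1)))) (.leaf 1))
    [⟨0, 1, 1⟩, ⟨0, 1, 1⟩, ⟨447, 473, 1000⟩] = true :=
  chkEdge1_8

theorem chkEdge2_0 : checkAlt 3 (edgeAlts 2) (.cut 0 (.leaf 0) (.cut 0 (.cut 1 (.leaf 0) (.leaf 1)) (.cut 1 (.cut 2 (.cut 0 (.leaf 0) (.leaf 1)) (.cut 0 (.leaf 0) (.leaf 1))) (.leaf 1))))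
    [⟨0, 1, 2⟩, ⟨0, 1, 1⟩, ⟨447, 473, 1000⟩] = true := leavesEdgeChk3.2.2.2.1

theorem chkEdge2_1 : checkAlt 3 (edgeAlts 2) (.leaf 1)
    [⟨1, 2, 2⟩, ⟨0, 1, 1⟩, ⟨447, 473, 1000⟩] = true := leavesEdgeChk3.2.2.2.2.1

theorem chkEdge2_2 : checkAlt 3 (edgeAlts 2) (.cut 0 (.cut 0 (.leaf 0) (.cut 0 (.cut 1 (.leaf 0) (.leaf 1)) (.cut 1 (.cut 2 (.cut 0 (.leaf 0) (.leaf 1)) (.cut 0 (.leaf 0) (.leaf 1))) (.leaf 1)))) (.leaf 1))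
    [⟨0, 1, 1⟩, ⟨0, 1, 1⟩, ⟨447, 473, 1000⟩] = true := checkAlt_cut chkEdge2_0 chkEdge2_1

theorem chkEdge2 : checkAlt 3 (edgeAlts 2) (.cut 0 (.cut 0 (.leaf 0) (.cut 0 (.cut 1 (.leaf 0) (.leaf 1)) (.cut 1 (.cut 2 (.cut 0 (.leaf 0) (.leaf 1)) (.cut 0 (.leaf 0) (.leaf 1))) (.leaf 1)))) (.leaf 1))
    [⟨0, 1, 1⟩, ⟨0, 1, 1⟩, ⟨447, 473, 1000⟩] = true :=
  chkEdge2_2

theorem chkEdge3_0 : checkAlt 3 (edgeAlts 3) (.cut 0 (.cut 1 (.leaf 0) (.cut 2 (.cut 0 (.leaf 0) (.leaf 1)) (.cut 0 (.leaf 0) (.leaf 1)))) (.leaf 1))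
    [⟨0, 1, 1⟩, ⟨0, 1, 1⟩, ⟨447, 473, 1000⟩] = true := leavesEdgeChk3.2.2.2.2.2.1

theorem chkEdge3 : checkAlt 3 (edgeAlts 3) (.cut 0 (.cut 1 (.leaf 0) (.cut 2 (.cut 0 (.leaf 0) (.leaf 1)) (.cut 0 (.leaf 0) (.leaf 1)))) (.leaf 1))
    [⟨0, 1, 1⟩, ⟨0, 1, 1⟩, ⟨447, 473, 1000⟩] = true :=
  chkEdge3_0

theorem chkEdge4_0 : checkAlt 3 (edgeAlts 4) (.cut 0 (.cut 1 (.leaf 0) (.cut 2 (.cut 0 (.leaf 0) (.leaf 1)) (.leaf 0))) (.leaf 1))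
    [⟨0, 1, 1⟩, ⟨0, 1, 1⟩, ⟨447, 473, 1000⟩] = true := leavesEdgeChk3.2.2.2.2.2.2

theorem chkEdge4 : checkAlt 3 (edgeAlts 4) (.cut 0 (.cut 1 (.leaf 0) (.cut 2 (.cut 0 (.leaf 0) (.leaf 1)) (.leaf 0))) (.leaf 1))
    [⟨0, 1, 1⟩, ⟨0, 1, 1⟩, ⟨447, 473, 1000⟩] = true :=
  chkEdge4_0

end Vale.Agent.P154.NegEnd
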