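import Vale.Agent.P154.NegEnd.EnvDefs

/-!
P154 NegEnd: certificate of envelope A (generated).
-/

namespace Vale.Agent.P154.NegEnd

open PolyCheck

theorem leavesEnvA0 :
    (checkAlt 2 (envAlts 7 eEnvA [9953]) (.cut 0 (.leaf 0) (.leaf 0)) [⟨0, 1, 8⟩, ⟨0, 1, 1⟩] = true) ∧
    (checkAlt 2 (envAlts 7 eEnvA [9953]) (.leaf 0) [⟨1, 2, 8⟩, ⟨0, 1, 1⟩] = true) ∧
    (checkAlt 2 (envAlts 7 eEnvA [9953]) (.leaf 0) [⟨2, 3, 8⟩, ⟨0, 1, 1⟩] = true) := by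
  refine ⟨?_, ?_, ?_⟩ <;> decide +kernel

theorem leavesEnvA1 :
    (checkAlt 2 (envAlts 7 eEnvA [9953]) (.leaf 0) [⟨12, 13, 32⟩, ⟨0, 1, 2⟩] = true) ∧
    (checkAlt 2 (envAlts 7 eEnvA [9953]) (.leaf 0) [⟨26, 27, 64⟩, ⟨0, 1, 4⟩] = true) ∧
    (checkAlt 2 (envAlts 7 eEnvA [9953]) (.cut 0 (.leaf 0) (.leaf 1)) [⟨108, 109, 256⟩, ⟨0, 1, 32⟩] = true) ∧
    (checkAlt 2 (envAlts 7 eEnvA [9953]) (.leaf 0) [⟨108, 109, 256⟩, ⟨1, 2, 32⟩] = true) := by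
  refine ⟨?_, ?_, ?_, ?_⟩ <;> decide +kernel

theorem leavesEnvA2 :
    (checkAlt 2 (envAlts 7 eEnvA [9953]) (.leaf 1) [⟨109, 110, 256⟩, ⟨0, 1, 16⟩] = true) ∧
    (checkAlt 2 (envAlts 7 eEnvA [9953]) (.leaf 0) [⟨54, 55, 128⟩, ⟨1, 2, 16⟩] = true) ∧
    (checkAlt 2 (envAlts 7 eEnvA [9953]) (.leaf 1) [⟨55, 56, 128⟩, ⟨0, 1, 8⟩] = true) ∧
    (checkAlt 2 (envAlts 7 eEnvA [9953]) (.leaf 0) [⟨27, 28, 64⟩, ⟨1, 2, 8⟩] = true) := by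
  refine ⟨?_, ?_, ?_, ?_⟩ <;> decide +kernel

theorem leavesEnvA3 :
    (checkAlt 2 (envAlts 7 eEnvA [9953]) (.leaf 0) [⟨13, 14, 32⟩, ⟨1, 2, 4⟩] = true) ∧
    (checkAlt 2 (envAlts 7 eEnvA [9953]) (.leaf 0) [⟨6, 7, 16⟩, ⟨1, 2, 2⟩] = true) ∧
    (checkAlt 2 (envAlts 7 eEnvA [9953]) (.leaf 1) [⟨7, 8, 16⟩, ⟨0, 1, 1⟩] = true) ∧
    (checkAlt 2 (envAlts 7 eEnvA [9953]) (.leaf 1) [⟨1, 2, 2⟩, ⟨0, 1, 1⟩] = true) := by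
  refine ⟨?_, ?_, ?_, ?_⟩ <;> decide +kernel

theorem chkA_0 : checkAlt 2 (envAlts 7 eEnvA [9953]) (.cut 0 (.leaf 0) (.leaf 0))
    [⟨0, 1, 8⟩, ⟨0, 1, 1⟩] = true := leavesEnvA0.1

theorem chkA_1 : checkAlt 2 (envAlts 7 eEnvA [9953]) (.leaf 0)
    [⟨1, 2, 8⟩, ⟨0, 1, 1⟩] = true := leavesEnvA0.2.1

theorem chkA_2 : checkAlt 2 (envAlts 7 eEnvA [9953]) (.cut 0 (.cut 0 (.leaf 0) (.leaf 0)) (.leaf 0))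
    [⟨0, 1, 4⟩, ⟨0, 1, 1⟩] = true := checkAlt_cut chkA_0 chkA_1

theorem chkA_3 : checkAlt 2 (envAlts 7 eEnvA [9953]) (.leaf 0)
    [⟨2, 3, 8⟩, ⟨0, 1, 1⟩] = true := leavesEnvA0.2.2

theorem chkA_4 : checkAlt 2 (envAlts 7 eEnvA [9953]) (.leaf 0)
    [⟨12, 13, 32⟩, ⟨0, 1, 2⟩] = true := leavesEnvA1.1

theorem chkA_5 : checkAlt 2 (envAlts 7 eEnvA [9953]) (.leaf 0)
    [⟨26, 27, 64⟩, ⟨0, 1, 4⟩] = true := leavesEnvA1.2.1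

theorem chkA_6 : checkAlt 2 (envAlts 7 eEnvA [9953]) (.cut 0 (.leaf 0) (.leaf 1))
    [⟨108, 109, 256⟩, ⟨0, 1, 32⟩] = true := leavesEnvA1.2.2.1

theorem chkA_7 : checkAlt 2 (envAlts 7 eEnvA [9953]) (.leaf 0)
    [⟨108, 109, 256⟩, ⟨1, 2, 32⟩] = true := leavesEnvA1.2.2.2

theorem chkA_8 : checkAlt 2 (envAlts 7 eEnvA [9953]) (.cut 1 (.cut 0 (.leaf 0) (.leaf 1)) (.leaf 0))
    [⟨108, 109, 256⟩, ⟨0, 1, 16⟩] = true := checkAlt_cut chkA_6 chkA_7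

theorem chkA_9 : checkAlt 2 (envAlts 7 eEnvA [9953]) (.leaf 1)
    [⟨109, 110, 256⟩, ⟨0, 1, 16⟩] = true := leavesEnvA2.1

theorem chkA_10 : checkAlt 2 (envAlts 7 eEnvA [9953]) (.cut 0 (.cut 1 (.cut 0 (.leaf 0) (.leaf 1)) (.leaf 0)) (.leaf 1))
    [⟨54, 55, 128⟩, ⟨0, 1, 16⟩] = true := checkAlt_cut chkA_8 chkA_9

theorem chkA_11 : checkAlt 2 (envAlts 7 eEnvA [9953]) (.leaf 0)
    [⟨54, 55, 128⟩, ⟨1, 2, 16⟩] = true := leavesEnvA2.2.1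

theorem chkA_12 : checkAlt 2 (envAlts 7 eEnvA [9953]) (.cut 1 (.cut 0 (.cut 1 (.cut 0 (.leaf 0) (.leaf 1)) (.leaf 0)) (.leaf 1)) (.leaf 0))
    [⟨54, 55, 128⟩, ⟨0, 1, 8⟩] = true := checkAlt_cut chkA_10 chkA_11

theorem chkA_13 : checkAlt 2 (envAlts 7 eEnvA [9953]) (.leaf 1)
    [⟨55, 56, 128⟩, ⟨0, 1, 8⟩] = true := leavesEnvA2.2.2.1

theorem chkA_14 : checkAlt 2 (envAlts 7 eEnvA [9953]) (.cut 0 (.cut 1 (.cut 0 (.cut 1 (.cut 0 (.leaf 0) (.leaf 1)) (.leaf 0)) (.leaf 1)) (.leaf 0)) (.leaf 1))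
    [⟨27, 28, 64⟩, ⟨0, 1, 8⟩] = true := checkAlt_cut chkA_12 chkA_13

theorem chkA_15 : checkAlt 2 (envAlts 7 eEnvA [9953]) (.leaf 0)
    [⟨27, 28, 64⟩, ⟨1, 2, 8⟩] = true := leavesEnvA2.2.2.2

theorem chkA_16 : checkAlt 2 (envAlts 7 eEnvA [9953]) (.cut 1 (.cut 0 (.cut 1 (.cut 0 (.cut 1 (.cut 0 (.leaf 0) (.leaf 1)) (.leaf 0)) (.leaf 1)) (.leaf 0)) (.leaf 1)) (.leaf 0))
    [⟨27, 28, 64⟩, ⟨0, 1, 4⟩] = true := checkAlt_cut chkA_14 chkA_15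

theorem chkA_17 : checkAlt 2 (envAlts 7 eEnvA [9953]) (.cut 0 (.leaf 0) (.cut 1 (.cut 0 (.cut 1 (.cut 0 (.cut 1 (.cut 0 (.leaf 0) (.leaf 1)) (.leaf 0)) (.leaf 1)) (.leaf 0)) (.leaf 1)) (.leaf 0)))
    [⟨13, 14, 32⟩, ⟨0, 1, 4⟩] = true := checkAlt_cut chkA_5 chkA_16

theorem chkA_18 : checkAlt 2 (envAlts 7 eEnvA [9953]) (.leaf 0)
    [⟨13, 14, 32⟩, ⟨1, 2, 4⟩] = true := leavesEnvA3.1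

theorem chkA_19 : checkAlt 2 (envAlts 7 eEnvA [9953]) (.cut 1 (.cut 0 (.leaf 0) (.cut 1 (.cut 0 (.cut 1 (.cut 0 (.cut 1 (.cut 0 (.leaf 0) (.leaf 1)) (.leaf 0)) (.leaf 1)) (.leaf 0)) (.leaf 1)) (.leaf 0))) (.leaf 0))
    [⟨13, 14, 32⟩, ⟨0, 1, 2⟩] = true := checkAlt_cut chkA_17 chkA_18

theorem chkA_20 : checkAlt 2 (envAlts 7 eEnvA [9953]) (.cut 0 (.leaf 0) (.cut 1 (.cut 0 (.leaf 0) (.cut 1 (.cut 0 (.cut 1 (.cut 0 (.cut 1 (.cut 0 (.leaf 0) (.leaf 1)) (.leaf 0)) (.leaf 1)) (.leaf 0)) (.leaf 1)) (.leaf 0))) (.leaf 0)))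
    [⟨6, 7, 16⟩, ⟨0, 1, 2⟩] = true := checkAlt_cut chkA_4 chkA_19

theorem chkA_21 : checkAlt 2 (envAlts 7 eEnvA [9953]) (.leaf 0)
    [⟨6, 7, 16⟩, ⟨1, 2, 2⟩] = true := leavesEnvA3.2.1

theorem chkA_22 : checkAlt 2 (envAlts 7 eEnvA [9953]) (.cut 1 (.cut 0 (.leaf 0) (.cut 1 (.cut 0 (.leaf 0) (.cut 1 (.cut 0 (.cut 1 (.cut 0 (.cut 1 (.cut 0 (.leaf 0) (.leaf 1)) (.leaf 0)) (.leaf 1)) (.leaf 0)) (.leaf 1)) (.leaf 0))) (.leaf 0))) (.leaf 0))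
    [⟨6, 7, 16⟩, ⟨0, 1, 1⟩] = true := checkAlt_cut chkA_20 chkA_21

theorem chkA_23 : checkAlt 2 (envAlts 7 eEnvA [9953]) (.leaf 1)
    [⟨7, 8, 16⟩, ⟨0, 1, 1⟩] = true := leavesEnvA3.2.2.1

theorem chkA_24 : checkAlt 2 (envAlts 7 eEnvA [9953]) (.cut 0 (.cut 1 (.cut 0 (.leaf 0) (.cut 1 (.cut 0 (.leaf 0) (.cut 1 (.cut 0 (.cut 1 (.cut 0 (.cut 1 (.cut 0 (.leaf 0) (.leaf 1)) (.leaf 0)) (.leaf 1)) (.leaf 0)) (.leaf 1)) (.leaf 0))) (.leaf 0))) (.leaf 0)) (.leaf 1))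
    [⟨3, 4, 8⟩, ⟨0, 1, 1⟩] = true := checkAlt_cut chkA_22 chkA_23

theorem chkA_25 : checkAlt 2 (envAlts 7 eEnvA [9953]) (.cut 0 (.leaf 0) (.cut 0 (.cut 1 (.cut 0 (.leaf 0) (.cut 1 (.cut 0 (.leaf 0) (.cut 1 (.cut 0 (.cut 1 (.cut 0 (.cut 1 (.cut 0 (.leaf 0) (.leaf 1)) (.leaf 0)) (.leaf 1)) (.leaf 0)) (.leaf 1)) (.leaf 0))) (.leaf 0))) (.leaf 0)) (.leaf 1)))
    [⟨1, 2, 4⟩, ⟨0, 1, 1⟩] = true := checkAlt_cut chkA_3 chkA_24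

theorem chkA_26 : checkAlt 2 (envAlts 7 eEnvA [9953]) (.cut 0 (.cut 0 (.cut 0 (.leaf 0) (.leaf 0)) (.leaf 0)) (.cut 0 (.leaf 0) (.cut 0 (.cut 1 (.cut 0 (.leaf 0) (.cut 1 (.cut 0 (.leaf 0) (.cut 1 (.cut 0 (.cut 1 (.cut 0 (.cut 1 (.cut 0 (.leaf 0) (.leaf 1)) (.leaf 0)) (.leaf 1)) (.leaf 0)) (.leaf 1)) (.leaf 0))) (.leaf 0))) (.leaf 0)) (.leaf 1))))
    [⟨0, 1, 2⟩, ⟨0, 1, 1⟩] = true := checkAlt_cut chkA_2 chkA_25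

theorem chkA_27 : checkAlt 2 (envAlts 7 eEnvA [9953]) (.leaf 1)
    [⟨1, 2, 2⟩, ⟨0, 1, 1⟩] = true := leavesEnvA3.2.2.2

theorem chkA_28 : checkAlt 2 (envAlts 7 eEnvA [9953]) (.cut 0 (.cut 0 (.cut 0 (.cut 0 (.leaf 0) (.leaf 0)) (.leaf 0)) (.cut 0 (.leaf 0) (.cut 0 (.cut 1 (.cut 0 (.leaf 0) (.cut 1 (.cut 0 (.leaf 0) (.cut 1 (.cut 0 (.cut 1 (.cut 0 (.cut 1 (.cut 0 (.leaf 0) (.leaf 1)) (.leaf 0)) (.leaf 1)) (.leaf 0)) (.leaf 1)) (.leaf 0))) (.leaf 0))) (.leaf 0)) (.leaf 1)))) (.leaf 1))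
    [⟨0, 1, 1⟩, ⟨0, 1, 1⟩] = true := checkAlt_cut chkA_26 chkA_27

theorem envA_nonneg {p z : ℝ} (hp : 0 ≤ p) (hp1 : p ≤ 1) (hz : 0 ≤ z) (hz1 : z ≤ 1)
    (hY : 0 ≤ ysum (chart p z)) (hr : 3000 ≤ 1473 * ysum (chart p z)) :
    0 ≤ eEnvA.eval (pt [p, z]) :=
  env_nonneg (by decide) chkA_28 hp hp1 hz hz1 hY hr

end Vale.Agent.P154.NegEnd
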