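import Vale.Agent.P154.NegEnd.EnvDefs

/-!
P154 NegEnd: certificate of envelope D1 (generated).
-/

namespace Vale.Agent.P154.NegEnd

open PolyCheck

theorem chkD1_0 : checkAlt 2 (envAlts 7 eEnvD1 []) (.cut 0 (.leaf 0) (.leaf 0))
    [⟨0, 1, 1⟩, ⟨0, 1, 1⟩] = true := by
  decide +kernel

theorem envD1_nonneg {p z : ℝ} (hp : 0 ≤ p) (hp1 : p ≤ 1) (hz : 0 ≤ z) (hz1 : z ≤ 1)
    (hY : 0 ≤ ysum (chart p z)) (hr : 3000 ≤ 1473 * ysum (chart p z)) :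
    0 ≤ eEnvD1.eval (pt [p, z]) :=
  env_nonneg (by decide) chkD1_0 hp hp1 hz hz1 hY hr

end Vale.Agent.P154.NegEnd
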