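import Vale.Agent.P154.NegEnd.EnvDefs

/-!
P154 NegEnd: certificate of envelope D2 (generated).
-/

namespace Vale.Agent.P154.NegEnd

open PolyCheck

theorem leavesEnvD20 :
    (checkAlt 2 (envAlts 7 eEnvD2 [9953, 33177]) (.cut 1 (.leaf 0) (.leaf 0)) [⟨0, 1, 8⟩, ⟨0, 1, 1⟩] = true) ∧
    (checkAlt 2 (envAlts 7 eEnvD2 [9953, 33177]) (.cut 1 (.leaf 0) (.leaf 0)) [⟨1, 2, 8⟩, ⟨0, 1, 1⟩] = true) ∧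
    (checkAlt 2 (envAlts 7 eEnvD2 [9953, 33177]) (.leaf 0) [⟨2, 3, 8⟩, ⟨0, 1, 1⟩] = true) := by
  refine ⟨?_, ?_, ?_⟩ <;> decide +kernel

theorem leavesEnvD21 :
    (checkAlt 2 (envAlts 7 eEnvD2 [9953, 33177]) (.leaf 0) [⟨12, 13, 32⟩, ⟨0, 1, 4⟩] = true) ∧
    (checkAlt 2 (envAlts 7 eEnvD2 [9953, 33177]) (.leaf 0) [⟨26, 27, 64⟩, ⟨0, 1, 8⟩] = true) ∧
    (checkAlt 2 (envAlts 7 eEnvD2 [9953, 33177]) (.cut 0 (.leaf 3) (.leaf 1)) [⟨54, 55, 128⟩, ⟨0, 1, 32⟩] = true) ∧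
    (checkAlt 2 (envAlts 7 eEnvD2 [9953, 33177]) (.leaf 0) [⟨54, 55, 128⟩, ⟨1, 2, 32⟩] = true) := by
  refine ⟨?_, ?_, ?_, ?_⟩ <;> decide +kernel

theorem leavesEnvD22 :
    (checkAlt 2 (envAlts 7 eEnvD2 [9953, 33177]) (.leaf 1) [⟨55, 56, 128⟩, ⟨0, 1, 16⟩] = true) ∧
    (checkAlt 2 (envAlts 7 eEnvD2 [9953, 33177]) (.leaf 0) [⟨27, 28, 64⟩, ⟨1, 2, 16⟩] = true) ∧
    (checkAlt 2 (envAlts 7 eEnvD2 [9953, 33177]) (.leaf 0) [⟨13, 14, 32⟩, ⟨1, 2, 8⟩] = true) := by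
  refine ⟨?_, ?_, ?_⟩ <;> decide +kernel

theorem leavesEnvD23 :
    (checkAlt 2 (envAlts 7 eEnvD2 [9953, 33177]) (.leaf 0) [⟨6, 7, 16⟩, ⟨1, 2, 4⟩] = true) ∧
    (checkAlt 2 (envAlts 7 eEnvD2 [9953, 33177]) (.leaf 1) [⟨7, 8, 16⟩, ⟨0, 1, 2⟩] = true) ∧
    (checkAlt 2 (envAlts 7 eEnvD2 [9953, 33177]) (.leaf 0) [⟨3, 4, 8⟩, ⟨1, 2, 2⟩] = true) ∧
    (checkAlt 2 (envAlts 7 eEnvD2 [9953, 33177]) (.leaf 1) [⟨1, 2, 2⟩, ⟨0, 1, 1⟩] = true) := by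
  refine ⟨?_, ?_, ?_, ?_⟩ <;> decide +kernel

theorem chkD2_0 : checkAlt 2 (envAlts 7 eEnvD2 [9953, 33177]) (.cut 1 (.leaf 0) (.leaf 0))
    [⟨0, 1, 8⟩, ⟨0, 1, 1⟩] = true := leavesEnvD20.1

theorem chkD2_1 : checkAlt 2 (envAlts 7 eEnvD2 [9953, 33177]) (.cut 1 (.leaf 0) (.leaf 0))
    [⟨1, 2, 8⟩, ⟨0, 1, 1⟩] = true := leavesEnvD20.2.1

theorem chkD2_2 : checkAlt 2 (envAlts 7 eEnvD2 [9953, 33177]) (.cut 0 (.cut 1 (.leaf 0) (.leaf 0)) (.cut 1 (.leaf 0) (.leaf 0)))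
    [⟨0, 1, 4⟩, ⟨0, 1, 1⟩] = true := checkAlt_cut chkD2_0 chkD2_1

theorem chkD2_3 : checkAlt 2 (envAlts 7 eEnvD2 [9953, 33177]) (.leaf 0)
    [⟨2, 3, 8⟩, ⟨0, 1, 1⟩] = true := leavesEnvD20.2.2

theorem chkD2_4 : checkAlt 2 (envAlts 7 eEnvD2 [9953, 33177]) (.leaf 0)
    [⟨12, 13, 32⟩, ⟨0, 1, 4⟩] = true := leavesEnvD21.1

theorem chkD2_5 : checkAlt 2 (envAlts 7 eEnvD2 [9953, 33177]) (.leaf 0)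
    [⟨26, 27, 64⟩, ⟨0, 1, 8⟩] = true := leavesEnvD21.2.1

theorem chkD2_6 : checkAlt 2 (envAlts 7 eEnvD2 [9953, 33177]) (.cut 0 (.leaf 3) (.leaf 1))
    [⟨54, 55, 128⟩, ⟨0, 1, 32⟩] = true := leavesEnvD21.2.2.1

theorem chkD2_7 : checkAlt 2 (envAlts 7 eEnvD2 [9953, 33177]) (.leaf 0)
    [⟨54, 55, 128⟩, ⟨1, 2, 32⟩] = true := leavesEnvD21.2.2.2

theorem chkD2_8 : checkAlt 2 (envAlts 7 eEnvD2 [9953, 33177]) (.cut 1 (.cut 0 (.leaf 3) (.leaf 1)) (.leaf 0))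
    [⟨54, 55, 128⟩, ⟨0, 1, 16⟩] = true := checkAlt_cut chkD2_6 chkD2_7

theorem chkD2_9 : checkAlt 2 (envAlts 7 eEnvD2 [9953, 33177]) (.leaf 1)
    [⟨55, 56, 128⟩, ⟨0, 1, 16⟩] = true := leavesEnvD22.1

theorem chkD2_10 : checkAlt 2 (envAlts 7 eEnvD2 [9953, 33177]) (.cut 0 (.cut 1 (.cut 0 (.leaf 3) (.leaf 1)) (.leaf 0)) (.leaf 1))
    [⟨27, 28, 64⟩, ⟨0, 1, 16⟩] = true := checkAlt_cut chkD2_8 chkD2_9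

theorem chkD2_11 : checkAlt 2 (envAlts 7 eEnvD2 [9953, 33177]) (.leaf 0)
    [⟨27, 28, 64⟩, ⟨1, 2, 16⟩] = true := leavesEnvD22.2.1

theorem chkD2_12 : checkAlt 2 (envAlts 7 eEnvD2 [9953, 33177]) (.cut 1 (.cut 0 (.cut 1 (.cut 0 (.leaf 3) (.leaf 1)) (.leaf 0)) (.leaf 1)) (.leaf 0))
    [⟨27, 28, 64⟩, ⟨0, 1, 8⟩] = true := checkAlt_cut chkD2_10 chkD2_11

theorem chkD2_13 : checkAlt 2 (envAlts 7 eEnvD2 [9953, 33177]) (.cut 0 (.leaf 0) (.cut 1 (.cut 0 (.cut 1 (.cut 0 (.leaf 3) (.leaf 1)) (.leaf 0)) (.leaf 1)) (.leaf 0)))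
    [⟨13, 14, 32⟩, ⟨0, 1, 8⟩] = true := checkAlt_cut chkD2_5 chkD2_12

theorem chkD2_14 : checkAlt 2 (envAlts 7 eEnvD2 [9953, 33177]) (.leaf 0)
    [⟨13, 14, 32⟩, ⟨1, 2, 8⟩] = true := leavesEnvD22.2.2

theorem chkD2_15 : checkAlt 2 (envAlts 7 eEnvD2 [9953, 33177]) (.cut 1 (.cut 0 (.leaf 0) (.cut 1 (.cut 0 (.cut 1 (.cut 0 (.leaf 3) (.leaf 1)) (.leaf 0)) (.leaf 1)) (.leaf 0))) (.leaf 0))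
    [⟨13, 14, 32⟩, ⟨0, 1, 4⟩] = true := checkAlt_cut chkD2_13 chkD2_14

theorem chkD2_16 : checkAlt 2 (envAlts 7 eEnvD2 [9953, 33177]) (.cut 0 (.leaf 0) (.cut 1 (.cut 0 (.leaf 0) (.cut 1 (.cut 0 (.cut 1 (.cut 0 (.leaf 3) (.leaf 1)) (.leaf 0)) (.leaf 1)) (.leaf 0))) (.leaf 0)))
    [⟨6, 7, 16⟩, ⟨0, 1, 4⟩] = true := checkAlt_cut chkD2_4 chkD2_15

theorem chkD2_17 : checkAlt 2 (envAlts 7 eEnvD2 [9953, 33177]) (.leaf 0)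
    [⟨6, 7, 16⟩, ⟨1, 2, 4⟩] = true := leavesEnvD23.1

theorem chkD2_18 : checkAlt 2 (envAlts 7 eEnvD2 [9953, 33177]) (.cut 1 (.cut 0 (.leaf 0) (.cut 1 (.cut 0 (.leaf 0) (.cut 1 (.cut 0 (.cut 1 (.cut 0 (.leaf 3) (.leaf 1)) (.leaf 0)) (.leaf 1)) (.leaf 0))) (.leaf 0))) (.leaf 0))
    [⟨6, 7, 16⟩, ⟨0, 1, 2⟩] = true := checkAlt_cut chkD2_16 chkD2_17

theorem chkD2_19 : checkAlt 2 (envAlts 7 eEnvD2 [9953, 33177]) (.leaf 1)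
    [⟨7, 8, 16⟩, ⟨0, 1, 2⟩] = true := leavesEnvD23.2.1

theorem chkD2_20 : checkAlt 2 (envAlts 7 eEnvD2 [9953, 33177]) (.cut 0 (.cut 1 (.cut 0 (.leaf 0) (.cut 1 (.cut 0 (.leaf 0) (.cut 1 (.cut 0 (.cut 1 (.cut 0 (.leaf 3) (.leaf 1)) (.leaf 0)) (.leaf 1)) (.leaf 0))) (.leaf 0))) (.leaf 0)) (.leaf 1))
    [⟨3, 4, 8⟩, ⟨0, 1, 2⟩] = true := checkAlt_cut chkD2_18 chkD2_19

theorem chkD2_21 : checkAlt 2 (envAlts 7 eEnvD2 [9953, 33177]) (.leaf 0)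
    [⟨3, 4, 8⟩, ⟨1, 2, 2⟩] = true := leavesEnvD23.2.2.1

theorem chkD2_22 : checkAlt 2 (envAlts 7 eEnvD2 [9953, 33177]) (.cut 1 (.cut 0 (.cut 1 (.cut 0 (.leaf 0) (.cut 1 (.cut 0 (.leaf 0) (.cut 1 (.cut 0 (.cut 1 (.cut 0 (.leaf 3) (.leaf 1)) (.leaf 0)) (.leaf 1)) (.leaf 0))) (.leaf 0))) (.leaf 0)) (.leaf 1)) (.leaf 0))
    [⟨3, 4, 8⟩, ⟨0, 1, 1⟩] = true := checkAlt_cut chkD2_20 chkD2_21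

theorem chkD2_23 : checkAlt 2 (envAlts 7 eEnvD2 [9953, 33177]) (.cut 0 (.leaf 0) (.cut 1 (.cut 0 (.cut 1 (.cut 0 (.leaf 0) (.cut 1 (.cut 0 (.leaf 0) (.cut 1 (.cut 0 (.cut 1 (.cut 0 (.leaf 3) (.leaf 1)) (.leaf 0)) (.leaf 1)) (.leaf 0))) (.leaf 0))) (.leaf 0)) (.leaf 1)) (.leaf 0)))
    [⟨1, 2, 4⟩, ⟨0, 1, 1⟩] = true := checkAlt_cut chkD2_3 chkD2_22

theorem chkD2_24 : checkAlt 2 (envAlts 7 eEnvD2 [9953, 33177]) (.cut 0 (.cut 0 (.cut 1 (.leaf 0) (.leaf 0)) (.cut 1 (.leaf 0) (.leaf 0))) (.cut 0 (.leaf 0) (.cut 1 (.cut 0 (.cut 1 (.cut 0 (.leaf 0) (.cut 1 (.cut 0 (.leaf 0) (.cut 1 (.cut 0 (.cut 1 (.cut 0 (.leaf 3) (.leaf 1)) (.leaf 0)) (.leaf 1)) (.leaf 0))) (.leaf 0))) (.leaf 0)) (.leaf 1)) (.leaf 0))))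
    [⟨0, 1, 2⟩, ⟨0, 1, 1⟩] = true := checkAlt_cut chkD2_2 chkD2_23

theorem chkD2_25 : checkAlt 2 (envAlts 7 eEnvD2 [9953, 33177]) (.leaf 1)
    [⟨1, 2, 2⟩, ⟨0, 1, 1⟩] = true := leavesEnvD23.2.2.2

theorem chkD2_26 : checkAlt 2 (envAlts 7 eEnvD2 [9953, 33177]) (.cut 0 (.cut 0 (.cut 0 (.cut 1 (.leaf 0) (.leaf 0)) (.cut 1 (.leaf 0) (.leaf 0))) (.cut 0 (.leaf 0) (.cut 1 (.cut 0 (.cut 1 (.cut 0 (.leaf 0) (.cut 1 (.cut 0 (.leaf 0) (.cut 1 (.cut 0 (.cut 1 (.cut 0 (.leaf 3) (.leaf 1)) (.leaf 0)) (.leaf 1)) (.leaf 0))) (.leaf 0))) (.leaf 0)) (.leaf 1)) (.leaf 0)))) (.leaf 1))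
    [⟨0, 1, 1⟩, ⟨0, 1, 1⟩] = true := checkAlt_cut chkD2_24 chkD2_25

theorem envD2_nonneg {p z : ℝ} (hp : 0 ≤ p) (hp1 : p ≤ 1) (hz : 0 ≤ z) (hz1 : z ≤ 1)
    (hY : 0 ≤ ysum (chart p z)) (hr : 3000 ≤ 1473 * ysum (chart p z)) :
    0 ≤ eEnvD2.eval (pt [p, z]) :=
  env_nonneg (by decide) chkD2_26 hp hp1 hz hz1 hY hr

end Vale.Agent.P154.NegEnd
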