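import Vale.Agent.P154.NegEnd.EnvDefs

/-!
P154 NegEnd: certificate of envelope D3 (generated).
-/

namespace Vale.Agent.P154.NegEnd

open PolyCheck

theorem leavesEnvD30 :
    (checkAlt 2 (envAlts 7 eEnvD3 [13271, 9953, 6635]) (.leaf 0) [⟨0, 1, 8⟩, ⟨0, 1, 2⟩] = true) ∧
    (checkAlt 2 (envAlts 7 eEnvD3 [13271, 9953, 6635]) (.leaf 0) [⟨0, 1, 16⟩, ⟨1, 2, 2⟩] = true) ∧
    (checkAlt 2 (envAlts 7 eEnvD3 [13271, 9953, 6635]) (.leaf 0) [⟨2, 3, 32⟩, ⟨2, 3, 4⟩] = true) ∧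
    (checkAlt 2 (envAlts 7 eEnvD3 [13271, 9953, 6635]) (.leaf 0) [⟨3, 4, 32⟩, ⟨4, 5, 8⟩] = true) ∧
    (checkAlt 2 (envAlts 7 eEnvD3 [13271, 9953, 6635]) (.leaf 0) [⟨6, 7, 64⟩, ⟨5, 6, 8⟩] = true) ∧
    (checkAlt 2 (envAlts 7 eEnvD3 [13271, 9953, 6635]) (.leaf 0) [⟨14, 15, 128⟩, ⟨10, 11, 16⟩] = true) ∧
    (checkAlt 2 (envAlts 7 eEnvD3 [13271, 9953, 6635]) (.cut 1 (.leaf 0) (.leaf 4)) [⟨15, 16, 128⟩, ⟨10, 11, 16⟩] = true) ∧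
    (checkAlt 2 (envAlts 7 eEnvD3 [13271, 9953, 6635]) (.leaf 0) [⟨14, 15, 128⟩, ⟨11, 12, 16⟩] = true) ∧
    (checkAlt 2 (envAlts 7 eEnvD3 [13271, 9953, 6635]) (.cut 0 (.leaf 0) (.leaf 3)) [⟨15, 16, 128⟩, ⟨22, 23, 32⟩] = true) ∧
    (checkAlt 2 (envAlts 7 eEnvD3 [13271, 9953, 6635]) (.cut 0 (.leaf 3) (.leaf 2)) [⟨15, 16, 128⟩, ⟨23, 24, 32⟩] = true) ∧
    (checkAlt 2 (envAlts 7 eEnvD3 [13271, 9953, 6635]) (.leaf 0) [⟨2, 3, 32⟩, ⟨3, 4, 4⟩] = true) ∧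
    (checkAlt 2 (envAlts 7 eEnvD3 [13271, 9953, 6635]) (.leaf 0) [⟨6, 7, 64⟩, ⟨6, 7, 8⟩] = true) ∧
    (checkAlt 2 (envAlts 7 eEnvD3 [13271, 9953, 6635]) (.leaf 0) [⟨14, 15, 128⟩, ⟨24, 25, 32⟩] = true) ∧
    (checkAlt 2 (envAlts 7 eEnvD3 [13271, 9953, 6635]) (.cut 0 (.leaf 0) (.leaf 3)) [⟨14, 15, 128⟩, ⟨25, 26, 32⟩] = true) ∧
    (checkAlt 2 (envAlts 7 eEnvD3 [13271, 9953, 6635]) (.cut 1 (.leaf 3) (.leaf 2)) [⟨30, 31, 256⟩, ⟨24, 25, 32⟩] = true) ∧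
    (checkAlt 2 (envAlts 7 eEnvD3 [13271, 9953, 6635]) (.leaf 1) [⟨31, 32, 256⟩, ⟨24, 25, 32⟩] = true) ∧
    (checkAlt 2 (envAlts 7 eEnvD3 [13271, 9953, 6635]) (.leaf 1) [⟨15, 16, 128⟩, ⟨25, 26, 32⟩] = true) ∧
    (checkAlt 2 (envAlts 7 eEnvD3 [13271, 9953, 6635]) (.cut 0 (.leaf 0) (.leaf 2)) [⟨14, 15, 128⟩, ⟨26, 27, 32⟩] = true) ∧
    (checkAlt 2 (envAlts 7 eEnvD3 [13271, 9953, 6635]) (.cut 0 (.leaf 3) (.leaf 1)) [⟨14, 15, 128⟩, ⟨27, 28, 32⟩] = true) := by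
  refine ⟨?_, ?_, ?_, ?_, ?_, ?_, ?_, ?_, ?_, ?_, ?_, ?_, ?_, ?_, ?_, ?_, ?_, ?_, ?_⟩ <;> decide +kernel

theorem leavesEnvD31 :
    (checkAlt 2 (envAlts 7 eEnvD3 [13271, 9953, 6635]) (.leaf 1) [⟨15, 16, 128⟩, ⟨13, 14, 16⟩] = true) ∧
    (checkAlt 2 (envAlts 7 eEnvD3 [13271, 9953, 6635]) (.leaf 0) [⟨12, 13, 128⟩, ⟨14, 15, 16⟩] = true) ∧
    (checkAlt 2 (envAlts 7 eEnvD3 [13271, 9953, 6635]) (.leaf 0) [⟨13, 14, 128⟩, ⟨28, 29, 32⟩] = true) ∧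
    (checkAlt 2 (envAlts 7 eEnvD3 [13271, 9953, 6635]) (.cut 0 (.leaf 0) (.leaf 3)) [⟨13, 14, 128⟩, ⟨29, 30, 32⟩] = true) ∧
    (checkAlt 2 (envAlts 7 eEnvD3 [13271, 9953, 6635]) (.leaf 0) [⟨12, 13, 128⟩, ⟨15, 16, 16⟩] = true) ∧
    (checkAlt 2 (envAlts 7 eEnvD3 [13271, 9953, 6635]) (.cut 0 (.leaf 0) (.leaf 2)) [⟨13, 14, 128⟩, ⟨30, 31, 32⟩] = true) ∧
    (checkAlt 2 (envAlts 7 eEnvD3 [13271, 9953, 6635]) (.cut 0 (.leaf 3) (.leaf 1)) [⟨13, 14, 128⟩, ⟨31, 32, 32⟩] = true) ∧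
    (checkAlt 2 (envAlts 7 eEnvD3 [13271, 9953, 6635]) (.cut 0 (.leaf 2) (.leaf 1)) [⟨14, 15, 128⟩, ⟨28, 29, 32⟩] = true) ∧
    (checkAlt 2 (envAlts 7 eEnvD3 [13271, 9953, 6635]) (.leaf 1) [⟨14, 15, 128⟩, ⟨29, 30, 32⟩] = true) ∧
    (checkAlt 2 (envAlts 7 eEnvD3 [13271, 9953, 6635]) (.leaf 1) [⟨15, 16, 128⟩, ⟨14, 15, 16⟩] = true) ∧
    (checkAlt 2 (envAlts 7 eEnvD3 [13271, 9953, 6635]) (.leaf 1) [⟨7, 8, 64⟩, ⟨15, 16, 16⟩] = true) ∧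
    (checkAlt 2 (envAlts 7 eEnvD3 [13271, 9953, 6635]) (.leaf 0) [⟨2, 3, 16⟩, ⟨0, 1, 4⟩] = true) ∧
    (checkAlt 2 (envAlts 7 eEnvD3 [13271, 9953, 6635]) (.leaf 0) [⟨4, 5, 32⟩, ⟨2, 3, 8⟩] = true) ∧
    (checkAlt 2 (envAlts 7 eEnvD3 [13271, 9953, 6635]) (.leaf 0) [⟨8, 9, 64⟩, ⟨3, 4, 8⟩] = true) ∧
    (checkAlt 2 (envAlts 7 eEnvD3 [13271, 9953, 6635]) (.cut 0 (.leaf 0) (.leaf 4)) [⟨9, 10, 64⟩, ⟨6, 7, 16⟩] = true) ∧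
    (checkAlt 2 (envAlts 7 eEnvD3 [13271, 9953, 6635]) (.cut 1 (.leaf 0) (.leaf 3)) [⟨18, 19, 128⟩, ⟨7, 8, 16⟩] = true) ∧
    (checkAlt 2 (envAlts 7 eEnvD3 [13271, 9953, 6635]) (.leaf 2) [⟨19, 20, 128⟩, ⟨7, 8, 16⟩] = true) ∧
    (checkAlt 2 (envAlts 7 eEnvD3 [13271, 9953, 6635]) (.cut 1 (.leaf 0) (.leaf 4)) [⟨10, 11, 64⟩, ⟨2, 3, 8⟩] = true) ∧
    (checkAlt 2 (envAlts 7 eEnvD3 [13271, 9953, 6635]) (.cut 1 (.leaf 0) (.leaf 2)) [⟨11, 12, 64⟩, ⟨2, 3, 8⟩] = true) ∧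
    (checkAlt 2 (envAlts 7 eEnvD3 [13271, 9953, 6635]) (.cut 0 (.leaf 2) (.leaf 1)) [⟨10, 11, 64⟩, ⟨6, 7, 16⟩] = true) := by
  refine ⟨?_, ?_, ?_, ?_, ?_, ?_, ?_, ?_, ?_, ?_, ?_, ?_, ?_, ?_, ?_, ?_, ?_, ?_, ?_, ?_⟩ <;> decide +kernel

theorem leavesEnvD32 :
    (checkAlt 2 (envAlts 7 eEnvD3 [13271, 9953, 6635]) (.leaf 1) [⟨10, 11, 64⟩, ⟨7, 8, 16⟩] = true) ∧
    (checkAlt 2 (envAlts 7 eEnvD3 [13271, 9953, 6635]) (.leaf 1) [⟨11, 12, 64⟩, ⟨3, 4, 8⟩] = true) ∧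
    (checkAlt 2 (envAlts 7 eEnvD3 [13271, 9953, 6635]) (.leaf 0) [⟨6, 7, 32⟩, ⟨0, 1, 4⟩] = true) ∧
    (checkAlt 2 (envAlts 7 eEnvD3 [13271, 9953, 6635]) (.cut 1 (.leaf 0) (.leaf 2)) [⟨7, 8, 32⟩, ⟨0, 1, 4⟩] = true) ∧
    (checkAlt 2 (envAlts 7 eEnvD3 [13271, 9953, 6635]) (.cut 1 (.leaf 2) (.leaf 1)) [⟨12, 13, 64⟩, ⟨2, 3, 8⟩] = true) ∧
    (checkAlt 2 (envAlts 7 eEnvD3 [13271, 9953, 6635]) (.leaf 1) [⟨13, 14, 64⟩, ⟨2, 3, 8⟩] = true) ∧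
    (checkAlt 2 (envAlts 7 eEnvD3 [13271, 9953, 6635]) (.leaf 1) [⟨6, 7, 32⟩, ⟨3, 4, 8⟩] = true) ∧
    (checkAlt 2 (envAlts 7 eEnvD3 [13271, 9953, 6635]) (.leaf 1) [⟨7, 8, 32⟩, ⟨1, 2, 4⟩] = true) ∧
    (checkAlt 2 (envAlts 7 eEnvD3 [13271, 9953, 6635]) (.leaf 0) [⟨16, 17, 128⟩, ⟨8, 9, 16⟩] = true) ∧
    (checkAlt 2 (envAlts 7 eEnvD3 [13271, 9953, 6635]) (.leaf 0) [⟨17, 18, 128⟩, ⟨16, 17, 32⟩] = true) ∧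
    (checkAlt 2 (envAlts 7 eEnvD3 [13271, 9953, 6635]) (.cut 0 (.leaf 0) (.leaf 2)) [⟨17, 18, 128⟩, ⟨17, 18, 32⟩] = true) ∧
    (checkAlt 2 (envAlts 7 eEnvD3 [13271, 9953, 6635]) (.leaf 0) [⟨16, 17, 128⟩, ⟨18, 19, 32⟩] = true) ∧
    (checkAlt 2 (envAlts 7 eEnvD3 [13271, 9953, 6635]) (.cut 0 (.leaf 0) (.leaf 3)) [⟨16, 17, 128⟩, ⟨19, 20, 32⟩] = true) ∧
    (checkAlt 2 (envAlts 7 eEnvD3 [13271, 9953, 6635]) (.cut 0 (.leaf 3) (.leaf 1)) [⟨17, 18, 128⟩, ⟨18, 19, 32⟩] = true) ∧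
    (checkAlt 2 (envAlts 7 eEnvD3 [13271, 9953, 6635]) (.leaf 1) [⟨17, 18, 128⟩, ⟨19, 20, 32⟩] = true) ∧
    (checkAlt 2 (envAlts 7 eEnvD3 [13271, 9953, 6635]) (.cut 1 (.leaf 2) (.leaf 1)) [⟨18, 19, 128⟩, ⟨8, 9, 16⟩] = true) ∧
    (checkAlt 2 (envAlts 7 eEnvD3 [13271, 9953, 6635]) (.leaf 1) [⟨19, 20, 128⟩, ⟨8, 9, 16⟩] = true) ∧
    (checkAlt 2 (envAlts 7 eEnvD3 [13271, 9953, 6635]) (.leaf 1) [⟨9, 10, 64⟩, ⟨9, 10, 16⟩] = true) ∧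
    (checkAlt 2 (envAlts 7 eEnvD3 [13271, 9953, 6635]) (.cut 0 (.leaf 3) (.leaf 2)) [⟨16, 17, 128⟩, ⟨20, 21, 32⟩] = true) := by
  refine ⟨?_, ?_, ?_, ?_, ?_, ?_, ?_, ?_, ?_, ?_, ?_, ?_, ?_, ?_, ?_, ?_, ?_, ?_, ?_⟩ <;> decide +kernel

theorem leavesEnvD33 :
    (checkAlt 2 (envAlts 7 eEnvD3 [13271, 9953, 6635]) (.cut 0 (.leaf 2) (.leaf 1)) [⟨16, 17, 128⟩, ⟨21, 22, 32⟩] = true) ∧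
    (checkAlt 2 (envAlts 7 eEnvD3 [13271, 9953, 6635]) (.leaf 1) [⟨17, 18, 128⟩, ⟨10, 11, 16⟩] = true) ∧
    (checkAlt 2 (envAlts 7 eEnvD3 [13271, 9953, 6635]) (.leaf 1) [⟨8, 9, 64⟩, ⟨11, 12, 16⟩] = true) ∧
    (checkAlt 2 (envAlts 7 eEnvD3 [13271, 9953, 6635]) (.leaf 1) [⟨9, 10, 64⟩, ⟨5, 6, 8⟩] = true) ∧
    (checkAlt 2 (envAlts 7 eEnvD3 [13271, 9953, 6635]) (.leaf 1) [⟨5, 6, 32⟩, ⟨2, 3, 4⟩] = true) ∧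
    (checkAlt 2 (envAlts 7 eEnvD3 [13271, 9953, 6635]) (.leaf 1) [⟨2, 3, 16⟩, ⟨3, 4, 4⟩] = true) ∧
    (checkAlt 2 (envAlts 7 eEnvD3 [13271, 9953, 6635]) (.leaf 1) [⟨3, 4, 16⟩, ⟨1, 2, 2⟩] = true) ∧
    (checkAlt 2 (envAlts 7 eEnvD3 [13271, 9953, 6635]) (.cut 1 (.leaf 0) (.leaf 1)) [⟨8, 9, 32⟩, ⟨0, 1, 4⟩] = true) ∧
    (checkAlt 2 (envAlts 7 eEnvD3 [13271, 9953, 6635]) (.cut 1 (.leaf 0) (.leaf 1)) [⟨9, 10, 32⟩, ⟨0, 1, 4⟩] = true) ∧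
    (checkAlt 2 (envAlts 7 eEnvD3 [13271, 9953, 6635]) (.leaf 1) [⟨4, 5, 16⟩, ⟨1, 2, 4⟩] = true) ∧
    (checkAlt 2 (envAlts 7 eEnvD3 [13271, 9953, 6635]) (.cut 1 (.leaf 0) (.leaf 1)) [⟨10, 11, 32⟩, ⟨0, 1, 4⟩] = true) ∧
    (checkAlt 2 (envAlts 7 eEnvD3 [13271, 9953, 6635]) (.cut 1 (.leaf 0) (.leaf 1)) [⟨11, 12, 32⟩, ⟨0, 1, 4⟩] = true) ∧
    (checkAlt 2 (envAlts 7 eEnvD3 [13271, 9953, 6635]) (.leaf 1) [⟨5, 6, 16⟩, ⟨1, 2, 4⟩] = true) ∧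
    (checkAlt 2 (envAlts 7 eEnvD3 [13271, 9953, 6635]) (.leaf 1) [⟨2, 3, 8⟩, ⟨1, 2, 2⟩] = true) ∧
    (checkAlt 2 (envAlts 7 eEnvD3 [13271, 9953, 6635]) (.cut 1 (.leaf 0) (.leaf 1)) [⟨12, 13, 32⟩, ⟨0, 1, 4⟩] = true) ∧
    (checkAlt 2 (envAlts 7 eEnvD3 [13271, 9953, 6635]) (.cut 1 (.leaf 0) (.leaf 1)) [⟨13, 14, 32⟩, ⟨0, 1, 4⟩] = true) ∧
    (checkAlt 2 (envAlts 7 eEnvD3 [13271, 9953, 6635]) (.leaf 1) [⟨6, 7, 16⟩, ⟨1, 2, 4⟩] = true) ∧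
    (checkAlt 2 (envAlts 7 eEnvD3 [13271, 9953, 6635]) (.leaf 1) [⟨7, 8, 16⟩, ⟨0, 1, 2⟩] = true) ∧
    (checkAlt 2 (envAlts 7 eEnvD3 [13271, 9953, 6635]) (.leaf 1) [⟨3, 4, 8⟩, ⟨1, 2, 2⟩] = true) ∧
    (checkAlt 2 (envAlts 7 eEnvD3 [13271, 9953, 6635]) (.leaf 1) [⟨1, 2, 2⟩, ⟨0, 1, 1⟩] = true) := by
  refine ⟨?_, ?_, ?_, ?_, ?_, ?_, ?_, ?_, ?_, ?_, ?_, ?_, ?_, ?_, ?_, ?_, ?_, ?_, ?_, ?_⟩ <;> decide +kernel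

theorem chkD3_0 : checkAlt 2 (envAlts 7 eEnvD3 [13271, 9953, 6635]) (.leaf 0)
    [⟨0, 1, 8⟩, ⟨0, 1, 2⟩] = true := leavesEnvD30.1

theorem chkD3_1 : checkAlt 2 (envAlts 7 eEnvD3 [13271, 9953, 6635]) (.leaf 0)
    [⟨0, 1, 16⟩, ⟨1, 2, 2⟩] = true := leavesEnvD30.2.1

theorem chkD3_2 : checkAlt 2 (envAlts 7 eEnvD3 [13271, 9953, 6635]) (.leaf 0)
    [⟨2, 3, 32⟩, ⟨2, 3, 4⟩] = true := leavesEnvD30.2.2.1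

theorem chkD3_3 : checkAlt 2 (envAlts 7 eEnvD3 [13271, 9953, 6635]) (.leaf 0)
    [⟨3, 4, 32⟩, ⟨4, 5, 8⟩] = true := leavesEnvD30.2.2.2.1

theorem chkD3_4 : checkAlt 2 (envAlts 7 eEnvD3 [13271, 9953, 6635]) (.leaf 0)
    [⟨6, 7, 64⟩, ⟨5, 6, 8⟩] = true := leavesEnvD30.2.2.2.2.1

theorem chkD3_5 : checkAlt 2 (envAlts 7 eEnvD3 [13271, 9953, 6635]) (.leaf 0)
    [⟨14, 15, 128⟩, ⟨10, 11, 16⟩] = true := leavesEnvD30.2.2.2.2.2.1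

theorem chkD3_6 : checkAlt 2 (envAlts 7 eEnvD3 [13271, 9953, 6635]) (.cut 1 (.leaf 0) (.leaf 4))
    [⟨15, 16, 128⟩, ⟨10, 11, 16⟩] = true := leavesEnvD30.2.2.2.2.2.2.1

theorem chkD3_7 : checkAlt 2 (envAlts 7 eEnvD3 [13271, 9953, 6635]) (.cut 0 (.leaf 0) (.cut 1 (.leaf 0) (.leaf 4)))
    [⟨7, 8, 64⟩, ⟨10, 11, 16⟩] = true := checkAlt_cut chkD3_5 chkD3_6

theorem chkD3_8 : checkAlt 2 (envAlts 7 eEnvD3 [13271, 9953, 6635]) (.leaf 0)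
    [⟨14, 15, 128⟩, ⟨11, 12, 16⟩] = true := leavesEnvD30.2.2.2.2.2.2.2.1

theorem chkD3_9 : checkAlt 2 (envAlts 7 eEnvD3 [13271, 9953, 6635]) (.cut 0 (.leaf 0) (.leaf 3))
    [⟨15, 16, 128⟩, ⟨22, 23, 32⟩] = true := leavesEnvD30.2.2.2.2.2.2.2.2.1

theorem chkD3_10 : checkAlt 2 (envAlts 7 eEnvD3 [13271, 9953, 6635]) (.cut 0 (.leaf 3) (.leaf 2))
    [⟨15, 16, 128⟩, ⟨23, 24, 32⟩] = true := leavesEnvD30.2.2.2.2.2.2.2.2.2.1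

theorem chkD3_11 : checkAlt 2 (envAlts 7 eEnvD3 [13271, 9953, 6635]) (.cut 1 (.cut 0 (.leaf 0) (.leaf 3)) (.cut 0 (.leaf 3) (.leaf 2)))
    [⟨15, 16, 128⟩, ⟨11, 12, 16⟩] = true := checkAlt_cut chkD3_9 chkD3_10

theorem chkD3_12 : checkAlt 2 (envAlts 7 eEnvD3 [13271, 9953, 6635]) (.cut 0 (.leaf 0) (.cut 1 (.cut 0 (.leaf 0) (.leaf 3)) (.cut 0 (.leaf 3) (.leaf 2))))
    [⟨7, 8, 64⟩, ⟨11, 12, 16⟩] = true := checkAlt_cut chkD3_8 chkD3_11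

theorem chkD3_13 : checkAlt 2 (envAlts 7 eEnvD3 [13271, 9953, 6635]) (.cut 1 (.cut 0 (.leaf 0) (.cut 1 (.leaf 0) (.leaf 4))) (.cut 0 (.leaf 0) (.cut 1 (.cut 0 (.leaf 0) (.leaf 3)) (.cut 0 (.leaf 3) (.leaf 2)))))
    [⟨7, 8, 64⟩, ⟨5, 6, 8⟩] = true := checkAlt_cut chkD3_7 chkD3_12

theorem chkD3_14 : checkAlt 2 (envAlts 7 eEnvD3 [13271, 9953, 6635]) (.cut 0 (.leaf 0) (.cut 1 (.cut 0 (.leaf 0) (.cut 1 (.leaf 0) (.leaf 4))) (.cut 0 (.leaf 0) (.cut 1 (.cut 0 (.leaf 0) (.leaf 3)) (.cut 0 (.leaf 3) (.leaf 2))))))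
    [⟨3, 4, 32⟩, ⟨5, 6, 8⟩] = true := checkAlt_cut chkD3_4 chkD3_13

theorem chkD3_15 : checkAlt 2 (envAlts 7 eEnvD3 [13271, 9953, 6635]) (.cut 1 (.leaf 0) (.cut 0 (.leaf 0) (.cut 1 (.cut 0 (.leaf 0) (.cut 1 (.leaf 0) (.leaf 4))) (.cut 0 (.leaf 0) (.cut 1 (.cut 0 (.leaf 0) (.leaf 3)) (.cut 0 (.leaf 3) (.leaf 2)))))))
    [⟨3, 4, 32⟩, ⟨2, 3, 4⟩] = true := checkAlt_cut chkD3_3 chkD3_14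

theorem chkD3_16 : checkAlt 2 (envAlts 7 eEnvD3 [13271, 9953, 6635]) (.cut 0 (.leaf 0) (.cut 1 (.leaf 0) (.cut 0 (.leaf 0) (.cut 1 (.cut 0 (.leaf 0) (.cut 1 (.leaf 0) (.leaf 4))) (.cut 0 (.leaf 0) (.cut 1 (.cut 0 (.leaf 0) (.leaf 3)) (.cut 0 (.leaf 3) (.leaf 2))))))))
    [⟨1, 2, 16⟩, ⟨2, 3, 4⟩] = true := checkAlt_cut chkD3_2 chkD3_15

theorem chkD3_17 : checkAlt 2 (envAlts 7 eEnvD3 [13271, 9953, 6635]) (.leaf 0)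
    [⟨2, 3, 32⟩, ⟨3, 4, 4⟩] = true := leavesEnvD30.2.2.2.2.2.2.2.2.2.2.1

theorem chkD3_18 : checkAlt 2 (envAlts 7 eEnvD3 [13271, 9953, 6635]) (.leaf 0)
    [⟨6, 7, 64⟩, ⟨6, 7, 8⟩] = true := leavesEnvD30.2.2.2.2.2.2.2.2.2.2.2.1

theorem chkD3_19 : checkAlt 2 (envAlts 7 eEnvD3 [13271, 9953, 6635]) (.leaf 0)
    [⟨14, 15, 128⟩, ⟨24, 25, 32⟩] = true := leavesEnvD30.2.2.2.2.2.2.2.2.2.2.2.2.1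

theorem chkD3_20 : checkAlt 2 (envAlts 7 eEnvD3 [13271, 9953, 6635]) (.cut 0 (.leaf 0) (.leaf 3))
    [⟨14, 15, 128⟩, ⟨25, 26, 32⟩] = true := leavesEnvD30.2.2.2.2.2.2.2.2.2.2.2.2.2.1

theorem chkD3_21 : checkAlt 2 (envAlts 7 eEnvD3 [13271, 9953, 6635]) (.cut 1 (.leaf 0) (.cut 0 (.leaf 0) (.leaf 3)))
    [⟨14, 15, 128⟩, ⟨12, 13, 16⟩] = true := checkAlt_cut chkD3_19 chkD3_20

theorem chkD3_22 : checkAlt 2 (envAlts 7 eEnvD3 [13271, 9953, 6635]) (.cut 1 (.leaf 3) (.leaf 2))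
    [⟨30, 31, 256⟩, ⟨24, 25, 32⟩] = true := leavesEnvD30.2.2.2.2.2.2.2.2.2.2.2.2.2.2.1

theorem chkD3_23 : checkAlt 2 (envAlts 7 eEnvD3 [13271, 9953, 6635]) (.leaf 1)
    [⟨31, 32, 256⟩, ⟨24, 25, 32⟩] = true := leavesEnvD30.2.2.2.2.2.2.2.2.2.2.2.2.2.2.2.1

theorem chkD3_24 : checkAlt 2 (envAlts 7 eEnvD3 [13271, 9953, 6635]) (.cut 0 (.cut 1 (.leaf 3) (.leaf 2)) (.leaf 1))
    [⟨15, 16, 128⟩, ⟨24, 25, 32⟩] = true := checkAlt_cut chkD3_22 chkD3_23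

theorem chkD3_25 : checkAlt 2 (envAlts 7 eEnvD3 [13271, 9953, 6635]) (.leaf 1)
    [⟨15, 16, 128⟩, ⟨25, 26, 32⟩] = true := leavesEnvD30.2.2.2.2.2.2.2.2.2.2.2.2.2.2.2.2.1

theorem chkD3_26 : checkAlt 2 (envAlts 7 eEnvD3 [13271, 9953, 6635]) (.cut 1 (.cut 0 (.cut 1 (.leaf 3) (.leaf 2)) (.leaf 1)) (.leaf 1))
    [⟨15, 16, 128⟩, ⟨12, 13, 16⟩] = true := checkAlt_cut chkD3_24 chkD3_25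

theorem chkD3_27 : checkAlt 2 (envAlts 7 eEnvD3 [13271, 9953, 6635]) (.cut 0 (.cut 1 (.leaf 0) (.cut 0 (.leaf 0) (.leaf 3))) (.cut 1 (.cut 0 (.cut 1 (.leaf 3) (.leaf 2)) (.leaf 1)) (.leaf 1)))
    [⟨7, 8, 64⟩, ⟨12, 13, 16⟩] = true := checkAlt_cut chkD3_21 chkD3_26

theorem chkD3_28 : checkAlt 2 (envAlts 7 eEnvD3 [13271, 9953, 6635]) (.cut 0 (.leaf 0) (.leaf 2))
    [⟨14, 15, 128⟩, ⟨26, 27, 32⟩] = true := leavesEnvD30.2.2.2.2.2.2.2.2.2.2.2.2.2.2.2.2.2.1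

theorem chkD3_29 : checkAlt 2 (envAlts 7 eEnvD3 [13271, 9953, 6635]) (.cut 0 (.leaf 3) (.leaf 1))
    [⟨14, 15, 128⟩, ⟨27, 28, 32⟩] = true := leavesEnvD30.2.2.2.2.2.2.2.2.2.2.2.2.2.2.2.2.2.2

theorem chkD3_30 : checkAlt 2 (envAlts 7 eEnvD3 [13271, 9953, 6635]) (.cut 1 (.cut 0 (.leaf 0) (.leaf 2)) (.cut 0 (.leaf 3) (.leaf 1)))
    [⟨14, 15, 128⟩, ⟨13, 14, 16⟩] = true := checkAlt_cut chkD3_28 chkD3_29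

theorem chkD3_31 : checkAlt 2 (envAlts 7 eEnvD3 [13271, 9953, 6635]) (.leaf 1)
    [⟨15, 16, 128⟩, ⟨13, 14, 16⟩] = true := leavesEnvD31.1

theorem chkD3_32 : checkAlt 2 (envAlts 7 eEnvD3 [13271, 9953, 6635]) (.cut 0 (.cut 1 (.cut 0 (.leaf 0) (.leaf 2)) (.cut 0 (.leaf 3) (.leaf 1))) (.leaf 1))
    [⟨7, 8, 64⟩, ⟨13, 14, 16⟩] = true := checkAlt_cut chkD3_30 chkD3_31

theorem chkD3_33 : checkAlt 2 (envAlts 7 eEnvD3 [13271, 9953, 6635]) (.cut 1 (.cut 0 (.cut 1 (.leaf 0) (.cut 0 (.leaf 0) (.leaf 3))) (.cut 1 (.cut 0 (.cut 1 (.leaf 3) (.leaf 2)) (.leaf 1)) (.leaf 1))) (.cut 0 (.cut 1 (.cut 0 (.leaf 0) (.leaf 2)) (.cut 0 (.leaf 3) (.leaf 1))) (.leaf 1)))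
    [⟨7, 8, 64⟩, ⟨6, 7, 8⟩] = true := checkAlt_cut chkD3_27 chkD3_32

theorem chkD3_34 : checkAlt 2 (envAlts 7 eEnvD3 [13271, 9953, 6635]) (.cut 0 (.leaf 0) (.cut 1 (.cut 0 (.cut 1 (.leaf 0) (.cut 0 (.leaf 0) (.leaf 3))) (.cut 1 (.cut 0 (.cut 1 (.leaf 3) (.leaf 2)) (.leaf 1)) (.leaf 1))) (.cut 0 (.cut 1 (.cut 0 (.leaf 0) (.leaf 2)) (.cut 0 (.leaf 3) (.leaf 1))) (.leaf 1))))
    [⟨3, 4, 32⟩, ⟨6, 7, 8⟩] = true := checkAlt_cut chkD3_18 chkD3_33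

theorem chkD3_35 : checkAlt 2 (envAlts 7 eEnvD3 [13271, 9953, 6635]) (.leaf 0)
    [⟨12, 13, 128⟩, ⟨14, 15, 16⟩] = true := leavesEnvD31.2.1

theorem chkD3_36 : checkAlt 2 (envAlts 7 eEnvD3 [13271, 9953, 6635]) (.leaf 0)
    [⟨13, 14, 128⟩, ⟨28, 29, 32⟩] = true := leavesEnvD31.2.2.1

theorem chkD3_37 : checkAlt 2 (envAlts 7 eEnvD3 [13271, 9953, 6635]) (.cut 0 (.leaf 0) (.leaf 3))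
    [⟨13, 14, 128⟩, ⟨29, 30, 32⟩] = true := leavesEnvD31.2.2.2.1

theorem chkD3_38 : checkAlt 2 (envAlts 7 eEnvD3 [13271, 9953, 6635]) (.cut 1 (.leaf 0) (.cut 0 (.leaf 0) (.leaf 3)))
    [⟨13, 14, 128⟩, ⟨14, 15, 16⟩] = true := checkAlt_cut chkD3_36 chkD3_37

theorem chkD3_39 : checkAlt 2 (envAlts 7 eEnvD3 [13271, 9953, 6635]) (.cut 0 (.leaf 0) (.cut 1 (.leaf 0) (.cut 0 (.leaf 0) (.leaf 3))))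
    [⟨6, 7, 64⟩, ⟨14, 15, 16⟩] = true := checkAlt_cut chkD3_35 chkD3_38

theorem chkD3_40 : checkAlt 2 (envAlts 7 eEnvD3 [13271, 9953, 6635]) (.leaf 0)
    [⟨12, 13, 128⟩, ⟨15, 16, 16⟩] = true := leavesEnvD31.2.2.2.2.1

theorem chkD3_41 : checkAlt 2 (envAlts 7 eEnvD3 [13271, 9953, 6635]) (.cut 0 (.leaf 0) (.leaf 2))
    [⟨13, 14, 128⟩, ⟨30, 31, 32⟩] = true := leavesEnvD31.2.2.2.2.2.1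

theorem chkD3_42 : checkAlt 2 (envAlts 7 eEnvD3 [13271, 9953, 6635]) (.cut 0 (.leaf 3) (.leaf 1))
    [⟨13, 14, 128⟩, ⟨31, 32, 32⟩] = true := leavesEnvD31.2.2.2.2.2.2.1

theorem chkD3_43 : checkAlt 2 (envAlts 7 eEnvD3 [13271, 9953, 6635]) (.cut 1 (.cut 0 (.leaf 0) (.leaf 2)) (.cut 0 (.leaf 3) (.leaf 1)))
    [⟨13, 14, 128⟩, ⟨15, 16, 16⟩] = true := checkAlt_cut chkD3_41 chkD3_42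

theorem chkD3_44 : checkAlt 2 (envAlts 7 eEnvD3 [13271, 9953, 6635]) (.cut 0 (.leaf 0) (.cut 1 (.cut 0 (.leaf 0) (.leaf 2)) (.cut 0 (.leaf 3) (.leaf 1))))
    [⟨6, 7, 64⟩, ⟨15, 16, 16⟩] = true := checkAlt_cut chkD3_40 chkD3_43

theorem chkD3_45 : checkAlt 2 (envAlts 7 eEnvD3 [13271, 9953, 6635]) (.cut 1 (.cut 0 (.leaf 0) (.cut 1 (.leaf 0) (.cut 0 (.leaf 0) (.leaf 3)))) (.cut 0 (.leaf 0) (.cut 1 (.cut 0 (.leaf 0) (.leaf 2)) (.cut 0 (.leaf 3) (.leaf 1)))))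
    [⟨6, 7, 64⟩, ⟨7, 8, 8⟩] = true := checkAlt_cut chkD3_39 chkD3_44

theorem chkD3_46 : checkAlt 2 (envAlts 7 eEnvD3 [13271, 9953, 6635]) (.cut 0 (.leaf 2) (.leaf 1))
    [⟨14, 15, 128⟩, ⟨28, 29, 32⟩] = true := leavesEnvD31.2.2.2.2.2.2.2.1

theorem chkD3_47 : checkAlt 2 (envAlts 7 eEnvD3 [13271, 9953, 6635]) (.leaf 1)
    [⟨14, 15, 128⟩, ⟨29, 30, 32⟩] = true := leavesEnvD31.2.2.2.2.2.2.2.2.1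

theorem chkD3_48 : checkAlt 2 (envAlts 7 eEnvD3 [13271, 9953, 6635]) (.cut 1 (.cut 0 (.leaf 2) (.leaf 1)) (.leaf 1))
    [⟨14, 15, 128⟩, ⟨14, 15, 16⟩] = true := checkAlt_cut chkD3_46 chkD3_47

theorem chkD3_49 : checkAlt 2 (envAlts 7 eEnvD3 [13271, 9953, 6635]) (.leaf 1)
    [⟨15, 16, 128⟩, ⟨14, 15, 16⟩] = true := leavesEnvD31.2.2.2.2.2.2.2.2.2.1

theorem chkD3_50 : checkAlt 2 (envAlts 7 eEnvD3 [13271, 9953, 6635]) (.cut 0 (.cut 1 (.cut 0 (.leaf 2) (.leaf 1)) (.leaf 1)) (.leaf 1))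
    [⟨7, 8, 64⟩, ⟨14, 15, 16⟩] = true := checkAlt_cut chkD3_48 chkD3_49

theorem chkD3_51 : checkAlt 2 (envAlts 7 eEnvD3 [13271, 9953, 6635]) (.leaf 1)
    [⟨7, 8, 64⟩, ⟨15, 16, 16⟩] = true := leavesEnvD31.2.2.2.2.2.2.2.2.2.2.1

theorem chkD3_52 : checkAlt 2 (envAlts 7 eEnvD3 [13271, 9953, 6635]) (.cut 1 (.cut 0 (.cut 1 (.cut 0 (.leaf 2) (.leaf 1)) (.leaf 1)) (.leaf 1)) (.leaf 1))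
    [⟨7, 8, 64⟩, ⟨7, 8, 8⟩] = true := checkAlt_cut chkD3_50 chkD3_51

theorem chkD3_53 : checkAlt 2 (envAlts 7 eEnvD3 [13271, 9953, 6635]) (.cut 0 (.cut 1 (.cut 0 (.leaf 0) (.cut 1 (.leaf 0) (.cut 0 (.leaf 0) (.leaf 3)))) (.cut 0 (.leaf 0) (.cut 1 (.cut 0 (.leaf 0) (.leaf 2)) (.cut 0 (.leaf 3) (.leaf 1))))) (.cut 1 (.cut 0 (.cut 1 (.cut 0 (.leaf 2) (.leaf 1)) (.leaf 1)) (.leaf 1)) (.leaf 1)))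
    [⟨3, 4, 32⟩, ⟨7, 8, 8⟩] = true := checkAlt_cut chkD3_45 chkD3_52

theorem chkD3_54 : checkAlt 2 (envAlts 7 eEnvD3 [13271, 9953, 6635]) (.cut 1 (.cut 0 (.leaf 0) (.cut 1 (.cut 0 (.cut 1 (.leaf 0) (.cut 0 (.leaf 0) (.leaf 3))) (.cut 1 (.cut 0 (.cut 1 (.leaf 3) (.leaf 2)) (.leaf 1)) (.leaf 1))) (.cut 0 (.cut 1 (.cut 0 (.leaf 0) (.leaf 2)) (.cut 0 (.leaf 3) (.leaf 1))) (.leaf 1)))) (.cut 0 (.cut 1 (.cut 0 (.leaf 0) (.cut 1 (.leaf 0) (.cut 0 (.leaf 0) (.leaf 3)))) (.cut 0 (.leaf 0) (.cut 1 (.cut 0 (.leaf 0) (.leaf 2)) (.cut 0 (.leaf 3) (.leaf 1))))) (.cut 1 (.cut 0 (.cut 1 (.cut 0 (.leaf 2) (.leaf 1)) (.leaf 1)) (.leaf 1)) (.leaf 1))))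
    [⟨3, 4, 32⟩, ⟨3, 4, 4⟩] = true := checkAlt_cut chkD3_34 chkD3_53

theorem chkD3_55 : checkAlt 2 (envAlts 7 eEnvD3 [13271, 9953, 6635]) (.cut 0 (.leaf 0) (.cut 1 (.cut 0 (.leaf 0) (.cut 1 (.cut 0 (.cut 1 (.leaf 0) (.cut 0 (.leaf 0) (.leaf 3))) (.cut 1 (.cut 0 (.cut 1 (.leaf 3) (.leaf 2)) (.leaf 1)) (.leaf 1))) (.cut 0 (.cut 1 (.cut 0 (.leaf 0) (.leaf 2)) (.cut 0 (.leaf 3) (.leaf 1))) (.leaf 1)))) (.cut 0 (.cut 1 (.cut 0 (.leaf 0) (.cut 1 (.leaf 0) (.cut 0 (.leaf 0) (.leaf 3)))) (.cut 0 (.leaf 0) (.cut 1 (.cut 0 (.leaf 0) (.leaf 2)) (.cut 0 (.leaf 3) (.leaf 1))))) (.cut 1 (.cut 0 (.cut 1 (.cut 0 (.leaf 2) (.leaf 1)) (.leaf 1)) (.leaf 1)) (.leaf 1)))))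
    [⟨1, 2, 16⟩, ⟨3, 4, 4⟩] = true := checkAlt_cut chkD3_17 chkD3_54

theorem chkD3_56 : checkAlt 2 (envAlts 7 eEnvD3 [13271, 9953, 6635]) (.cut 1 (.cut 0 (.leaf 0) (.cut 1 (.leaf 0) (.cut 0 (.leaf 0) (.cut 1 (.cut 0 (.leaf 0) (.cut 1 (.leaf 0) (.leaf 4))) (.cut 0 (.leaf 0) (.cut 1 (.cut 0 (.leaf 0) (.leaf 3)) (.cut 0 (.leaf 3) (.leaf 2)))))))) (.cut 0 (.leaf 0) (.cut 1 (.cut 0 (.leaf 0) (.cut 1 (.cut 0 (.cut 1 (.leaf 0) (.cut 0 (.leaf 0) (.leaf 3))) (.cut 1 (.cut 0 (.cut 1 (.leaf 3) (.leaf 2)) (.leaf 1)) (.leaf 1))) (.cut 0 (.cut 1 (.cut 0 (.leaf 0) (.leaf 2)) (.cut 0 (.leaf 3) (.leaf 1))) (.leaf 1)))) (.cut 0 (.cut 1 (.cut 0 (.leaf 0) (.cut 1 (.leaf 0) (.cut 0 (.leaf 0) (.leaf 3)))) (.cut 0 (.leaf 0) (.cut 1 (.cut 0 (.leaf 0) (.leaf 2)) (.cut 0 (.leaf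 3) (.leaf 1))))) (.cut 1 (.cut 0 (.cut 1 (.cut 0 (.leaf 2) (.leaf 1)) (.leaf 1)) (.leaf 1)) (.leaf 1))))))
    [⟨1, 2, 16⟩, ⟨1, 2, 2⟩] = true := checkAlt_cut chkD3_16 chkD3_55

theorem chkD3_57 : checkAlt 2 (envAlts 7 eEnvD3 [13271, 9953, 6635]) (.cut 0 (.leaf 0) (.cut 1 (.cut 0 (.leaf 0) (.cut 1 (.leaf 0) (.cut 0 (.leaf 0) (.cut 1 (.cut 0 (.leaf 0) (.cut 1 (.leaf 0) (.leaf 4))) (.cut 0 (.leaf 0) (.cut 1 (.cut 0 (.leaf 0) (.leaf 3)) (.cut 0 (.leaf 3) (.leaf 2)))))))) (.cut 0 (.leaf 0) (.cut 1 (.cut 0 (.leaf 0) (.cut 1 (.cut 0 (.cut 1 (.leaf 0) (.cut 0 (.leaf 0) (.leaf 3))) (.cut 1 (.cut 0 (.cut 1 (.leaf 3) (.leaf 2)) (.leaf 1)) (.leaf 1))) (.cut 0 (.cut 1 (.cut 0 (.leaf 0) (.leaf 2)) (.cut 0 (.leaf 3) (.leaf 1))) (.leaf 1)))) (.cut 0 (.cut 1 (.cut 0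 (.leaf 0) (.cut 1 (.leaf 0) (.cut 0 (.leaf 0) (.leaf 3)))) (.cut 0 (.leaf 0) (.cut 1 (.cut 0 (.leaf 0) (.leaf 2)) (.cut 0 (.leaf 3) (.leaf 1))))) (.cut 1 (.cut 0 (.cut 1 (.cut 0 (.leaf 2) (.leaf 1)) (.leaf 1)) (.leaf 1)) (.leaf 1)))))))
    [⟨0, 1, 8⟩, ⟨1, 2, 2⟩] = true := checkAlt_cut chkD3_1 chkD3_56

theorem chkD3_58 : checkAlt 2 (envAlts 7 eEnvD3 [13271, 9953, 6635]) (.cut 1 (.leaf 0) (.cut 0 (.leaf 0) (.cut 1 (.cut 0 (.leaf 0) (.cut 1 (.leaf 0) (.cut 0 (.leaf 0) (.cut 1 (.cut 0 (.leaf 0) (.cut 1 (.leaf 0) (.leaf 4))) (.cut 0 (.leaf 0) (.cut 1 (.cut 0 (.leaf 0) (.leaf 3)) (.cut 0 (.leaf 3) (.leaf 2)))))))) (.cut 0 (.leaf 0) (.cut 1 (.cut 0 (.leaf 0) (.cut 1 (.cut 0 (.cut 1 (.leaf 0) (.cut 0 (.leaf 0) (.leaf 3))) (.cut 1 (.cut 0 (.cut 1 (.leaf 3)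 (.leaf 2)) (.leaf 1)) (.leaf 1))) (.cut 0 (.cut 1 (.cut 0 (.leaf 0) (.leaf 2)) (.cut 0 (.leaf 3) (.leaf 1))) (.leaf 1)))) (.cut 0 (.cut 1 (.cut 0 (.leaf 0) (.cut 1 (.leaf 0) (.cut 0 (.leaf 0) (.leaf 3)))) (.cut 0 (.leaf 0) (.cut 1 (.cut 0 (.leaf 0) (.leaf 2)) (.cut 0 (.leaf 3) (.leaf 1))))) (.cut 1 (.cut 0 (.cut 1 (.cut 0 (.leaf 2) (.leaf 1)) (.leaf 1)) (.leaf 1)) (.leaf 1))))))))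
    [⟨0, 1, 8⟩, ⟨0, 1, 1⟩] = true := checkAlt_cut chkD3_0 chkD3_57

theorem chkD3_59 : checkAlt 2 (envAlts 7 eEnvD3 [13271, 9953, 6635]) (.leaf 0)
    [⟨2, 3, 16⟩, ⟨0, 1, 4⟩] = true := leavesEnvD31.2.2.2.2.2.2.2.2.2.2.2.1

theorem chkD3_60 : checkAlt 2 (envAlts 7 eEnvD3 [13271, 9953, 6635]) (.leaf 0)
    [⟨4, 5, 32⟩, ⟨2, 3, 8⟩] = true := leavesEnvD31.2.2.2.2.2.2.2.2.2.2.2.2.1

theorem chkD3_61 : checkAlt 2 (envAlts 7 eEnvD3 [13271, 9953, 6635]) (.leaf 0)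
    [⟨8, 9, 64⟩, ⟨3, 4, 8⟩] = true := leavesEnvD31.2.2.2.2.2.2.2.2.2.2.2.2.2.1

theorem chkD3_62 : checkAlt 2 (envAlts 7 eEnvD3 [13271, 9953, 6635]) (.cut 0 (.leaf 0) (.leaf 4))
    [⟨9, 10, 64⟩, ⟨6, 7, 16⟩] = true := leavesEnvD31.2.2.2.2.2.2.2.2.2.2.2.2.2.2.1

theorem chkD3_63 : checkAlt 2 (envAlts 7 eEnvD3 [13271, 9953, 6635]) (.cut 1 (.leaf 0) (.leaf 3))
    [⟨18, 19, 128⟩, ⟨7, 8, 16⟩] = true := leavesEnvD31.2.2.2.2.2.2.2.2.2.2.2.2.2.2.2.1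

theorem chkD3_64 : checkAlt 2 (envAlts 7 eEnvD3 [13271, 9953, 6635]) (.leaf 2)
    [⟨19, 20, 128⟩, ⟨7, 8, 16⟩] = true := leavesEnvD31.2.2.2.2.2.2.2.2.2.2.2.2.2.2.2.2.1

theorem chkD3_65 : checkAlt 2 (envAlts 7 eEnvD3 [13271, 9953, 6635]) (.cut 0 (.cut 1 (.leaf 0) (.leaf 3)) (.leaf 2))
    [⟨9, 10, 64⟩, ⟨7, 8, 16⟩] = true := checkAlt_cut chkD3_63 chkD3_64

theorem chkD3_66 : checkAlt 2 (envAlts 7 eEnvD3 [13271, 9953, 6635]) (.cut 1 (.cut 0 (.leaf 0) (.leaf 4)) (.cut 0 (.cut 1 (.leaf 0) (.leaf 3)) (.leaf 2)))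
    [⟨9, 10, 64⟩, ⟨3, 4, 8⟩] = true := checkAlt_cut chkD3_62 chkD3_65

theorem chkD3_67 : checkAlt 2 (envAlts 7 eEnvD3 [13271, 9953, 6635]) (.cut 0 (.leaf 0) (.cut 1 (.cut 0 (.leaf 0) (.leaf 4)) (.cut 0 (.cut 1 (.leaf 0) (.leaf 3)) (.leaf 2))))
    [⟨4, 5, 32⟩, ⟨3, 4, 8⟩] = true := checkAlt_cut chkD3_61 chkD3_66

theorem chkD3_68 : checkAlt 2 (envAlts 7 eEnvD3 [13271, 9953, 6635]) (.cut 1 (.leaf 0) (.cut 0 (.leaf 0) (.cut 1 (.cut 0 (.leaf 0) (.leaf 4)) (.cut 0 (.cut 1 (.leaf 0) (.leaf 3)) (.leaf 2)))))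
    [⟨4, 5, 32⟩, ⟨1, 2, 4⟩] = true := checkAlt_cut chkD3_60 chkD3_67

theorem chkD3_69 : checkAlt 2 (envAlts 7 eEnvD3 [13271, 9953, 6635]) (.cut 1 (.leaf 0) (.leaf 4))
    [⟨10, 11, 64⟩, ⟨2, 3, 8⟩] = true := leavesEnvD31.2.2.2.2.2.2.2.2.2.2.2.2.2.2.2.2.2.1

theorem chkD3_70 : checkAlt 2 (envAlts 7 eEnvD3 [13271, 9953, 6635]) (.cut 1 (.leaf 0) (.leaf 2))
    [⟨11, 12, 64⟩, ⟨2, 3, 8⟩] = true := leavesEnvD31.2.2.2.2.2.2.2.2.2.2.2.2.2.2.2.2.2.2.1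

theorem chkD3_71 : checkAlt 2 (envAlts 7 eEnvD3 [13271, 9953, 6635]) (.cut 0 (.cut 1 (.leaf 0) (.leaf 4)) (.cut 1 (.leaf 0) (.leaf 2)))
    [⟨5, 6, 32⟩, ⟨2, 3, 8⟩] = true := checkAlt_cut chkD3_69 chkD3_70

theorem chkD3_72 : checkAlt 2 (envAlts 7 eEnvD3 [13271, 9953, 6635]) (.cut 0 (.leaf 2) (.leaf 1))
    [⟨10, 11, 64⟩, ⟨6, 7, 16⟩] = true := leavesEnvD31.2.2.2.2.2.2.2.2.2.2.2.2.2.2.2.2.2.2.2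

theorem chkD3_73 : checkAlt 2 (envAlts 7 eEnvD3 [13271, 9953, 6635]) (.leaf 1)
    [⟨10, 11, 64⟩, ⟨7, 8, 16⟩] = true := leavesEnvD32.1

theorem chkD3_74 : checkAlt 2 (envAlts 7 eEnvD3 [13271, 9953, 6635]) (.cut 1 (.cut 0 (.leaf 2) (.leaf 1)) (.leaf 1))
    [⟨10, 11, 64⟩, ⟨3, 4, 8⟩] = true := checkAlt_cut chkD3_72 chkD3_73

theorem chkD3_75 : checkAlt 2 (envAlts 7 eEnvD3 [13271, 9953, 6635]) (.leaf 1)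
    [⟨11, 12, 64⟩, ⟨3, 4, 8⟩] = true := leavesEnvD32.2.1

theorem chkD3_76 : checkAlt 2 (envAlts 7 eEnvD3 [13271, 9953, 6635]) (.cut 0 (.cut 1 (.cut 0 (.leaf 2) (.leaf 1)) (.leaf 1)) (.leaf 1))
    [⟨5, 6, 32⟩, ⟨3, 4, 8⟩] = true := checkAlt_cut chkD3_74 chkD3_75

theorem chkD3_77 : checkAlt 2 (envAlts 7 eEnvD3 [13271, 9953, 6635]) (.cut 1 (.cut 0 (.cut 1 (.leaf 0) (.leaf 4)) (.cut 1 (.leaf 0) (.leaf 2))) (.cut 0 (.cut 1 (.cut 0 (.leaf 2) (.leaf 1)) (.leaf 1)) (.leaf 1)))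
    [⟨5, 6, 32⟩, ⟨1, 2, 4⟩] = true := checkAlt_cut chkD3_71 chkD3_76

theorem chkD3_78 : checkAlt 2 (envAlts 7 eEnvD3 [13271, 9953, 6635]) (.cut 0 (.cut 1 (.leaf 0) (.cut 0 (.leaf 0) (.cut 1 (.cut 0 (.leaf 0) (.leaf 4)) (.cut 0 (.cut 1 (.leaf 0) (.leaf 3)) (.leaf 2))))) (.cut 1 (.cut 0 (.cut 1 (.leaf 0) (.leaf 4)) (.cut 1 (.leaf 0) (.leaf 2))) (.cut 0 (.cut 1 (.cut 0 (.leaf 2) (.leaf 1)) (.leaf 1)) (.leaf 1))))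
    [⟨2, 3, 16⟩, ⟨1, 2, 4⟩] = true := checkAlt_cut chkD3_68 chkD3_77

theorem chkD3_79 : checkAlt 2 (envAlts 7 eEnvD3 [13271, 9953, 6635]) (.cut 1 (.leaf 0) (.cut 0 (.cut 1 (.leaf 0) (.cut 0 (.leaf 0) (.cut 1 (.cut 0 (.leaf 0) (.leaf 4)) (.cut 0 (.cut 1 (.leaf 0) (.leaf 3)) (.leaf 2))))) (.cut 1 (.cut 0 (.cut 1 (.leaf 0) (.leaf 4)) (.cut 1 (.leaf 0) (.leaf 2))) (.cut 0 (.cut 1 (.cut 0 (.leaf 2) (.leaf 1)) (.leaf 1)) (.leaf 1)))))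
    [⟨2, 3, 16⟩, ⟨0, 1, 2⟩] = true := checkAlt_cut chkD3_59 chkD3_78

theorem chkD3_80 : checkAlt 2 (envAlts 7 eEnvD3 [13271, 9953, 6635]) (.leaf 0)
    [⟨6, 7, 32⟩, ⟨0, 1, 4⟩] = true := leavesEnvD32.2.2.1

theorem chkD3_81 : checkAlt 2 (envAlts 7 eEnvD3 [13271, 9953, 6635]) (.cut 1 (.leaf 0) (.leaf 2))
    [⟨7, 8, 32⟩, ⟨0, 1, 4⟩] = true := leavesEnvD32.2.2.2.1

theorem chkD3_82 : checkAlt 2 (envAlts 7 eEnvD3 [13271, 9953, 6635]) (.cut 0 (.leaf 0) (.cut 1 (.leaf 0) (.leaf 2)))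
    [⟨3, 4, 16⟩, ⟨0, 1, 4⟩] = true := checkAlt_cut chkD3_80 chkD3_81

theorem chkD3_83 : checkAlt 2 (envAlts 7 eEnvD3 [13271, 9953, 6635]) (.cut 1 (.leaf 2) (.leaf 1))
    [⟨12, 13, 64⟩, ⟨2, 3, 8⟩] = true := leavesEnvD32.2.2.2.2.1

theorem chkD3_84 : checkAlt 2 (envAlts 7 eEnvD3 [13271, 9953, 6635]) (.leaf 1)
    [⟨13, 14, 64⟩, ⟨2, 3, 8⟩] = true := leavesEnvD32.2.2.2.2.2.1

theorem chkD3_85 : checkAlt 2 (envAlts 7 eEnvD3 [13271, 9953, 6635]) (.cut 0 (.cut 1 (.leaf 2) (.leaf 1)) (.leaf 1))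
    [⟨6, 7, 32⟩, ⟨2, 3, 8⟩] = true := checkAlt_cut chkD3_83 chkD3_84

theorem chkD3_86 : checkAlt 2 (envAlts 7 eEnvD3 [13271, 9953, 6635]) (.leaf 1)
    [⟨6, 7, 32⟩, ⟨3, 4, 8⟩] = true := leavesEnvD32.2.2.2.2.2.2.1

theorem chkD3_87 : checkAlt 2 (envAlts 7 eEnvD3 [13271, 9953, 6635]) (.cut 1 (.cut 0 (.cut 1 (.leaf 2) (.leaf 1)) (.leaf 1)) (.leaf 1))
    [⟨6, 7, 32⟩, ⟨1, 2, 4⟩] = true := checkAlt_cut chkD3_85 chkD3_86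

theorem chkD3_88 : checkAlt 2 (envAlts 7 eEnvD3 [13271, 9953, 6635]) (.leaf 1)
    [⟨7, 8, 32⟩, ⟨1, 2, 4⟩] = true := leavesEnvD32.2.2.2.2.2.2.2.1

theorem chkD3_89 : checkAlt 2 (envAlts 7 eEnvD3 [13271, 9953, 6635]) (.cut 0 (.cut 1 (.cut 0 (.cut 1 (.leaf 2) (.leaf 1)) (.leaf 1)) (.leaf 1)) (.leaf 1))
    [⟨3, 4, 16⟩, ⟨1, 2, 4⟩] = true := checkAlt_cut chkD3_87 chkD3_88

theorem chkD3_90 : checkAlt 2 (envAlts 7 eEnvD3 [13271, 9953, 6635]) (.cut 1 (.cut 0 (.leaf 0) (.cut 1 (.leaf 0) (.leaf 2))) (.cut 0 (.cut 1 (.cut 0 (.cut 1 (.leaf 2) (.leaf 1)) (.leaf 1)) (.leaf 1)) (.leaf 1)))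
    [⟨3, 4, 16⟩, ⟨0, 1, 2⟩] = true := checkAlt_cut chkD3_82 chkD3_89

theorem chkD3_91 : checkAlt 2 (envAlts 7 eEnvD3 [13271, 9953, 6635]) (.cut 0 (.cut 1 (.leaf 0) (.cut 0 (.cut 1 (.leaf 0) (.cut 0 (.leaf 0) (.cut 1 (.cut 0 (.leaf 0) (.leaf 4)) (.cut 0 (.cut 1 (.leaf 0) (.leaf 3)) (.leaf 2))))) (.cut 1 (.cut 0 (.cut 1 (.leaf 0) (.leaf 4)) (.cut 1 (.leaf 0) (.leaf 2))) (.cut 0 (.cut 1 (.cut 0 (.leaf 2) (.leaf 1)) (.leaf 1)) (.leaf 1))))) (.cut 1 (.cut 0 (.leaf 0) (.cut 1 (.leaf 0) (.leaf 2))) (.cut 0 (.cut 1 (.cut 0 (.cut 1 (.leaf 2) (.leaf 1)) (.leaf 1)) (.leaf 1)) (.leaf 1))))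
    [⟨1, 2, 8⟩, ⟨0, 1, 2⟩] = true := checkAlt_cut chkD3_79 chkD3_90

theorem chkD3_92 : checkAlt 2 (envAlts 7 eEnvD3 [13271, 9953, 6635]) (.leaf 0)
    [⟨16, 17, 128⟩, ⟨8, 9, 16⟩] = true := leavesEnvD32.2.2.2.2.2.2.2.2.1

theorem chkD3_93 : checkAlt 2 (envAlts 7 eEnvD3 [13271, 9953, 6635]) (.leaf 0)
    [⟨17, 18, 128⟩, ⟨16, 17, 32⟩] = true := leavesEnvD32.2.2.2.2.2.2.2.2.2.1

theorem chkD3_94 : checkAlt 2 (envAlts 7 eEnvD3 [13271, 9953, 6635]) (.cut 0 (.leaf 0) (.leaf 2))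
    [⟨17, 18, 128⟩, ⟨17, 18, 32⟩] = true := leavesEnvD32.2.2.2.2.2.2.2.2.2.2.1

theorem chkD3_95 : checkAlt 2 (envAlts 7 eEnvD3 [13271, 9953, 6635]) (.cut 1 (.leaf 0) (.cut 0 (.leaf 0) (.leaf 2)))
    [⟨17, 18, 128⟩, ⟨8, 9, 16⟩] = true := checkAlt_cut chkD3_93 chkD3_94

theorem chkD3_96 : checkAlt 2 (envAlts 7 eEnvD3 [13271, 9953, 6635]) (.cut 0 (.leaf 0) (.cut 1 (.leaf 0) (.cut 0 (.leaf 0) (.leaf 2))))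
    [⟨8, 9, 64⟩, ⟨8, 9, 16⟩] = true := checkAlt_cut chkD3_92 chkD3_95

theorem chkD3_97 : checkAlt 2 (envAlts 7 eEnvD3 [13271, 9953, 6635]) (.leaf 0)
    [⟨16, 17, 128⟩, ⟨18, 19, 32⟩] = true := leavesEnvD32.2.2.2.2.2.2.2.2.2.2.2.1

theorem chkD3_98 : checkAlt 2 (envAlts 7 eEnvD3 [13271, 9953, 6635]) (.cut 0 (.leaf 0) (.leaf 3))
    [⟨16, 17, 128⟩, ⟨19, 20, 32⟩] = true := leavesEnvD32.2.2.2.2.2.2.2.2.2.2.2.2.1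

theorem chkD3_99 : checkAlt 2 (envAlts 7 eEnvD3 [13271, 9953, 6635]) (.cut 1 (.leaf 0) (.cut 0 (.leaf 0) (.leaf 3)))
    [⟨16, 17, 128⟩, ⟨9, 10, 16⟩] = true := checkAlt_cut chkD3_97 chkD3_98

theorem chkD3_100 : checkAlt 2 (envAlts 7 eEnvD3 [13271, 9953, 6635]) (.cut 0 (.leaf 3) (.leaf 1))
    [⟨17, 18, 128⟩, ⟨18, 19, 32⟩] = true := leavesEnvD32.2.2.2.2.2.2.2.2.2.2.2.2.2.1

theorem chkD3_101 : checkAlt 2 (envAlts 7 eEnvD3 [13271, 9953, 6635]) (.leaf 1)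
    [⟨17, 18, 128⟩, ⟨19, 20, 32⟩] = true := leavesEnvD32.2.2.2.2.2.2.2.2.2.2.2.2.2.2.1

theorem chkD3_102 : checkAlt 2 (envAlts 7 eEnvD3 [13271, 9953, 6635]) (.cut 1 (.cut 0 (.leaf 3) (.leaf 1)) (.leaf 1))
    [⟨17, 18, 128⟩, ⟨9, 10, 16⟩] = true := checkAlt_cut chkD3_100 chkD3_101

theorem chkD3_103 : checkAlt 2 (envAlts 7 eEnvD3 [13271, 9953, 6635]) (.cut 0 (.cut 1 (.leaf 0) (.cut 0 (.leaf 0) (.leaf 3))) (.cut 1 (.cut 0 (.leaf 3) (.leaf 1)) (.leaf 1)))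
    [⟨8, 9, 64⟩, ⟨9, 10, 16⟩] = true := checkAlt_cut chkD3_99 chkD3_102

theorem chkD3_104 : checkAlt 2 (envAlts 7 eEnvD3 [13271, 9953, 6635]) (.cut 1 (.cut 0 (.leaf 0) (.cut 1 (.leaf 0) (.cut 0 (.leaf 0) (.leaf 2)))) (.cut 0 (.cut 1 (.leaf 0) (.cut 0 (.leaf 0) (.leaf 3))) (.cut 1 (.cut 0 (.leaf 3) (.leaf 1)) (.leaf 1))))
    [⟨8, 9, 64⟩, ⟨4, 5, 8⟩] = true := checkAlt_cut chkD3_96 chkD3_103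

theorem chkD3_105 : checkAlt 2 (envAlts 7 eEnvD3 [13271, 9953, 6635]) (.cut 1 (.leaf 2) (.leaf 1))
    [⟨18, 19, 128⟩, ⟨8, 9, 16⟩] = true := leavesEnvD32.2.2.2.2.2.2.2.2.2.2.2.2.2.2.2.1

theorem chkD3_106 : checkAlt 2 (envAlts 7 eEnvD3 [13271, 9953, 6635]) (.leaf 1)
    [⟨19, 20, 128⟩, ⟨8, 9, 16⟩] = true := leavesEnvD32.2.2.2.2.2.2.2.2.2.2.2.2.2.2.2.2.1

theorem chkD3_107 : checkAlt 2 (envAlts 7 eEnvD3 [13271, 9953, 6635]) (.cut 0 (.cut 1 (.leaf 2) (.leaf 1)) (.leaf 1))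
    [⟨9, 10, 64⟩, ⟨8, 9, 16⟩] = true := checkAlt_cut chkD3_105 chkD3_106

theorem chkD3_108 : checkAlt 2 (envAlts 7 eEnvD3 [13271, 9953, 6635]) (.leaf 1)
    [⟨9, 10, 64⟩, ⟨9, 10, 16⟩] = true := leavesEnvD32.2.2.2.2.2.2.2.2.2.2.2.2.2.2.2.2.2.1

theorem chkD3_109 : checkAlt 2 (envAlts 7 eEnvD3 [13271, 9953, 6635]) (.cut 1 (.cut 0 (.cut 1 (.leaf 2) (.leaf 1)) (.leaf 1)) (.leaf 1))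
    [⟨9, 10, 64⟩, ⟨4, 5, 8⟩] = true := checkAlt_cut chkD3_107 chkD3_108

theorem chkD3_110 : checkAlt 2 (envAlts 7 eEnvD3 [13271, 9953, 6635]) (.cut 0 (.cut 1 (.cut 0 (.leaf 0) (.cut 1 (.leaf 0) (.cut 0 (.leaf 0) (.leaf 2)))) (.cut 0 (.cut 1 (.leaf 0) (.cut 0 (.leaf 0) (.leaf 3))) (.cut 1 (.cut 0 (.leaf 3) (.leaf 1)) (.leaf 1)))) (.cut 1 (.cut 0 (.cut 1 (.leaf 2) (.leaf 1)) (.leaf 1)) (.leaf 1)))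
    [⟨4, 5, 32⟩, ⟨4, 5, 8⟩] = true := checkAlt_cut chkD3_104 chkD3_109

theorem chkD3_111 : checkAlt 2 (envAlts 7 eEnvD3 [13271, 9953, 6635]) (.cut 0 (.leaf 3) (.leaf 2))
    [⟨16, 17, 128⟩, ⟨20, 21, 32⟩] = true := leavesEnvD32.2.2.2.2.2.2.2.2.2.2.2.2.2.2.2.2.2.2

theorem chkD3_112 : checkAlt 2 (envAlts 7 eEnvD3 [13271, 9953, 6635]) (.cut 0 (.leaf 2) (.leaf 1))
    [⟨16, 17, 128⟩, ⟨21, 22, 32⟩] = true := leavesEnvD33.1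

theorem chkD3_113 : checkAlt 2 (envAlts 7 eEnvD3 [13271, 9953, 6635]) (.cut 1 (.cut 0 (.leaf 3) (.leaf 2)) (.cut 0 (.leaf 2) (.leaf 1)))
    [⟨16, 17, 128⟩, ⟨10, 11, 16⟩] = true := checkAlt_cut chkD3_111 chkD3_112

theorem chkD3_114 : checkAlt 2 (envAlts 7 eEnvD3 [13271, 9953, 6635]) (.leaf 1)
    [⟨17, 18, 128⟩, ⟨10, 11, 16⟩] = true := leavesEnvD33.2.1

theorem chkD3_115 : checkAlt 2 (envAlts 7 eEnvD3 [13271, 9953, 6635]) (.cut 0 (.cut 1 (.cut 0 (.leaf 3) (.leaf 2)) (.cut 0 (.leaf 2) (.leaf 1))) (.leaf 1))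
    [⟨8, 9, 64⟩, ⟨10, 11, 16⟩] = true := checkAlt_cut chkD3_113 chkD3_114

theorem chkD3_116 : checkAlt 2 (envAlts 7 eEnvD3 [13271, 9953, 6635]) (.leaf 1)
    [⟨8, 9, 64⟩, ⟨11, 12, 16⟩] = true := leavesEnvD33.2.2.1

theorem chkD3_117 : checkAlt 2 (envAlts 7 eEnvD3 [13271, 9953, 6635]) (.cut 1 (.cut 0 (.cut 1 (.cut 0 (.leaf 3) (.leaf 2)) (.cut 0 (.leaf 2) (.leaf 1))) (.leaf 1)) (.leaf 1))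
    [⟨8, 9, 64⟩, ⟨5, 6, 8⟩] = true := checkAlt_cut chkD3_115 chkD3_116

theorem chkD3_118 : checkAlt 2 (envAlts 7 eEnvD3 [13271, 9953, 6635]) (.leaf 1)
    [⟨9, 10, 64⟩, ⟨5, 6, 8⟩] = true := leavesEnvD33.2.2.2.1

theorem chkD3_119 : checkAlt 2 (envAlts 7 eEnvD3 [13271, 9953, 6635]) (.cut 0 (.cut 1 (.cut 0 (.cut 1 (.cut 0 (.leaf 3) (.leaf 2)) (.cut 0 (.leaf 2) (.leaf 1))) (.leaf 1)) (.leaf 1)) (.leaf 1))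
    [⟨4, 5, 32⟩, ⟨5, 6, 8⟩] = true := checkAlt_cut chkD3_117 chkD3_118

theorem chkD3_120 : checkAlt 2 (envAlts 7 eEnvD3 [13271, 9953, 6635]) (.cut 1 (.cut 0 (.cut 1 (.cut 0 (.leaf 0) (.cut 1 (.leaf 0) (.cut 0 (.leaf 0) (.leaf 2)))) (.cut 0 (.cut 1 (.leaf 0) (.cut 0 (.leaf 0) (.leaf 3))) (.cut 1 (.cut 0 (.leaf 3) (.leaf 1)) (.leaf 1)))) (.cut 1 (.cut 0 (.cut 1 (.leaf 2) (.leaf 1)) (.leaf 1)) (.leaf 1))) (.cut 0 (.cut 1 (.cut 0 (.cut 1 (.cut 0 (.leaf 3) (.leaf 2)) (.cut 0 (.leaf 2) (.leaf 1))) (.leaf 1)) (.leaf 1)) (.leaf 1)))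
    [⟨4, 5, 32⟩, ⟨2, 3, 4⟩] = true := checkAlt_cut chkD3_110 chkD3_119

theorem chkD3_121 : checkAlt 2 (envAlts 7 eEnvD3 [13271, 9953, 6635]) (.leaf 1)
    [⟨5, 6, 32⟩, ⟨2, 3, 4⟩] = true := leavesEnvD33.2.2.2.2.1

theorem chkD3_122 : checkAlt 2 (envAlts 7 eEnvD3 [13271, 9953, 6635]) (.cut 0 (.cut 1 (.cut 0 (.cut 1 (.cut 0 (.leaf 0) (.cut 1 (.leaf 0) (.cut 0 (.leaf 0) (.leaf 2)))) (.cut 0 (.cut 1 (.leaf 0) (.cut 0 (.leaf 0) (.leaf 3))) (.cut 1 (.cut 0 (.leaf 3) (.leaf 1)) (.leaf 1)))) (.cut 1 (.cut 0 (.cut 1 (.leaf 2) (.leaf 1)) (.leaf 1)) (.leaf 1))) (.cut 0 (.cut 1 (.cut 0 (.cut 1 (.cut 0 (.leaf 3) (.leaf 2)) (.cut 0 (.leaf 2) (.leaf 1))) (.leaf 1)) (.leaf 1)) (.leaf 1))) (.leaf 1))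
    [⟨2, 3, 16⟩, ⟨2, 3, 4⟩] = true := checkAlt_cut chkD3_120 chkD3_121

theorem chkD3_123 : checkAlt 2 (envAlts 7 eEnvD3 [13271, 9953, 6635]) (.leaf 1)
    [⟨2, 3, 16⟩, ⟨3, 4, 4⟩] = true := leavesEnvD33.2.2.2.2.2.1

theorem chkD3_124 : checkAlt 2 (envAlts 7 eEnvD3 [13271, 9953, 6635]) (.cut 1 (.cut 0 (.cut 1 (.cut 0 (.cut 1 (.cut 0 (.leaf 0) (.cut 1 (.leaf 0) (.cut 0 (.leaf 0) (.leaf 2)))) (.cut 0 (.cut 1 (.leaf 0) (.cut 0 (.leaf 0) (.leaf 3))) (.cut 1 (.cut 0 (.leaf 3) (.leaf 1)) (.leaf 1)))) (.cut 1 (.cut 0 (.cut 1 (.leaf 2) (.leaf 1)) (.leaf 1)) (.leaf 1))) (.cut 0 (.cut 1 (.cut 0 (.cut 1 (.cut 0 (.leaf 3) (.leaf 2)) (.cut 0 (.leaf 2) (.leaf 1))) (.leaf 1)) (.leaf 1)) (.leaf 1))) (.leaf 1)) (.leaf 1))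
    [⟨2, 3, 16⟩, ⟨1, 2, 2⟩] = true := checkAlt_cut chkD3_122 chkD3_123

theorem chkD3_125 : checkAlt 2 (envAlts 7 eEnvD3 [13271, 9953, 6635]) (.leaf 1)
    [⟨3, 4, 16⟩, ⟨1, 2, 2⟩] = true := leavesEnvD33.2.2.2.2.2.2.1

theorem chkD3_126 : checkAlt 2 (envAlts 7 eEnvD3 [13271, 9953, 6635]) (.cut 0 (.cut 1 (.cut 0 (.cut 1 (.cut 0 (.cut 1 (.cut 0 (.leaf 0) (.cut 1 (.leaf 0) (.cut 0 (.leaf 0) (.leaf 2)))) (.cut 0 (.cut 1 (.leaf 0) (.cut 0 (.leaf 0) (.leaf 3))) (.cut 1 (.cut 0 (.leaf 3) (.leaf 1)) (.leaf 1)))) (.cut 1 (.cut 0 (.cut 1 (.leaf 2) (.leaf 1)) (.leaf 1)) (.leaf 1))) (.cut 0 (.cut 1 (.cut 0 (.cut 1 (.cut 0 (.leaf 3) (.leaf 2)) (.cut 0 (.leaf 2) (.leaf 1))) (.leaf 1)) (.leaf 1)) (.leaf 1))) (.leaf 1)) (.leaf 1)) (.leaf 1))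
    [⟨1, 2, 8⟩, ⟨1, 2, 2⟩] = true := checkAlt_cut chkD3_124 chkD3_125

theorem chkD3_127 : checkAlt 2 (envAlts 7 eEnvD3 [13271, 9953, 6635]) (.cut 1 (.cut 0 (.cut 1 (.leaf 0) (.cut 0 (.cut 1 (.leaf 0) (.cut 0 (.leaf 0) (.cut 1 (.cut 0 (.leaf 0) (.leaf 4)) (.cut 0 (.cut 1 (.leaf 0) (.leaf 3)) (.leaf 2))))) (.cut 1 (.cut 0 (.cut 1 (.leaf 0) (.leaf 4)) (.cut 1 (.leaf 0) (.leaf 2))) (.cut 0 (.cut 1 (.cut 0 (.leaf 2) (.leaf 1)) (.leaf 1)) (.leaf 1))))) (.cut 1 (.cut 0 (.leaf 0) (.cut 1 (.leaf 0) (.leaf 2))) (.cut 0 (.cut 1 (.cut 0 (.cut 1 (.leaf 2) (.leaf 1)) (.leaf 1)) (.leaf 1)) (.leaf 1)))) (.cut 0 (.cut 1 (.cut 0 (.cut 1 (.cut 0 (.cut 1 (.cut 0 (.leaf 0) (.cut 1 (.leaf 0) (.cut 0 (.leaf 0) (.leaf 2)))) (.cut 0 (.cut 1 (.leaf 0) (.cut 0 (.leaf 0) (.leaf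 3))) (.cut 1 (.cut 0 (.leaf 3) (.leaf 1)) (.leaf 1)))) (.cut 1 (.cut 0 (.cut 1 (.leaf 2) (.leaf 1)) (.leaf 1)) (.leaf 1))) (.cut 0 (.cut 1 (.cut 0 (.cut 1 (.cut 0 (.leaf 3) (.leaf 2)) (.cut 0 (.leaf 2) (.leaf 1))) (.leaf 1)) (.leaf 1)) (.leaf 1))) (.leaf 1)) (.leaf 1)) (.leaf 1)))
    [⟨1, 2, 8⟩, ⟨0, 1, 1⟩] = true := checkAlt_cut chkD3_91 chkD3_126

theorem chkD3_128 : checkAlt 2 (envAlts 7 eEnvD3 [13271, 9953, 6635]) (.cut 0 (.cut 1 (.leaf 0) (.cut 0 (.leaf 0) (.cut 1 (.cut 0 (.leaf 0) (.cut 1 (.leaf 0) (.cut 0 (.leaf 0) (.cut 1 (.cut 0 (.leaf 0) (.cut 1 (.leaf 0) (.leaf 4))) (.cut 0 (.leaf 0) (.cut 1 (.cut 0 (.leaf 0) (.leaf 3)) (.cut 0 (.leaf 3) (.leaf 2)))))))) (.cut 0 (.leaf 0) (.cut 1 (.cut 0 (.leaf 0) (.cut 1 (.cut 0 (.cut 1 (.leaf 0) (.cut 0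 (.leaf 0) (.leaf 3))) (.cut 1 (.cut 0 (.cut 1 (.leaf 3) (.leaf 2)) (.leaf 1)) (.leaf 1))) (.cut 0 (.cut 1 (.cut 0 (.leaf 0) (.leaf 2)) (.cut 0 (.leaf 3) (.leaf 1))) (.leaf 1)))) (.cut 0 (.cut 1 (.cut 0 (.leaf 0) (.cut 1 (.leaf 0) (.cut 0 (.leaf 0) (.leaf 3)))) (.cut 0 (.leaf 0) (.cut 1 (.cut 0 (.leaf 0) (.leaf 2)) (.cut 0 (.leaf 3) (.leaf 1))))) (.cut 1 (.cut 0 (.cut 1 (.cut 0 (.leaf 2) (.leaf 1)) (.leaf 1)) (.leaf 1)) (.leaf 1)))))))) (.cut 1 (.cut 0 (.cut 1 (.leaf 0) (.cut 0 (.cut 1 (.leaf 0) (.cut 0 (.leaf 0) (.cut 1 (.cut 0 (.leaf 0) (.leaf 4)) (.cut 0 (.cut 1 (.leaf 0) (.leaf 3)) (.leaf 2))))) (.cut 1 (.cut 0 (.cut 1 (.leaf 0) (.leaf 4)) (.cut 1 (.leaf 0) (.leaf 2))) (.cut 0 (.cut 1 (.cut 0 (.leaf 2) (.leaf 1)) (.leaf 1)) (.leaf 1))))) (.cut 1 (.cut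 0 (.leaf 0) (.cut 1 (.leaf 0) (.leaf 2))) (.cut 0 (.cut 1 (.cut 0 (.cut 1 (.leaf 2) (.leaf 1)) (.leaf 1)) (.leaf 1)) (.leaf 1)))) (.cut 0 (.cut 1 (.cut 0 (.cut 1 (.cut 0 (.cut 1 (.cut 0 (.leaf 0) (.cut 1 (.leaf 0) (.cut 0 (.leaf 0) (.leaf 2)))) (.cut 0 (.cut 1 (.leaf 0) (.cut 0 (.leaf 0) (.leaf 3))) (.cut 1 (.cut 0 (.leaf 3) (.leaf 1)) (.leaf 1)))) (.cut 1 (.cut 0 (.cut 1 (.leaf 2) (.leaf 1)) (.leaf 1)) (.leaf 1))) (.cut 0 (.cut 1 (.cut 0 (.cut 1 (.cut 0 (.leaf 3) (.leaf 2)) (.cut 0 (.leaf 2) (.leaf 1))) (.leaf 1)) (.leaf 1)) (.leaf 1))) (.leaf 1)) (.leaf 1)) (.leaf 1))))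
    [⟨0, 1, 4⟩, ⟨0, 1, 1⟩] = true := checkAlt_cut chkD3_58 chkD3_127

theorem chkD3_129 : checkAlt 2 (envAlts 7 eEnvD3 [13271, 9953, 6635]) (.cut 1 (.leaf 0) (.leaf 1))
    [⟨8, 9, 32⟩, ⟨0, 1, 4⟩] = true := leavesEnvD33.2.2.2.2.2.2.2.1

theorem chkD3_130 : checkAlt 2 (envAlts 7 eEnvD3 [13271, 9953, 6635]) (.cut 1 (.leaf 0) (.leaf 1))
    [⟨9, 10, 32⟩, ⟨0, 1, 4⟩] = true := leavesEnvD33.2.2.2.2.2.2.2.2.1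

theorem chkD3_131 : checkAlt 2 (envAlts 7 eEnvD3 [13271, 9953, 6635]) (.cut 0 (.cut 1 (.leaf 0) (.leaf 1)) (.cut 1 (.leaf 0) (.leaf 1)))
    [⟨4, 5, 16⟩, ⟨0, 1, 4⟩] = true := checkAlt_cut chkD3_129 chkD3_130

theorem chkD3_132 : checkAlt 2 (envAlts 7 eEnvD3 [13271, 9953, 6635]) (.leaf 1)
    [⟨4, 5, 16⟩, ⟨1, 2, 4⟩] = true := leavesEnvD33.2.2.2.2.2.2.2.2.2.1

theorem chkD3_133 : checkAlt 2 (envAlts 7 eEnvD3 [13271, 9953, 6635]) (.cut 1 (.cut 0 (.cut 1 (.leaf 0) (.leaf 1)) (.cut 1 (.leaf 0) (.leaf 1))) (.leaf 1))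
    [⟨4, 5, 16⟩, ⟨0, 1, 2⟩] = true := checkAlt_cut chkD3_131 chkD3_132

theorem chkD3_134 : checkAlt 2 (envAlts 7 eEnvD3 [13271, 9953, 6635]) (.cut 1 (.leaf 0) (.leaf 1))
    [⟨10, 11, 32⟩, ⟨0, 1, 4⟩] = true := leavesEnvD33.2.2.2.2.2.2.2.2.2.2.1

theorem chkD3_135 : checkAlt 2 (envAlts 7 eEnvD3 [13271, 9953, 6635]) (.cut 1 (.leaf 0) (.leaf 1))
    [⟨11, 12, 32⟩, ⟨0, 1, 4⟩] = true := leavesEnvD33.2.2.2.2.2.2.2.2.2.2.2.1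

theorem chkD3_136 : checkAlt 2 (envAlts 7 eEnvD3 [13271, 9953, 6635]) (.cut 0 (.cut 1 (.leaf 0) (.leaf 1)) (.cut 1 (.leaf 0) (.leaf 1)))
    [⟨5, 6, 16⟩, ⟨0, 1, 4⟩] = true := checkAlt_cut chkD3_134 chkD3_135

theorem chkD3_137 : checkAlt 2 (envAlts 7 eEnvD3 [13271, 9953, 6635]) (.leaf 1)
    [⟨5, 6, 16⟩, ⟨1, 2, 4⟩] = true := leavesEnvD33.2.2.2.2.2.2.2.2.2.2.2.2.1

theorem chkD3_138 : checkAlt 2 (envAlts 7 eEnvD3 [13271, 9953, 6635]) (.cut 1 (.cut 0 (.cut 1 (.leaf 0) (.leaf 1)) (.cut 1 (.leaf 0) (.leaf 1))) (.leaf 1))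
    [⟨5, 6, 16⟩, ⟨0, 1, 2⟩] = true := checkAlt_cut chkD3_136 chkD3_137

theorem chkD3_139 : checkAlt 2 (envAlts 7 eEnvD3 [13271, 9953, 6635]) (.cut 0 (.cut 1 (.cut 0 (.cut 1 (.leaf 0) (.leaf 1)) (.cut 1 (.leaf 0) (.leaf 1))) (.leaf 1)) (.cut 1 (.cut 0 (.cut 1 (.leaf 0) (.leaf 1)) (.cut 1 (.leaf 0) (.leaf 1))) (.leaf 1)))
    [⟨2, 3, 8⟩, ⟨0, 1, 2⟩] = true := checkAlt_cut chkD3_133 chkD3_138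

theorem chkD3_140 : checkAlt 2 (envAlts 7 eEnvD3 [13271, 9953, 6635]) (.leaf 1)
    [⟨2, 3, 8⟩, ⟨1, 2, 2⟩] = true := leavesEnvD33.2.2.2.2.2.2.2.2.2.2.2.2.2.1

theorem chkD3_141 : checkAlt 2 (envAlts 7 eEnvD3 [13271, 9953, 6635]) (.cut 1 (.cut 0 (.cut 1 (.cut 0 (.cut 1 (.leaf 0) (.leaf 1)) (.cut 1 (.leaf 0) (.leaf 1))) (.leaf 1)) (.cut 1 (.cut 0 (.cut 1 (.leaf 0) (.leaf 1)) (.cut 1 (.leaf 0) (.leaf 1))) (.leaf 1))) (.leaf 1))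
    [⟨2, 3, 8⟩, ⟨0, 1, 1⟩] = true := checkAlt_cut chkD3_139 chkD3_140

theorem chkD3_142 : checkAlt 2 (envAlts 7 eEnvD3 [13271, 9953, 6635]) (.cut 1 (.leaf 0) (.leaf 1))
    [⟨12, 13, 32⟩, ⟨0, 1, 4⟩] = true := leavesEnvD33.2.2.2.2.2.2.2.2.2.2.2.2.2.2.1

theorem chkD3_143 : checkAlt 2 (envAlts 7 eEnvD3 [13271, 9953, 6635]) (.cut 1 (.leaf 0) (.leaf 1))
    [⟨13, 14, 32⟩, ⟨0, 1, 4⟩] = true := leavesEnvD33.2.2.2.2.2.2.2.2.2.2.2.2.2.2.2.1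

theorem chkD3_144 : checkAlt 2 (envAlts 7 eEnvD3 [13271, 9953, 6635]) (.cut 0 (.cut 1 (.leaf 0) (.leaf 1)) (.cut 1 (.leaf 0) (.leaf 1)))
    [⟨6, 7, 16⟩, ⟨0, 1, 4⟩] = true := checkAlt_cut chkD3_142 chkD3_143

theorem chkD3_145 : checkAlt 2 (envAlts 7 eEnvD3 [13271, 9953, 6635]) (.leaf 1)
    [⟨6, 7, 16⟩, ⟨1, 2, 4⟩] = true := leavesEnvD33.2.2.2.2.2.2.2.2.2.2.2.2.2.2.2.2.1

theorem chkD3_146 : checkAlt 2 (envAlts 7 eEnvD3 [13271, 9953, 6635]) (.cut 1 (.cut 0 (.cut 1 (.leaf 0) (.leaf 1)) (.cut 1 (.leaf 0) (.leaf 1))) (.leaf 1))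
    [⟨6, 7, 16⟩, ⟨0, 1, 2⟩] = true := checkAlt_cut chkD3_144 chkD3_145

theorem chkD3_147 : checkAlt 2 (envAlts 7 eEnvD3 [13271, 9953, 6635]) (.leaf 1)
    [⟨7, 8, 16⟩, ⟨0, 1, 2⟩] = true := leavesEnvD33.2.2.2.2.2.2.2.2.2.2.2.2.2.2.2.2.2.1

theorem chkD3_148 : checkAlt 2 (envAlts 7 eEnvD3 [13271, 9953, 6635]) (.cut 0 (.cut 1 (.cut 0 (.cut 1 (.leaf 0) (.leaf 1)) (.cut 1 (.leaf 0) (.leaf 1))) (.leaf 1)) (.leaf 1))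
    [⟨3, 4, 8⟩, ⟨0, 1, 2⟩] = true := checkAlt_cut chkD3_146 chkD3_147

theorem chkD3_149 : checkAlt 2 (envAlts 7 eEnvD3 [13271, 9953, 6635]) (.leaf 1)
    [⟨3, 4, 8⟩, ⟨1, 2, 2⟩] = true := leavesEnvD33.2.2.2.2.2.2.2.2.2.2.2.2.2.2.2.2.2.2.1

theorem chkD3_150 : checkAlt 2 (envAlts 7 eEnvD3 [13271, 9953, 6635]) (.cut 1 (.cut 0 (.cut 1 (.cut 0 (.cut 1 (.leaf 0) (.leaf 1)) (.cut 1 (.leaf 0) (.leaf 1))) (.leaf 1)) (.leaf 1)) (.leaf 1))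
    [⟨3, 4, 8⟩, ⟨0, 1, 1⟩] = true := checkAlt_cut chkD3_148 chkD3_149

theorem chkD3_151 : checkAlt 2 (envAlts 7 eEnvD3 [13271, 9953, 6635]) (.cut 0 (.cut 1 (.cut 0 (.cut 1 (.cut 0 (.cut 1 (.leaf 0) (.leaf 1)) (.cut 1 (.leaf 0) (.leaf 1))) (.leaf 1)) (.cut 1 (.cut 0 (.cut 1 (.leaf 0) (.leaf 1)) (.cut 1 (.leaf 0) (.leaf 1))) (.leaf 1))) (.leaf 1)) (.cut 1 (.cut 0 (.cut 1 (.cut 0 (.cut 1 (.leaf 0) (.leaf 1)) (.cut 1 (.leaf 0) (.leaf 1))) (.leaf 1)) (.leaf 1)) (.leaf 1)))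
    [⟨1, 2, 4⟩, ⟨0, 1, 1⟩] = true := checkAlt_cut chkD3_141 chkD3_150

theorem chkD3_152 : checkAlt 2 (envAlts 7 eEnvD3 [13271, 9953, 6635]) (.cut 0 (.cut 0 (.cut 1 (.leaf 0) (.cut 0 (.leaf 0) (.cut 1 (.cut 0 (.leaf 0) (.cut 1 (.leaf 0) (.cut 0 (.leaf 0) (.cut 1 (.cut 0 (.leaf 0) (.cut 1 (.leaf 0) (.leaf 4))) (.cut 0 (.leaf 0) (.cut 1 (.cut 0 (.leaf 0) (.leaf 3)) (.cut 0 (.leaf 3) (.leaf 2)))))))) (.cut 0 (.leaf 0) (.cut 1 (.cut 0 (.leaf 0) (.cut 1 (.cut 0 (.cut 1 (.leaf 0) (.cut 0 (.leaf 0) (.leaf 3))) (.cut 1 (.cut 0 (.cut 1 (.leaf 3) (.leaf 2)) (.leaf 1)) (.leaf 1))) (.cut 0 (.cut 1 (.cut 0 (.leaf 0) (.leaf 2)) (.cut 0 (.leaf 3) (.leaf 1))) (.leaf 1)))) (.cut 0 (.cut 1 (.cut 0 (.leaf 0) (.cut 1 (.leaf 0) (.cut 0 (.leaf 0) (.leaf 3)))) (.cut 0 (.leaf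 0) (.cut 1 (.cut 0 (.leaf 0) (.leaf 2)) (.cut 0 (.leaf 3) (.leaf 1))))) (.cut 1 (.cut 0 (.cut 1 (.cut 0 (.leaf 2) (.leaf 1)) (.leaf 1)) (.leaf 1)) (.leaf 1)))))))) (.cut 1 (.cut 0 (.cut 1 (.leaf 0) (.cut 0 (.cut 1 (.leaf 0) (.cut 0 (.leaf 0) (.cut 1 (.cut 0 (.leaf 0) (.leaf 4)) (.cut 0 (.cut 1 (.leaf 0) (.leaf 3)) (.leaf 2))))) (.cut 1 (.cut 0 (.cut 1 (.leaf 0) (.leaf 4)) (.cut 1 (.leaf 0) (.leaf 2))) (.cut 0 (.cut 1 (.cut 0 (.leaf 2) (.leaf 1)) (.leaf 1)) (.leaf 1))))) (.cut 1 (.cut 0 (.leaf 0) (.cut 1 (.leaf 0) (.leaf 2))) (.cut 0 (.cut 1 (.cut 0 (.cut 1 (.leaf 2) (.leaf 1)) (.leaf 1)) (.leaf 1)) (.leaf 1)))) (.cut 0 (.cut 1 (.cut 0 (.cut 1 (.cut 0 (.cut 1 (.cut 0 (.leaf 0) (.cut 1 (.leaf 0) (.cut 0 (.leaf 0) (.leaf 2)))) (.cut 0 (.cut 1 (.leaf 0)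 (.cut 0 (.leaf 0) (.leaf 3))) (.cut 1 (.cut 0 (.leaf 3) (.leaf 1)) (.leaf 1)))) (.cut 1 (.cut 0 (.cut 1 (.leaf 2) (.leaf 1)) (.leaf 1)) (.leaf 1))) (.cut 0 (.cut 1 (.cut 0 (.cut 1 (.cut 0 (.leaf 3) (.leaf 2)) (.cut 0 (.leaf 2) (.leaf 1))) (.leaf 1)) (.leaf 1)) (.leaf 1))) (.leaf 1)) (.leaf 1)) (.leaf 1)))) (.cut 0 (.cut 1 (.cut 0 (.cut 1 (.cut 0 (.cut 1 (.leaf 0) (.leaf 1)) (.cut 1 (.leaf 0) (.leaf 1))) (.leaf 1)) (.cut 1 (.cut 0 (.cut 1 (.leaf 0) (.leaf 1)) (.cut 1 (.leaf 0) (.leaf 1))) (.leaf 1))) (.leaf 1)) (.cut 1 (.cut 0 (.cut 1 (.cut 0 (.cut 1 (.leaf 0) (.leaf 1)) (.cut 1 (.leaf 0) (.leaf 1))) (.leaf 1)) (.leaf 1)) (.leaf 1))))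
    [⟨0, 1, 2⟩, ⟨0, 1, 1⟩] = true := checkAlt_cut chkD3_128 chkD3_151

theorem chkD3_153 : checkAlt 2 (envAlts 7 eEnvD3 [13271, 9953, 6635]) (.leaf 1)
    [⟨1, 2, 2⟩, ⟨0, 1, 1⟩] = true := leavesEnvD33.2.2.2.2.2.2.2.2.2.2.2.2.2.2.2.2.2.2.2

theorem chkD3_154 : checkAlt 2 (envAlts 7 eEnvD3 [13271, 9953, 6635]) (.cut 0 (.cut 0 (.cut 0 (.cut 1 (.leaf 0) (.cut 0 (.leaf 0) (.cut 1 (.cut 0 (.leaf 0) (.cut 1 (.leaf 0) (.cut 0 (.leaf 0) (.cut 1 (.cut 0 (.leaf 0) (.cut 1 (.leaf 0) (.leaf 4))) (.cut 0 (.leaf 0) (.cut 1 (.cut 0 (.leaf 0) (.leaf 3)) (.cut 0 (.leaf 3) (.leaf 2)))))))) (.cut 0 (.leaf 0) (.cut 1 (.cut 0 (.leaf 0) (.cut 1 (.cut 0 (.cut 1 (.leaf 0) (.cut 0 (.leaf 0) (.leaf 3))) (.cut 1 (.cut 0 (.cut 1 (.leaf 3) (.leaf 2)) (.leaf 1)) (.leaf 1))) (.cut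 0 (.cut 1 (.cut 0 (.leaf 0) (.leaf 2)) (.cut 0 (.leaf 3) (.leaf 1))) (.leaf 1)))) (.cut 0 (.cut 1 (.cut 0 (.leaf 0) (.cut 1 (.leaf 0) (.cut 0 (.leaf 0) (.leaf 3)))) (.cut 0 (.leaf 0) (.cut 1 (.cut 0 (.leaf 0) (.leaf 2)) (.cut 0 (.leaf 3) (.leaf 1))))) (.cut 1 (.cut 0 (.cut 1 (.cut 0 (.leaf 2) (.leaf 1)) (.leaf 1)) (.leaf 1)) (.leaf 1)))))))) (.cut 1 (.cut 0 (.cut 1 (.leaf 0) (.cut 0 (.cut 1 (.leaf 0) (.cut 0 (.leaf 0) (.cut 1 (.cut 0 (.leaf 0) (.leaf 4)) (.cut 0 (.cut 1 (.leaf 0) (.leaf 3)) (.leaf 2))))) (.cut 1 (.cut 0 (.cut 1 (.leaf 0) (.leaf 4)) (.cut 1 (.leaf 0) (.leaf 2))) (.cut 0 (.cut 1 (.cut 0 (.leaf 2) (.leaf 1)) (.leaf 1)) (.leaf 1))))) (.cut 1 (.cut 0 (.leaf 0) (.cut 1 (.leaf 0) (.leaf 2))) (.cut 0 (.cut 1 (.cut 0 (.cut 1 (.leaf 2) (.leaf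 1)) (.leaf 1)) (.leaf 1)) (.leaf 1)))) (.cut 0 (.cut 1 (.cut 0 (.cut 1 (.cut 0 (.cut 1 (.cut 0 (.leaf 0) (.cut 1 (.leaf 0) (.cut 0 (.leaf 0) (.leaf 2)))) (.cut 0 (.cut 1 (.leaf 0) (.cut 0 (.leaf 0) (.leaf 3))) (.cut 1 (.cut 0 (.leaf 3) (.leaf 1)) (.leaf 1)))) (.cut 1 (.cut 0 (.cut 1 (.leaf 2) (.leaf 1)) (.leaf 1)) (.leaf 1))) (.cut 0 (.cut 1 (.cut 0 (.cut 1 (.cut 0 (.leaf 3) (.leaf 2)) (.cut 0 (.leaf 2) (.leaf 1))) (.leaf 1)) (.leaf 1)) (.leaf 1))) (.leaf 1)) (.leaf 1)) (.leaf 1)))) (.cut 0 (.cut 1 (.cut 0 (.cut 1 (.cut 0 (.cut 1 (.leaf 0) (.leaf 1)) (.cut 1 (.leaf 0) (.leaf 1))) (.leaf 1)) (.cut 1 (.cut 0 (.cut 1 (.leaf 0) (.leaf 1)) (.cut 1 (.leaf 0) (.leaf 1))) (.leaf 1))) (.leaf 1)) (.cut 1 (.cut 0 (.cut 1 (.cut 0 (.cut 1 (.leaf 0) (.leaf 1)) (.cut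 1 (.leaf 0) (.leaf 1))) (.leaf 1)) (.leaf 1)) (.leaf 1)))) (.leaf 1))
    [⟨0, 1, 1⟩, ⟨0, 1, 1⟩] = true := checkAlt_cut chkD3_152 chkD3_153

theorem envD3_nonneg {p z : ℝ} (hp : 0 ≤ p) (hp1 : p ≤ 1) (hz : 0 ≤ z) (hz1 : z ≤ 1)
    (hY : 0 ≤ ysum (chart p z)) (hr : 3000 ≤ 1473 * ysum (chart p z)) :
    0 ≤ eEnvD3.eval (pt [p, z]) :=
  env_nonneg (by decide) chkD3_154 hp hp1 hz hz1 hY hr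

end Vale.Agent.P154.NegEnd
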