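import Vale.Agent.P154.NegEnd.EnvDefs

/-!
P154 NegEnd: certificate of envelope D4 (generated).
-/

namespace Vale.Agent.P154.NegEnd

open PolyCheck

theorem leavesEnvD40 :
    (checkAlt 2 (envAlts 7 eEnvD4 [331, 3317, 33177]) (.leaf 0) [⟨0, 1, 8⟩, ⟨0, 1, 2⟩] = true) ∧
    (checkAlt 2 (envAlts 7 eEnvD4 [331, 3317, 33177]) (.leaf 0) [⟨0, 1, 16⟩, ⟨1, 2, 2⟩] = true) ∧
    (checkAlt 2 (envAlts 7 eEnvD4 [331, 3317, 33177]) (.leaf 0) [⟨1, 2, 16⟩, ⟨2, 3, 4⟩] = true) := by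
  refine ⟨?_, ?_, ?_⟩ <;> decide +kernel

theorem leavesEnvD41 :
    (checkAlt 2 (envAlts 7 eEnvD4 [331, 3317, 33177]) (.leaf 0) [⟨2, 3, 32⟩, ⟨3, 4, 4⟩] = true) ∧
    (checkAlt 2 (envAlts 7 eEnvD4 [331, 3317, 33177]) (.leaf 0) [⟨3, 4, 32⟩, ⟨6, 7, 8⟩] = true) ∧
    (checkAlt 2 (envAlts 7 eEnvD4 [331, 3317, 33177]) (.cut 0 (.leaf 0) (.leaf 2)) [⟨3, 4, 32⟩, ⟨7, 8, 8⟩] = true) ∧
    (checkAlt 2 (envAlts 7 eEnvD4 [331, 3317, 33177]) (.leaf 0) [⟨1, 2, 8⟩, ⟨0, 1, 2⟩] = true) := by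
  refine ⟨?_, ?_, ?_, ?_⟩ <;> decide +kernel

theorem leavesEnvD42 :
    (checkAlt 2 (envAlts 7 eEnvD4 [331, 3317, 33177]) (.leaf 0) [⟨4, 5, 32⟩, ⟨4, 5, 8⟩] = true) ∧
    (checkAlt 2 (envAlts 7 eEnvD4 [331, 3317, 33177]) (.cut 1 (.leaf 0) (.leaf 1)) [⟨8, 9, 64⟩, ⟨5, 6, 8⟩] = true) ∧
    (checkAlt 2 (envAlts 7 eEnvD4 [331, 3317, 33177]) (.leaf 1) [⟨9, 10, 64⟩, ⟨5, 6, 8⟩] = true) ∧
    (checkAlt 2 (envAlts 7 eEnvD4 [331, 3317, 33177]) (.leaf 1) [⟨5, 6, 32⟩, ⟨2, 3, 4⟩] = true) := by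
  refine ⟨?_, ?_, ?_, ?_⟩ <;> decide +kernel

theorem leavesEnvD43 :
    (checkAlt 2 (envAlts 7 eEnvD4 [331, 3317, 33177]) (.leaf 1) [⟨2, 3, 16⟩, ⟨3, 4, 4⟩] = true) ∧
    (checkAlt 2 (envAlts 7 eEnvD4 [331, 3317, 33177]) (.leaf 1) [⟨3, 4, 16⟩, ⟨1, 2, 2⟩] = true) ∧
    (checkAlt 2 (envAlts 7 eEnvD4 [331, 3317, 33177]) (.leaf 0) [⟨1, 2, 4⟩, ⟨0, 1, 1⟩] = true) ∧
    (checkAlt 2 (envAlts 7 eEnvD4 [331, 3317, 33177]) (.leaf 0) [⟨1, 2, 2⟩, ⟨0, 1, 1⟩] = true) := by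
  refine ⟨?_, ?_, ?_, ?_⟩ <;> decide +kernel

theorem chkD4_0 : checkAlt 2 (envAlts 7 eEnvD4 [331, 3317, 33177]) (.leaf 0)
    [⟨0, 1, 8⟩, ⟨0, 1, 2⟩] = true := leavesEnvD40.1

theorem chkD4_1 : checkAlt 2 (envAlts 7 eEnvD4 [331, 3317, 33177]) (.leaf 0)
    [⟨0, 1, 16⟩, ⟨1, 2, 2⟩] = true := leavesEnvD40.2.1

theorem chkD4_2 : checkAlt 2 (envAlts 7 eEnvD4 [331, 3317, 33177]) (.leaf 0)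
    [⟨1, 2, 16⟩, ⟨2, 3, 4⟩] = true := leavesEnvD40.2.2

theorem chkD4_3 : checkAlt 2 (envAlts 7 eEnvD4 [331, 3317, 33177]) (.leaf 0)
    [⟨2, 3, 32⟩, ⟨3, 4, 4⟩] = true := leavesEnvD41.1

theorem chkD4_4 : checkAlt 2 (envAlts 7 eEnvD4 [331, 3317, 33177]) (.leaf 0)
    [⟨3, 4, 32⟩, ⟨6, 7, 8⟩] = true := leavesEnvD41.2.1

theorem chkD4_5 : checkAlt 2 (envAlts 7 eEnvD4 [331, 3317, 33177]) (.cut 0 (.leaf 0) (.leaf 2))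
    [⟨3, 4, 32⟩, ⟨7, 8, 8⟩] = true := leavesEnvD41.2.2.1

theorem chkD4_6 : checkAlt 2 (envAlts 7 eEnvD4 [331, 3317, 33177]) (.cut 1 (.leaf 0) (.cut 0 (.leaf 0) (.leaf 2)))
    [⟨3, 4, 32⟩, ⟨3, 4, 4⟩] = true := checkAlt_cut chkD4_4 chkD4_5

theorem chkD4_7 : checkAlt 2 (envAlts 7 eEnvD4 [331, 3317, 33177]) (.cut 0 (.leaf 0) (.cut 1 (.leaf 0) (.cut 0 (.leaf 0) (.leaf 2))))
    [⟨1, 2, 16⟩, ⟨3, 4, 4⟩] = true := checkAlt_cut chkD4_3 chkD4_6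

theorem chkD4_8 : checkAlt 2 (envAlts 7 eEnvD4 [331, 3317, 33177]) (.cut 1 (.leaf 0) (.cut 0 (.leaf 0) (.cut 1 (.leaf 0) (.cut 0 (.leaf 0) (.leaf 2)))))
    [⟨1, 2, 16⟩, ⟨1, 2, 2⟩] = true := checkAlt_cut chkD4_2 chkD4_7

theorem chkD4_9 : checkAlt 2 (envAlts 7 eEnvD4 [331, 3317, 33177]) (.cut 0 (.leaf 0) (.cut 1 (.leaf 0) (.cut 0 (.leaf 0) (.cut 1 (.leaf 0) (.cut 0 (.leaf 0) (.leaf 2))))))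
    [⟨0, 1, 8⟩, ⟨1, 2, 2⟩] = true := checkAlt_cut chkD4_1 chkD4_8

theorem chkD4_10 : checkAlt 2 (envAlts 7 eEnvD4 [331, 3317, 33177]) (.cut 1 (.leaf 0) (.cut 0 (.leaf 0) (.cut 1 (.leaf 0) (.cut 0 (.leaf 0) (.cut 1 (.leaf 0) (.cut 0 (.leaf 0) (.leaf 2)))))))
    [⟨0, 1, 8⟩, ⟨0, 1, 1⟩] = true := checkAlt_cut chkD4_0 chkD4_9

theorem chkD4_11 : checkAlt 2 (envAlts 7 eEnvD4 [331, 3317, 33177]) (.leaf 0)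
    [⟨1, 2, 8⟩, ⟨0, 1, 2⟩] = true := leavesEnvD41.2.2.2

theorem chkD4_12 : checkAlt 2 (envAlts 7 eEnvD4 [331, 3317, 33177]) (.leaf 0)
    [⟨4, 5, 32⟩, ⟨4, 5, 8⟩] = true := leavesEnvD42.1

theorem chkD4_13 : checkAlt 2 (envAlts 7 eEnvD4 [331, 3317, 33177]) (.cut 1 (.leaf 0) (.leaf 1))
    [⟨8, 9, 64⟩, ⟨5, 6, 8⟩] = true := leavesEnvD42.2.1

theorem chkD4_14 : checkAlt 2 (envAlts 7 eEnvD4 [331, 3317, 33177]) (.leaf 1)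
    [⟨9, 10, 64⟩, ⟨5, 6, 8⟩] = true := leavesEnvD42.2.2.1

theorem chkD4_15 : checkAlt 2 (envAlts 7 eEnvD4 [331, 3317, 33177]) (.cut 0 (.cut 1 (.leaf 0) (.leaf 1)) (.leaf 1))
    [⟨4, 5, 32⟩, ⟨5, 6, 8⟩] = true := checkAlt_cut chkD4_13 chkD4_14

theorem chkD4_16 : checkAlt 2 (envAlts 7 eEnvD4 [331, 3317, 33177]) (.cut 1 (.leaf 0) (.cut 0 (.cut 1 (.leaf 0) (.leaf 1)) (.leaf 1)))
    [⟨4, 5, 32⟩, ⟨2, 3, 4⟩] = true := checkAlt_cut chkD4_12 chkD4_15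

theorem chkD4_17 : checkAlt 2 (envAlts 7 eEnvD4 [331, 3317, 33177]) (.leaf 1)
    [⟨5, 6, 32⟩, ⟨2, 3, 4⟩] = true := leavesEnvD42.2.2.2

theorem chkD4_18 : checkAlt 2 (envAlts 7 eEnvD4 [331, 3317, 33177]) (.cut 0 (.cut 1 (.leaf 0) (.cut 0 (.cut 1 (.leaf 0) (.leaf 1)) (.leaf 1))) (.leaf 1))
    [⟨2, 3, 16⟩, ⟨2, 3, 4⟩] = true := checkAlt_cut chkD4_16 chkD4_17

theorem chkD4_19 : checkAlt 2 (envAlts 7 eEnvD4 [331, 3317, 33177]) (.leaf 1)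
    [⟨2, 3, 16⟩, ⟨3, 4, 4⟩] = true := leavesEnvD43.1

theorem chkD4_20 : checkAlt 2 (envAlts 7 eEnvD4 [331, 3317, 33177]) (.cut 1 (.cut 0 (.cut 1 (.leaf 0) (.cut 0 (.cut 1 (.leaf 0) (.leaf 1)) (.leaf 1))) (.leaf 1)) (.leaf 1))
    [⟨2, 3, 16⟩, ⟨1, 2, 2⟩] = true := checkAlt_cut chkD4_18 chkD4_19

theorem chkD4_21 : checkAlt 2 (envAlts 7 eEnvD4 [331, 3317, 33177]) (.leaf 1)
    [⟨3, 4, 16⟩, ⟨1, 2, 2⟩] = true := leavesEnvD43.2.1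

theorem chkD4_22 : checkAlt 2 (envAlts 7 eEnvD4 [331, 3317, 33177]) (.cut 0 (.cut 1 (.cut 0 (.cut 1 (.leaf 0) (.cut 0 (.cut 1 (.leaf 0) (.leaf 1)) (.leaf 1))) (.leaf 1)) (.leaf 1)) (.leaf 1))
    [⟨1, 2, 8⟩, ⟨1, 2, 2⟩] = true := checkAlt_cut chkD4_20 chkD4_21

theorem chkD4_23 : checkAlt 2 (envAlts 7 eEnvD4 [331, 3317, 33177]) (.cut 1 (.leaf 0) (.cut 0 (.cut 1 (.cut 0 (.cut 1 (.leaf 0) (.cut 0 (.cut 1 (.leaf 0) (.leaf 1)) (.leaf 1))) (.leaf 1)) (.leaf 1)) (.leaf 1)))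
    [⟨1, 2, 8⟩, ⟨0, 1, 1⟩] = true := checkAlt_cut chkD4_11 chkD4_22

theorem chkD4_24 : checkAlt 2 (envAlts 7 eEnvD4 [331, 3317, 33177]) (.cut 0 (.cut 1 (.leaf 0) (.cut 0 (.leaf 0) (.cut 1 (.leaf 0) (.cut 0 (.leaf 0) (.cut 1 (.leaf 0) (.cut 0 (.leaf 0) (.leaf 2))))))) (.cut 1 (.leaf 0) (.cut 0 (.cut 1 (.cut 0 (.cut 1 (.leaf 0) (.cut 0 (.cut 1 (.leaf 0) (.leaf 1)) (.leaf 1))) (.leaf 1)) (.leaf 1)) (.leaf 1))))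
    [⟨0, 1, 4⟩, ⟨0, 1, 1⟩] = true := checkAlt_cut chkD4_10 chkD4_23

theorem chkD4_25 : checkAlt 2 (envAlts 7 eEnvD4 [331, 3317, 33177]) (.leaf 0)
    [⟨1, 2, 4⟩, ⟨0, 1, 1⟩] = true := leavesEnvD43.2.2.1

theorem chkD4_26 : checkAlt 2 (envAlts 7 eEnvD4 [331, 3317, 33177]) (.cut 0 (.cut 0 (.cut 1 (.leaf 0) (.cut 0 (.leaf 0) (.cut 1 (.leaf 0) (.cut 0 (.leaf 0) (.cut 1 (.leaf 0) (.cut 0 (.leaf 0) (.leaf 2))))))) (.cut 1 (.leaf 0) (.cut 0 (.cut 1 (.cut 0 (.cut 1 (.leaf 0) (.cut 0 (.cut 1 (.leaf 0) (.leaf 1)) (.leaf 1))) (.leaf 1)) (.leaf 1)) (.leaf 1)))) (.leaf 0))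
    [⟨0, 1, 2⟩, ⟨0, 1, 1⟩] = true := checkAlt_cut chkD4_24 chkD4_25

theorem chkD4_27 : checkAlt 2 (envAlts 7 eEnvD4 [331, 3317, 33177]) (.leaf 0)
    [⟨1, 2, 2⟩, ⟨0, 1, 1⟩] = true := leavesEnvD43.2.2.2

theorem chkD4_28 : checkAlt 2 (envAlts 7 eEnvD4 [331, 3317, 33177]) (.cut 0 (.cut 0 (.cut 0 (.cut 1 (.leaf 0) (.cut 0 (.leaf 0) (.cut 1 (.leaf 0) (.cut 0 (.leaf 0) (.cut 1 (.leaf 0) (.cut 0 (.leaf 0) (.leaf 2))))))) (.cut 1 (.leaf 0) (.cut 0 (.cut 1 (.cut 0 (.cut 1 (.leaf 0) (.cut 0 (.cut 1 (.leaf 0) (.leaf 1)) (.leaf 1))) (.leaf 1)) (.leaf 1)) (.leaf 1)))) (.leaf 0)) (.leaf 0))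
    [⟨0, 1, 1⟩, ⟨0, 1, 1⟩] = true := checkAlt_cut chkD4_26 chkD4_27

theorem envD4_nonneg {p z : ℝ} (hp : 0 ≤ p) (hp1 : p ≤ 1) (hz : 0 ≤ z) (hz1 : z ≤ 1)
    (hY : 0 ≤ ysum (chart p z)) (hr : 3000 ≤ 1473 * ysum (chart p z)) :
    0 ≤ eEnvD4.eval (pt [p, z]) :=
  env_nonneg (by decide) chkD4_28 hp hp1 hz hz1 hY hr

end Vale.Agent.P154.NegEnd
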