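import Vale.Agent.P154.NegEnd.EnvBase

/-!
P154 NegEnd: the atoms and the envelopes (generated).
-/

namespace Vale.Agent.P154.NegEnd

open PolyCheck

/-- Six times the atoms. -/
def atomI : Fin 5 → Fin 3 → ℕ := ![![2, 2, 2], ![1, 2, 3], ![1, 1, 4], ![0, 2, 4], ![0, 1, 5]]

/-- Coefficients of envelope V. -/
def L_V : List (ℤ × ℕ × ℕ) :=
  [(-17979, 2, 0), (-32267, 1, 1), (46817, 3, 0), (-49710, 0, 2), (55571, 2, 1), (-166375, 4, 0), (147072, 1, 2), (-103826, 3, 1), (55770, 0, 3), (113899, 5, 0), (-114957, 2, 2)]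

/-- Coefficients of envelope G. -/
def L_G : List (ℤ × ℕ × ℕ) :=
  [(26832, 2, 0), (-3496, 1, 1), (10028, 3, 0), (11808, 0, 2), (91268, 2, 1), (-55789, 4, 0), (-232782, 1, 2)]

/-- Coefficients of envelope D1. -/
def L_D1 : List (ℤ × ℕ × ℕ) :=
  [(1390, 2, 0), (-3826, 1, 1), (-2588, 3, 0), (2357, 0, 2), (11876, 2, 1), (69614, 4, 0), (15418, 1, 2)]

/-- Coefficients of envelope D2. -/
def L_D2 : List (ℤ × ℕ × ℕ) :=
  [(-240, 2, 0), (-11230, 1, 1), (-53760, 3, 0), (67954, 0, 2), (571525, 2, 1), (1086436, 4, 0), (51330, 1, 2)]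

/-- Coefficients of envelope D3. -/
def L_D3 : List (ℤ × ℕ × ℕ) :=
  [(31456, 2, 0), (236292, 1, 1), (-377689, 3, 0), (67066, 0, 2), (-3924287, 2, 1), (-1141139, 4, 0), (-5051215, 1, 2)]

/-- Coefficients of envelope D4. -/
def L_D4 : List (ℤ × ℕ × ℕ) :=
  [(2062, 2, 0), (-5804, 1, 1), (-3462, 3, 0), (2198, 0, 2), (-24939, 2, 1), (42345, 4, 0), (16378, 1, 2)]

/-- Coefficients of envelope A. -/
def L_A : List (ℤ × ℕ × ℕ) :=
  [(120693, 2, 0), (-273118, 1, 1), (-272235, 3, 0), (-218321, 0, 2), (2842552, 2, 1), (5695268, 4, 0), (6159956, 1, 2)]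

/-- Coefficients of envelope Q. -/
def L_Q : List (ℤ × ℕ × ℕ) :=
  [(-27208000, 3, 0), (129016000, 0, 2), (-241128000, 2, 1), (2201272000, 4, 0), (-4176472000, 1, 2), (-272808000, 3, 1), (3850376000, 0, 3), (-23966472000, 5, 0), (39002208000, 2, 2)]

/-- Envelope V as an expression. -/
def eEnvV : Ex :=
    Ex.c (-16376256000) * (eT (atomI 0) * eYs ^ 9) +
    Ex.c (25322544000) * (eT (atomI 1) * eYs ^ 9) +
    Ex.c (-7558272000) * (eT (atomI 2) * eYs ^ 9) +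
    Ex.c (-2068416000) * (eT (atomI 3) * eYs ^ 9) +
    Ex.c (1438560000) * (eT (atomI 4) * eYs ^ 9) +
    Ex.c (-129276000) * (eNS * eYs ^ 8) +
    polEx 10 5 L_V

/-- Envelope G as an expression. -/
def eEnvG : Ex :=
    Ex.c (16376256000) * (eT (atomI 0) * eYs ^ 7) +
    Ex.c (-25322544000) * (eT (atomI 1) * eYs ^ 7) +
    Ex.c (7558272000) * (eT (atomI 2) * eYs ^ 7) +
    Ex.c (2068416000) * (eT (atomI 3) * eYs ^ 7) +
    Ex.c (-1438560000) * (eT (atomI 4) * eYs ^ 7) +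
    Ex.c (129276000) * (eNS * eYs ^ 6) +
    polEx 8 5 L_G

/-- Envelope D1 as an expression. -/
def eEnvD1 : Ex :=
    Ex.c (388800000) * (eT (atomI 1) * eYs ^ 7) +
    Ex.c (-352252800) * (eT (atomI 0) * eYs ^ 7) +
    Ex.c (-1382400) * (eNS * eYs ^ 6) +
    Ex.c (-2678400) * (eNC * eYs ^ 5) +
    polEx 8 5 L_D1

/-- Envelope D2 as an expression. -/
def eEnvD2 : Ex :=
    Ex.c (-388800000) * (eT (atomI 2) * eYs ^ 7) +
    Ex.c (289656000) * (eT (atomI 0) * eYs ^ 7) +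
    Ex.c (648000) * (eNS * eYs ^ 6) +
    Ex.c (4968000) * (eNC * eYs ^ 5) +
    polEx 8 5 L_D2

/-- Envelope D3 as an expression. -/
def eEnvD3 : Ex :=
    Ex.c (-388800000) * (eT (atomI 3) * eYs ^ 7) +
    Ex.c (236001600) * (eT (atomI 0) * eYs ^ 7) +
    Ex.c (7732800) * (eNS * eYs ^ 6) +
    Ex.c (9244800) * (eNC * eYs ^ 5) +
    polEx 8 5 L_D3

/-- Envelope D4 as an expression. -/
def eEnvD4 : Ex :=
    Ex.c (388800000) * (eT (atomI 4) * eYs ^ 7) +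
    Ex.c (-151632000) * (eT (atomI 0) * eYs ^ 7) +
    Ex.c (-3456000) * (eNS * eYs ^ 6) +
    Ex.c (-6696000) * (eNC * eYs ^ 5) +
    polEx 8 5 L_D4

/-- Envelope A as an expression. -/
def eEnvA : Ex :=
    Ex.c (-388800000) * (eT (atomI 0) * eYs ^ 7) +
    Ex.c (129600000) * (eNS * eYs ^ 6) +
    Ex.c (-86400000) * (eNC * eYs ^ 5) +
    polEx 8 5 L_A

/-- Envelope Q as an expression. -/
def eEnvQ : Ex :=
    Ex.c (-30233088) * ((Ex.c 1000 * eT (atomI 2) - Ex.c 745 * eT (atomI 0)) ^ 2 * eYs ^ 8) +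
    Ex.c (-8273664) * ((Ex.c 1000 * eT (atomI 3) - Ex.c 607 * eT (atomI 0)) ^ 2 * eYs ^ 8) +
    Ex.c (3356776704) * (eNS ^ 2 * eYs ^ 6) +
    Ex.c (9113161728) * (eNS * eNC * eYs ^ 5) +
    polEx 10 5 L_Q

end Vale.Agent.P154.NegEnd
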