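import Vale.Agent.P154.NegEnd.EnvDefs

/-!
P154 NegEnd: certificate of envelope G (generated).
-/

namespace Vale.Agent.P154.NegEnd

open PolyCheck

theorem leavesEnvG0 :
    (checkAlt 2 (envAlts 7 eEnvG [9953, 33177]) (.leaf 0) [⟨0, 1, 8⟩, ⟨0, 1, 2⟩] = true) ∧
    (checkAlt 2 (envAlts 7 eEnvG [9953, 33177]) (.leaf 0) [⟨0, 1, 16⟩, ⟨1, 2, 2⟩] = true) ∧
    (checkAlt 2 (envAlts 7 eEnvG [9953, 33177]) (.leaf 0) [⟨1, 2, 16⟩, ⟨2, 3, 4⟩] = true) ∧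
    (checkAlt 2 (envAlts 7 eEnvG [9953, 33177]) (.leaf 0) [⟨2, 3, 32⟩, ⟨3, 4, 4⟩] = true) ∧
    (checkAlt 2 (envAlts 7 eEnvG [9953, 33177]) (.leaf 0) [⟨3, 4, 32⟩, ⟨6, 7, 8⟩] = true) ∧
    (checkAlt 2 (envAlts 7 eEnvG [9953, 33177]) (.leaf 0) [⟨6, 7, 64⟩, ⟨7, 8, 8⟩] = true) ∧
    (checkAlt 2 (envAlts 7 eEnvG [9953, 33177]) (.cut 1 (.leaf 0) (.leaf 1)) [⟨7, 8, 64⟩, ⟨7, 8, 8⟩] = true) := by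
  refine ⟨?_, ?_, ?_, ?_, ?_, ?_, ?_⟩ <;> decide +kernel

theorem leavesEnvG1 :
    (checkAlt 2 (envAlts 7 eEnvG [9953, 33177]) (.leaf 0) [⟨2, 3, 16⟩, ⟨0, 1, 2⟩] = true) ∧
    (checkAlt 2 (envAlts 7 eEnvG [9953, 33177]) (.cut 1 (.leaf 0) (.leaf 2)) [⟨3, 4, 16⟩, ⟨0, 1, 2⟩] = true) ∧
    (checkAlt 2 (envAlts 7 eEnvG [9953, 33177]) (.leaf 0) [⟨4, 5, 32⟩, ⟨4, 5, 8⟩] = true) ∧
    (checkAlt 2 (envAlts 7 eEnvG [9953, 33177]) (.cut 0 (.leaf 0) (.leaf 1)) [⟨4, 5, 32⟩, ⟨5, 6, 8⟩] = true) ∧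
    (checkAlt 2 (envAlts 7 eEnvG [9953, 33177]) (.leaf 1) [⟨5, 6, 32⟩, ⟨2, 3, 4⟩] = true) ∧
    (checkAlt 2 (envAlts 7 eEnvG [9953, 33177]) (.leaf 1) [⟨2, 3, 16⟩, ⟨3, 4, 4⟩] = true) ∧
    (checkAlt 2 (envAlts 7 eEnvG [9953, 33177]) (.leaf 1) [⟨3, 4, 16⟩, ⟨1, 2, 2⟩] = true) := by
  refine ⟨?_, ?_, ?_, ?_, ?_, ?_, ?_⟩ <;> decide +kernel

theorem leavesEnvG2 :
    (checkAlt 2 (envAlts 7 eEnvG [9953, 33177]) (.cut 1 (.leaf 0) (.leaf 1)) [⟨4, 5, 16⟩, ⟨0, 1, 2⟩] = true) ∧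
    (checkAlt 2 (envAlts 7 eEnvG [9953, 33177]) (.cut 1 (.leaf 0) (.leaf 1)) [⟨5, 6, 16⟩, ⟨0, 1, 2⟩] = true) ∧
    (checkAlt 2 (envAlts 7 eEnvG [9953, 33177]) (.leaf 1) [⟨2, 3, 8⟩, ⟨1, 2, 2⟩] = true) ∧
    (checkAlt 2 (envAlts 7 eEnvG [9953, 33177]) (.leaf 0) [⟨12, 13, 32⟩, ⟨0, 1, 4⟩] = true) ∧
    (checkAlt 2 (envAlts 7 eEnvG [9953, 33177]) (.leaf 0) [⟨26, 27, 64⟩, ⟨0, 1, 8⟩] = true) ∧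
    (checkAlt 2 (envAlts 7 eEnvG [9953, 33177]) (.cut 0 (.leaf 3) (.leaf 1)) [⟨54, 55, 128⟩, ⟨0, 1, 32⟩] = true) ∧
    (checkAlt 2 (envAlts 7 eEnvG [9953, 33177]) (.leaf 0) [⟨54, 55, 128⟩, ⟨1, 2, 32⟩] = true) := by
  refine ⟨?_, ?_, ?_, ?_, ?_, ?_, ?_⟩ <;> decide +kernel

theorem leavesEnvG3 :
    (checkAlt 2 (envAlts 7 eEnvG [9953, 33177]) (.leaf 1) [⟨55, 56, 128⟩, ⟨0, 1, 16⟩] = true) ∧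
    (checkAlt 2 (envAlts 7 eEnvG [9953, 33177]) (.leaf 1) [⟨27, 28, 64⟩, ⟨1, 2, 16⟩] = true) ∧
    (checkAlt 2 (envAlts 7 eEnvG [9953, 33177]) (.leaf 0) [⟨13, 14, 32⟩, ⟨1, 2, 8⟩] = true) ∧
    (checkAlt 2 (envAlts 7 eEnvG [9953, 33177]) (.leaf 1) [⟨6, 7, 16⟩, ⟨1, 2, 4⟩] = true) ∧
    (checkAlt 2 (envAlts 7 eEnvG [9953, 33177]) (.leaf 1) [⟨7, 8, 16⟩, ⟨0, 1, 2⟩] = true) ∧
    (checkAlt 2 (envAlts 7 eEnvG [9953, 33177]) (.leaf 1) [⟨3, 4, 8⟩, ⟨1, 2, 2⟩] = true) ∧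
    (checkAlt 2 (envAlts 7 eEnvG [9953, 33177]) (.leaf 1) [⟨1, 2, 2⟩, ⟨0, 1, 1⟩] = true) := by
  refine ⟨?_, ?_, ?_, ?_, ?_, ?_, ?_⟩ <;> decide +kernel

theorem chkG_0 : checkAlt 2 (envAlts 7 eEnvG [9953, 33177]) (.leaf 0)
    [⟨0, 1, 8⟩, ⟨0, 1, 2⟩] = true := leavesEnvG0.1

theorem chkG_1 : checkAlt 2 (envAlts 7 eEnvG [9953, 33177]) (.leaf 0)
    [⟨0, 1, 16⟩, ⟨1, 2, 2⟩] = true := leavesEnvG0.2.1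

theorem chkG_2 : checkAlt 2 (envAlts 7 eEnvG [9953, 33177]) (.leaf 0)
    [⟨1, 2, 16⟩, ⟨2, 3, 4⟩] = true := leavesEnvG0.2.2.1

theorem chkG_3 : checkAlt 2 (envAlts 7 eEnvG [9953, 33177]) (.leaf 0)
    [⟨2, 3, 32⟩, ⟨3, 4, 4⟩] = true := leavesEnvG0.2.2.2.1

theorem chkG_4 : checkAlt 2 (envAlts 7 eEnvG [9953, 33177]) (.leaf 0)
    [⟨3, 4, 32⟩, ⟨6, 7, 8⟩] = true := leavesEnvG0.2.2.2.2.1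

theorem chkG_5 : checkAlt 2 (envAlts 7 eEnvG [9953, 33177]) (.leaf 0)
    [⟨6, 7, 64⟩, ⟨7, 8, 8⟩] = true := leavesEnvG0.2.2.2.2.2.1

theorem chkG_6 : checkAlt 2 (envAlts 7 eEnvG [9953, 33177]) (.cut 1 (.leaf 0) (.leaf 1))
    [⟨7, 8, 64⟩, ⟨7, 8, 8⟩] = true := leavesEnvG0.2.2.2.2.2.2

theorem chkG_7 : checkAlt 2 (envAlts 7 eEnvG [9953, 33177]) (.cut 0 (.leaf 0) (.cut 1 (.leaf 0) (.leaf 1)))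
    [⟨3, 4, 32⟩, ⟨7, 8, 8⟩] = true := checkAlt_cut chkG_5 chkG_6

theorem chkG_8 : checkAlt 2 (envAlts 7 eEnvG [9953, 33177]) (.cut 1 (.leaf 0) (.cut 0 (.leaf 0) (.cut 1 (.leaf 0) (.leaf 1))))
    [⟨3, 4, 32⟩, ⟨3, 4, 4⟩] = true := checkAlt_cut chkG_4 chkG_7

theorem chkG_9 : checkAlt 2 (envAlts 7 eEnvG [9953, 33177]) (.cut 0 (.leaf 0) (.cut 1 (.leaf 0) (.cut 0 (.leaf 0) (.cut 1 (.leaf 0) (.leaf 1)))))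
    [⟨1, 2, 16⟩, ⟨3, 4, 4⟩] = true := checkAlt_cut chkG_3 chkG_8

theorem chkG_10 : checkAlt 2 (envAlts 7 eEnvG [9953, 33177]) (.cut 1 (.leaf 0) (.cut 0 (.leaf 0) (.cut 1 (.leaf 0) (.cut 0 (.leaf 0) (.cut 1 (.leaf 0) (.leaf 1))))))
    [⟨1, 2, 16⟩, ⟨1, 2, 2⟩] = true := checkAlt_cut chkG_2 chkG_9

theorem chkG_11 : checkAlt 2 (envAlts 7 eEnvG [9953, 33177]) (.cut 0 (.leaf 0) (.cut 1 (.leaf 0) (.cut 0 (.leaf 0) (.cut 1 (.leaf 0) (.cut 0 (.leaf 0) (.cut 1 (.leaf 0) (.leaf 1)))))))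
    [⟨0, 1, 8⟩, ⟨1, 2, 2⟩] = true := checkAlt_cut chkG_1 chkG_10

theorem chkG_12 : checkAlt 2 (envAlts 7 eEnvG [9953, 33177]) (.cut 1 (.leaf 0) (.cut 0 (.leaf 0) (.cut 1 (.leaf 0) (.cut 0 (.leaf 0) (.cut 1 (.leaf 0) (.cut 0 (.leaf 0) (.cut 1 (.leaf 0) (.leaf 1))))))))
    [⟨0, 1, 8⟩, ⟨0, 1, 1⟩] = true := checkAlt_cut chkG_0 chkG_11

theorem chkG_13 : checkAlt 2 (envAlts 7 eEnvG [9953, 33177]) (.leaf 0)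
    [⟨2, 3, 16⟩, ⟨0, 1, 2⟩] = true := leavesEnvG1.1

theorem chkG_14 : checkAlt 2 (envAlts 7 eEnvG [9953, 33177]) (.cut 1 (.leaf 0) (.leaf 2))
    [⟨3, 4, 16⟩, ⟨0, 1, 2⟩] = true := leavesEnvG1.2.1

theorem chkG_15 : checkAlt 2 (envAlts 7 eEnvG [9953, 33177]) (.cut 0 (.leaf 0) (.cut 1 (.leaf 0) (.leaf 2)))
    [⟨1, 2, 8⟩, ⟨0, 1, 2⟩] = true := checkAlt_cut chkG_13 chkG_14

theorem chkG_16 : checkAlt 2 (envAlts 7 eEnvG [9953, 33177]) (.leaf 0)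
    [⟨4, 5, 32⟩, ⟨4, 5, 8⟩] = true := leavesEnvG1.2.2.1

theorem chkG_17 : checkAlt 2 (envAlts 7 eEnvG [9953, 33177]) (.cut 0 (.leaf 0) (.leaf 1))
    [⟨4, 5, 32⟩, ⟨5, 6, 8⟩] = true := leavesEnvG1.2.2.2.1

theorem chkG_18 : checkAlt 2 (envAlts 7 eEnvG [9953, 33177]) (.cut 1 (.leaf 0) (.cut 0 (.leaf 0) (.leaf 1)))
    [⟨4, 5, 32⟩, ⟨2, 3, 4⟩] = true := checkAlt_cut chkG_16 chkG_17

theorem chkG_19 : checkAlt 2 (envAlts 7 eEnvG [9953, 33177]) (.leaf 1)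
    [⟨5, 6, 32⟩, ⟨2, 3, 4⟩] = true := leavesEnvG1.2.2.2.2.1

theorem chkG_20 : checkAlt 2 (envAlts 7 eEnvG [9953, 33177]) (.cut 0 (.cut 1 (.leaf 0) (.cut 0 (.leaf 0) (.leaf 1))) (.leaf 1))
    [⟨2, 3, 16⟩, ⟨2, 3, 4⟩] = true := checkAlt_cut chkG_18 chkG_19

theorem chkG_21 : checkAlt 2 (envAlts 7 eEnvG [9953, 33177]) (.leaf 1)
    [⟨2, 3, 16⟩, ⟨3, 4, 4⟩] = true := leavesEnvG1.2.2.2.2.2.1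

theorem chkG_22 : checkAlt 2 (envAlts 7 eEnvG [9953, 33177]) (.cut 1 (.cut 0 (.cut 1 (.leaf 0) (.cut 0 (.leaf 0) (.leaf 1))) (.leaf 1)) (.leaf 1))
    [⟨2, 3, 16⟩, ⟨1, 2, 2⟩] = true := checkAlt_cut chkG_20 chkG_21

theorem chkG_23 : checkAlt 2 (envAlts 7 eEnvG [9953, 33177]) (.leaf 1)
    [⟨3, 4, 16⟩, ⟨1, 2, 2⟩] = true := leavesEnvG1.2.2.2.2.2.2

theorem chkG_24 : checkAlt 2 (envAlts 7 eEnvG [9953, 33177]) (.cut 0 (.cut 1 (.cut 0 (.cut 1 (.leaf 0) (.cut 0 (.leaf 0) (.leaf 1))) (.leaf 1)) (.leaf 1)) (.leaf 1))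
    [⟨1, 2, 8⟩, ⟨1, 2, 2⟩] = true := checkAlt_cut chkG_22 chkG_23

theorem chkG_25 : checkAlt 2 (envAlts 7 eEnvG [9953, 33177]) (.cut 1 (.cut 0 (.leaf 0) (.cut 1 (.leaf 0) (.leaf 2))) (.cut 0 (.cut 1 (.cut 0 (.cut 1 (.leaf 0) (.cut 0 (.leaf 0) (.leaf 1))) (.leaf 1)) (.leaf 1)) (.leaf 1)))
    [⟨1, 2, 8⟩, ⟨0, 1, 1⟩] = true := checkAlt_cut chkG_15 chkG_24

theorem chkG_26 : checkAlt 2 (envAlts 7 eEnvG [9953, 33177]) (.cut 0 (.cut 1 (.leaf 0) (.cut 0 (.leaf 0) (.cut 1 (.leaf 0) (.cut 0 (.leaf 0) (.cut 1 (.leaf 0) (.cut 0 (.leaf 0) (.cut 1 (.leaf 0) (.leaf 1)))))))) (.cut 1 (.cut 0 (.leaf 0) (.cut 1 (.leaf 0) (.leaf 2))) (.cut 0 (.cut 1 (.cut 0 (.cut 1 (.leaf 0) (.cut 0 (.leaf 0) (.leaf 1))) (.leaf 1)) (.leaf 1)) (.leaf 1))))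
    [⟨0, 1, 4⟩, ⟨0, 1, 1⟩] = true := checkAlt_cut chkG_12 chkG_25

theorem chkG_27 : checkAlt 2 (envAlts 7 eEnvG [9953, 33177]) (.cut 1 (.leaf 0) (.leaf 1))
    [⟨4, 5, 16⟩, ⟨0, 1, 2⟩] = true := leavesEnvG2.1

theorem chkG_28 : checkAlt 2 (envAlts 7 eEnvG [9953, 33177]) (.cut 1 (.leaf 0) (.leaf 1))
    [⟨5, 6, 16⟩, ⟨0, 1, 2⟩] = true := leavesEnvG2.2.1

theorem chkG_29 : checkAlt 2 (envAlts 7 eEnvG [9953, 33177]) (.cut 0 (.cut 1 (.leaf 0) (.leaf 1)) (.cut 1 (.leaf 0) (.leaf 1)))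
    [⟨2, 3, 8⟩, ⟨0, 1, 2⟩] = true := checkAlt_cut chkG_27 chkG_28

theorem chkG_30 : checkAlt 2 (envAlts 7 eEnvG [9953, 33177]) (.leaf 1)
    [⟨2, 3, 8⟩, ⟨1, 2, 2⟩] = true := leavesEnvG2.2.2.1

theorem chkG_31 : checkAlt 2 (envAlts 7 eEnvG [9953, 33177]) (.cut 1 (.cut 0 (.cut 1 (.leaf 0) (.leaf 1)) (.cut 1 (.leaf 0) (.leaf 1))) (.leaf 1))
    [⟨2, 3, 8⟩, ⟨0, 1, 1⟩] = true := checkAlt_cut chkG_29 chkG_30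

theorem chkG_32 : checkAlt 2 (envAlts 7 eEnvG [9953, 33177]) (.leaf 0)
    [⟨12, 13, 32⟩, ⟨0, 1, 4⟩] = true := leavesEnvG2.2.2.2.1

theorem chkG_33 : checkAlt 2 (envAlts 7 eEnvG [9953, 33177]) (.leaf 0)
    [⟨26, 27, 64⟩, ⟨0, 1, 8⟩] = true := leavesEnvG2.2.2.2.2.1

theorem chkG_34 : checkAlt 2 (envAlts 7 eEnvG [9953, 33177]) (.cut 0 (.leaf 3) (.leaf 1))
    [⟨54, 55, 128⟩, ⟨0, 1, 32⟩] = true := leavesEnvG2.2.2.2.2.2.1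

theorem chkG_35 : checkAlt 2 (envAlts 7 eEnvG [9953, 33177]) (.leaf 0)
    [⟨54, 55, 128⟩, ⟨1, 2, 32⟩] = true := leavesEnvG2.2.2.2.2.2.2

theorem chkG_36 : checkAlt 2 (envAlts 7 eEnvG [9953, 33177]) (.cut 1 (.cut 0 (.leaf 3) (.leaf 1)) (.leaf 0))
    [⟨54, 55, 128⟩, ⟨0, 1, 16⟩] = true := checkAlt_cut chkG_34 chkG_35

theorem chkG_37 : checkAlt 2 (envAlts 7 eEnvG [9953, 33177]) (.leaf 1)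
    [⟨55, 56, 128⟩, ⟨0, 1, 16⟩] = true := leavesEnvG3.1

theorem chkG_38 : checkAlt 2 (envAlts 7 eEnvG [9953, 33177]) (.cut 0 (.cut 1 (.cut 0 (.leaf 3) (.leaf 1)) (.leaf 0)) (.leaf 1))
    [⟨27, 28, 64⟩, ⟨0, 1, 16⟩] = true := checkAlt_cut chkG_36 chkG_37

theorem chkG_39 : checkAlt 2 (envAlts 7 eEnvG [9953, 33177]) (.leaf 1)
    [⟨27, 28, 64⟩, ⟨1, 2, 16⟩] = true := leavesEnvG3.2.1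

theorem chkG_40 : checkAlt 2 (envAlts 7 eEnvG [9953, 33177]) (.cut 1 (.cut 0 (.cut 1 (.cut 0 (.leaf 3) (.leaf 1)) (.leaf 0)) (.leaf 1)) (.leaf 1))
    [⟨27, 28, 64⟩, ⟨0, 1, 8⟩] = true := checkAlt_cut chkG_38 chkG_39

theorem chkG_41 : checkAlt 2 (envAlts 7 eEnvG [9953, 33177]) (.cut 0 (.leaf 0) (.cut 1 (.cut 0 (.cut 1 (.cut 0 (.leaf 3) (.leaf 1)) (.leaf 0)) (.leaf 1)) (.leaf 1)))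
    [⟨13, 14, 32⟩, ⟨0, 1, 8⟩] = true := checkAlt_cut chkG_33 chkG_40

theorem chkG_42 : checkAlt 2 (envAlts 7 eEnvG [9953, 33177]) (.leaf 0)
    [⟨13, 14, 32⟩, ⟨1, 2, 8⟩] = true := leavesEnvG3.2.2.1

theorem chkG_43 : checkAlt 2 (envAlts 7 eEnvG [9953, 33177]) (.cut 1 (.cut 0 (.leaf 0) (.cut 1 (.cut 0 (.cut 1 (.cut 0 (.leaf 3) (.leaf 1)) (.leaf 0)) (.leaf 1)) (.leaf 1))) (.leaf 0))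
    [⟨13, 14, 32⟩, ⟨0, 1, 4⟩] = true := checkAlt_cut chkG_41 chkG_42

theorem chkG_44 : checkAlt 2 (envAlts 7 eEnvG [9953, 33177]) (.cut 0 (.leaf 0) (.cut 1 (.cut 0 (.leaf 0) (.cut 1 (.cut 0 (.cut 1 (.cut 0 (.leaf 3) (.leaf 1)) (.leaf 0)) (.leaf 1)) (.leaf 1))) (.leaf 0)))
    [⟨6, 7, 16⟩, ⟨0, 1, 4⟩] = true := checkAlt_cut chkG_32 chkG_43

theorem chkG_45 : checkAlt 2 (envAlts 7 eEnvG [9953, 33177]) (.leaf 1)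
    [⟨6, 7, 16⟩, ⟨1, 2, 4⟩] = true := leavesEnvG3.2.2.2.1

theorem chkG_46 : checkAlt 2 (envAlts 7 eEnvG [9953, 33177]) (.cut 1 (.cut 0 (.leaf 0) (.cut 1 (.cut 0 (.leaf 0) (.cut 1 (.cut 0 (.cut 1 (.cut 0 (.leaf 3) (.leaf 1)) (.leaf 0)) (.leaf 1)) (.leaf 1))) (.leaf 0))) (.leaf 1))
    [⟨6, 7, 16⟩, ⟨0, 1, 2⟩] = true := checkAlt_cut chkG_44 chkG_45

theorem chkG_47 : checkAlt 2 (envAlts 7 eEnvG [9953, 33177]) (.leaf 1)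
    [⟨7, 8, 16⟩, ⟨0, 1, 2⟩] = true := leavesEnvG3.2.2.2.2.1

theorem chkG_48 : checkAlt 2 (envAlts 7 eEnvG [9953, 33177]) (.cut 0 (.cut 1 (.cut 0 (.leaf 0) (.cut 1 (.cut 0 (.leaf 0) (.cut 1 (.cut 0 (.cut 1 (.cut 0 (.leaf 3) (.leaf 1)) (.leaf 0)) (.leaf 1)) (.leaf 1))) (.leaf 0))) (.leaf 1)) (.leaf 1))
    [⟨3, 4, 8⟩, ⟨0, 1, 2⟩] = true := checkAlt_cut chkG_46 chkG_47

theorem chkG_49 : checkAlt 2 (envAlts 7 eEnvG [9953, 33177]) (.leaf 1)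
    [⟨3, 4, 8⟩, ⟨1, 2, 2⟩] = true := leavesEnvG3.2.2.2.2.2.1

theorem chkG_50 : checkAlt 2 (envAlts 7 eEnvG [9953, 33177]) (.cut 1 (.cut 0 (.cut 1 (.cut 0 (.leaf 0) (.cut 1 (.cut 0 (.leaf 0) (.cut 1 (.cut 0 (.cut 1 (.cut 0 (.leaf 3) (.leaf 1)) (.leaf 0)) (.leaf 1)) (.leaf 1))) (.leaf 0))) (.leaf 1)) (.leaf 1)) (.leaf 1))
    [⟨3, 4, 8⟩, ⟨0, 1, 1⟩] = true := checkAlt_cut chkG_48 chkG_49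

theorem chkG_51 : checkAlt 2 (envAlts 7 eEnvG [9953, 33177]) (.cut 0 (.cut 1 (.cut 0 (.cut 1 (.leaf 0) (.leaf 1)) (.cut 1 (.leaf 0) (.leaf 1))) (.leaf 1)) (.cut 1 (.cut 0 (.cut 1 (.cut 0 (.leaf 0) (.cut 1 (.cut 0 (.leaf 0) (.cut 1 (.cut 0 (.cut 1 (.cut 0 (.leaf 3) (.leaf 1)) (.leaf 0)) (.leaf 1)) (.leaf 1))) (.leaf 0))) (.leaf 1)) (.leaf 1)) (.leaf 1)))
    [⟨1, 2, 4⟩, ⟨0, 1, 1⟩] = true := checkAlt_cut chkG_31 chkG_50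

theorem chkG_52 : checkAlt 2 (envAlts 7 eEnvG [9953, 33177]) (.cut 0 (.cut 0 (.cut 1 (.leaf 0) (.cut 0 (.leaf 0) (.cut 1 (.leaf 0) (.cut 0 (.leaf 0) (.cut 1 (.leaf 0) (.cut 0 (.leaf 0) (.cut 1 (.leaf 0) (.leaf 1)))))))) (.cut 1 (.cut 0 (.leaf 0) (.cut 1 (.leaf 0) (.leaf 2))) (.cut 0 (.cut 1 (.cut 0 (.cut 1 (.leaf 0) (.cut 0 (.leaf 0) (.leaf 1))) (.leaf 1)) (.leaf 1)) (.leaf 1)))) (.cut 0 (.cut 1 (.cut 0 (.cut 1 (.leaf 0) (.leaf 1)) (.cut 1 (.leaf 0) (.leaf 1))) (.leaf 1)) (.cut 1 (.cut 0 (.cut 1 (.cut 0 (.leaf 0) (.cut 1 (.cut 0 (.leaf 0) (.cut 1 (.cut 0 (.cut 1 (.cut 0 (.leaf 3) (.leaf 1)) (.leaf 0)) (.leaf 1)) (.leaf 1))) (.leaf 0))) (.leaf 1)) (.leaf 1)) (.leaf 1))))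
    [⟨0, 1, 2⟩, ⟨0, 1, 1⟩] = true := checkAlt_cut chkG_26 chkG_51

theorem chkG_53 : checkAlt 2 (envAlts 7 eEnvG [9953, 33177]) (.leaf 1)
    [⟨1, 2, 2⟩, ⟨0, 1, 1⟩] = true := leavesEnvG3.2.2.2.2.2.2

theorem chkG_54 : checkAlt 2 (envAlts 7 eEnvG [9953, 33177]) (.cut 0 (.cut 0 (.cut 0 (.cut 1 (.leaf 0) (.cut 0 (.leaf 0) (.cut 1 (.leaf 0) (.cut 0 (.leaf 0) (.cut 1 (.leaf 0) (.cut 0 (.leaf 0) (.cut 1 (.leaf 0) (.leaf 1)))))))) (.cut 1 (.cut 0 (.leaf 0) (.cut 1 (.leaf 0) (.leaf 2))) (.cut 0 (.cut 1 (.cut 0 (.cut 1 (.leaf 0) (.cut 0 (.leaf 0) (.leaf 1))) (.leaf 1)) (.leaf 1)) (.leaf 1)))) (.cut 0 (.cut 1 (.cut 0 (.cut 1 (.leaf 0) (.leaf 1)) (.cut 1 (.leaf 0) (.leaf 1))) (.leaf 1)) (.cut 1 (.cut 0 (.cut 1 (.cut 0 (.leaf 0) (.cut 1 (.cut 0 (.leaf 0) (.cut 1 (.cut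 0 (.cut 1 (.cut 0 (.leaf 3) (.leaf 1)) (.leaf 0)) (.leaf 1)) (.leaf 1))) (.leaf 0))) (.leaf 1)) (.leaf 1)) (.leaf 1)))) (.leaf 1))
    [⟨0, 1, 1⟩, ⟨0, 1, 1⟩] = true := checkAlt_cut chkG_52 chkG_53

theorem envG_nonneg {p z : ℝ} (hp : 0 ≤ p) (hp1 : p ≤ 1) (hz : 0 ≤ z) (hz1 : z ≤ 1)
    (hY : 0 ≤ ysum (chart p z)) (hr : 3000 ≤ 1473 * ysum (chart p z)) :
    0 ≤ eEnvG.eval (pt [p, z]) :=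
  env_nonneg (by decide) chkG_54 hp hp1 hz hz1 hY hr

end Vale.Agent.P154.NegEnd
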