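import Vale.Agent.P154.NegEnd.EnvQ.Leaves0
import Vale.Agent.P154.NegEnd.EnvQ.Leaves1
import Vale.Agent.P154.NegEnd.EnvQ.Leaves2
import Vale.Agent.P154.NegEnd.EnvQ.Leaves3

/-!
P154 NegEnd: certificate of envelope Q (generated).
-/

namespace Vale.Agent.P154.NegEnd

open PolyCheck

theorem chkQ_0 : checkAlt 2 (envAlts 9 eEnvQ [10616832, 106168320, 1061683200]) (.leaf 0)
    [⟨0, 1, 8⟩, ⟨0, 1, 4⟩] = true := leavesEnvQ0.1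

theorem chkQ_1 : checkAlt 2 (envAlts 9 eEnvQ [10616832, 106168320, 1061683200]) (.leaf 0)
    [⟨2, 3, 16⟩, ⟨0, 1, 8⟩] = true := leavesEnvQ0.2.1

theorem chkQ_2 : checkAlt 2 (envAlts 9 eEnvQ [10616832, 106168320, 1061683200]) (.leaf 0)
    [⟨3, 4, 16⟩, ⟨0, 1, 16⟩] = true := leavesEnvQ0.2.2.1

theorem chkQ_3 : checkAlt 2 (envAlts 9 eEnvQ [10616832, 106168320, 1061683200]) (.leaf 0)
    [⟨6, 7, 32⟩, ⟨1, 2, 16⟩] = true := leavesEnvQ0.2.2.2.1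

theorem chkQ_4 : checkAlt 2 (envAlts 9 eEnvQ [10616832, 106168320, 1061683200]) (.leaf 0)
    [⟨7, 8, 32⟩, ⟨2, 3, 32⟩] = true := leavesEnvQ0.2.2.2.2.1

theorem chkQ_5 : checkAlt 2 (envAlts 9 eEnvQ [10616832, 106168320, 1061683200]) (.leaf 0)
    [⟨14, 15, 64⟩, ⟨3, 4, 32⟩] = true := leavesEnvQ0.2.2.2.2.2.1

theorem chkQ_6 : checkAlt 2 (envAlts 9 eEnvQ [10616832, 106168320, 1061683200]) (.leaf 0)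
    [⟨15, 16, 64⟩, ⟨6, 7, 64⟩] = true := leavesEnvQ0.2.2.2.2.2.2.1

theorem chkQ_7 : checkAlt 2 (envAlts 9 eEnvQ [10616832, 106168320, 1061683200]) (.cut 0 (.leaf 0) (.leaf 2))
    [⟨15, 16, 64⟩, ⟨7, 8, 64⟩] = true := leavesEnvQ0.2.2.2.2.2.2.2.1

theorem chkQ_8 : checkAlt 2 (envAlts 9 eEnvQ [10616832, 106168320, 1061683200]) (.cut 1 (.leaf 0) (.cut 0 (.leaf 0) (.leaf 2)))
    [⟨15, 16, 64⟩, ⟨3, 4, 32⟩] = true := checkAlt_cut chkQ_6 chkQ_7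

theorem chkQ_9 : checkAlt 2 (envAlts 9 eEnvQ [10616832, 106168320, 1061683200]) (.cut 0 (.leaf 0) (.cut 1 (.leaf 0) (.cut 0 (.leaf 0) (.leaf 2))))
    [⟨7, 8, 32⟩, ⟨3, 4, 32⟩] = true := checkAlt_cut chkQ_5 chkQ_8

theorem chkQ_10 : checkAlt 2 (envAlts 9 eEnvQ [10616832, 106168320, 1061683200]) (.cut 1 (.leaf 0) (.cut 0 (.leaf 0) (.cut 1 (.leaf 0) (.cut 0 (.leaf 0) (.leaf 2)))))
    [⟨7, 8, 32⟩, ⟨1, 2, 16⟩] = true := checkAlt_cut chkQ_4 chkQ_9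

theorem chkQ_11 : checkAlt 2 (envAlts 9 eEnvQ [10616832, 106168320, 1061683200]) (.cut 0 (.leaf 0) (.cut 1 (.leaf 0) (.cut 0 (.leaf 0) (.cut 1 (.leaf 0) (.cut 0 (.leaf 0) (.leaf 2))))))
    [⟨3, 4, 16⟩, ⟨1, 2, 16⟩] = true := checkAlt_cut chkQ_3 chkQ_10

theorem chkQ_12 : checkAlt 2 (envAlts 9 eEnvQ [10616832, 106168320, 1061683200]) (.cut 1 (.leaf 0) (.cut 0 (.leaf 0) (.cut 1 (.leaf 0) (.cut 0 (.leaf 0) (.cut 1 (.leaf 0) (.cut 0 (.leaf 0) (.leaf 2)))))))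
    [⟨3, 4, 16⟩, ⟨0, 1, 8⟩] = true := checkAlt_cut chkQ_2 chkQ_11

theorem chkQ_13 : checkAlt 2 (envAlts 9 eEnvQ [10616832, 106168320, 1061683200]) (.cut 0 (.leaf 0) (.cut 1 (.leaf 0) (.cut 0 (.leaf 0) (.cut 1 (.leaf 0) (.cut 0 (.leaf 0) (.cut 1 (.leaf 0) (.cut 0 (.leaf 0) (.leaf 2))))))))
    [⟨1, 2, 8⟩, ⟨0, 1, 8⟩] = true := checkAlt_cut chkQ_1 chkQ_12

theorem chkQ_14 : checkAlt 2 (envAlts 9 eEnvQ [10616832, 106168320, 1061683200]) (.leaf 0)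
    [⟨2, 3, 16⟩, ⟨1, 2, 8⟩] = true := leavesEnvQ0.2.2.2.2.2.2.2.2.1

theorem chkQ_15 : checkAlt 2 (envAlts 9 eEnvQ [10616832, 106168320, 1061683200]) (.leaf 0)
    [⟨6, 7, 32⟩, ⟨2, 3, 16⟩] = true := leavesEnvQ0.2.2.2.2.2.2.2.2.2.1

theorem chkQ_16 : checkAlt 2 (envAlts 9 eEnvQ [10616832, 106168320, 1061683200]) (.cut 0 (.leaf 0) (.leaf 2))
    [⟨7, 8, 32⟩, ⟨4, 5, 32⟩] = true := leavesEnvQ0.2.2.2.2.2.2.2.2.2.2.1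

theorem chkQ_17 : checkAlt 2 (envAlts 9 eEnvQ [10616832, 106168320, 1061683200]) (.leaf 3)
    [⟨7, 8, 32⟩, ⟨5, 6, 32⟩] = true := leavesEnvQ0.2.2.2.2.2.2.2.2.2.2.2.1

theorem chkQ_18 : checkAlt 2 (envAlts 9 eEnvQ [10616832, 106168320, 1061683200]) (.cut 1 (.cut 0 (.leaf 0) (.leaf 2)) (.leaf 3))
    [⟨7, 8, 32⟩, ⟨2, 3, 16⟩] = true := checkAlt_cut chkQ_16 chkQ_17

theorem chkQ_19 : checkAlt 2 (envAlts 9 eEnvQ [10616832, 106168320, 1061683200]) (.cut 0 (.leaf 0) (.cut 1 (.cut 0 (.leaf 0) (.leaf 2)) (.leaf 3)))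
    [⟨3, 4, 16⟩, ⟨2, 3, 16⟩] = true := checkAlt_cut chkQ_15 chkQ_18

theorem chkQ_20 : checkAlt 2 (envAlts 9 eEnvQ [10616832, 106168320, 1061683200]) (.cut 1 (.leaf 0) (.leaf 2))
    [⟨6, 7, 32⟩, ⟨3, 4, 16⟩] = true := leavesEnvQ0.2.2.2.2.2.2.2.2.2.2.2.2.1

theorem chkQ_21 : checkAlt 2 (envAlts 9 eEnvQ [10616832, 106168320, 1061683200]) (.leaf 1)
    [⟨7, 8, 32⟩, ⟨3, 4, 16⟩] = true := leavesEnvQ0.2.2.2.2.2.2.2.2.2.2.2.2.2.1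

theorem chkQ_22 : checkAlt 2 (envAlts 9 eEnvQ [10616832, 106168320, 1061683200]) (.cut 0 (.cut 1 (.leaf 0) (.leaf 2)) (.leaf 1))
    [⟨3, 4, 16⟩, ⟨3, 4, 16⟩] = true := checkAlt_cut chkQ_20 chkQ_21

theorem chkQ_23 : checkAlt 2 (envAlts 9 eEnvQ [10616832, 106168320, 1061683200]) (.cut 1 (.cut 0 (.leaf 0) (.cut 1 (.cut 0 (.leaf 0) (.leaf 2)) (.leaf 3))) (.cut 0 (.cut 1 (.leaf 0) (.leaf 2)) (.leaf 1)))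
    [⟨3, 4, 16⟩, ⟨1, 2, 8⟩] = true := checkAlt_cut chkQ_19 chkQ_22

theorem chkQ_24 : checkAlt 2 (envAlts 9 eEnvQ [10616832, 106168320, 1061683200]) (.cut 0 (.leaf 0) (.cut 1 (.cut 0 (.leaf 0) (.cut 1 (.cut 0 (.leaf 0) (.leaf 2)) (.leaf 3))) (.cut 0 (.cut 1 (.leaf 0) (.leaf 2)) (.leaf 1))))
    [⟨1, 2, 8⟩, ⟨1, 2, 8⟩] = true := checkAlt_cut chkQ_14 chkQ_23

theorem chkQ_25 : checkAlt 2 (envAlts 9 eEnvQ [10616832, 106168320, 1061683200]) (.cut 1 (.cut 0 (.leaf 0) (.cut 1 (.leaf 0) (.cut 0 (.leaf 0) (.cut 1 (.leaf 0) (.cut 0 (.leaf 0) (.cut 1 (.leaf 0) (.cut 0 (.leaf 0) (.leaf 2)))))))) (.cut 0 (.leaf 0) (.cut 1 (.cut 0 (.leaf 0) (.cut 1 (.cut 0 (.leaf 0) (.leaf 2)) (.leaf 3))) (.cut 0 (.cut 1 (.leaf 0) (.leaf 2)) (.leaf 1)))))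
    [⟨1, 2, 8⟩, ⟨0, 1, 4⟩] = true := checkAlt_cut chkQ_13 chkQ_24

theorem chkQ_26 : checkAlt 2 (envAlts 9 eEnvQ [10616832, 106168320, 1061683200]) (.cut 0 (.leaf 0) (.cut 1 (.cut 0 (.leaf 0) (.cut 1 (.leaf 0) (.cut 0 (.leaf 0) (.cut 1 (.leaf 0) (.cut 0 (.leaf 0) (.cut 1 (.leaf 0) (.cut 0 (.leaf 0) (.leaf 2)))))))) (.cut 0 (.leaf 0) (.cut 1 (.cut 0 (.leaf 0) (.cut 1 (.cut 0 (.leaf 0) (.leaf 2)) (.leaf 3))) (.cut 0 (.cut 1 (.leaf 0) (.leaf 2)) (.leaf 1))))))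
    [⟨0, 1, 4⟩, ⟨0, 1, 4⟩] = true := checkAlt_cut chkQ_0 chkQ_25

theorem chkQ_27 : checkAlt 2 (envAlts 9 eEnvQ [10616832, 106168320, 1061683200]) (.leaf 0)
    [⟨0, 1, 8⟩, ⟨1, 2, 4⟩] = true := leavesEnvQ0.2.2.2.2.2.2.2.2.2.2.2.2.2.2.1

theorem chkQ_28 : checkAlt 2 (envAlts 9 eEnvQ [10616832, 106168320, 1061683200]) (.leaf 0)
    [⟨2, 3, 16⟩, ⟨4, 5, 16⟩] = true := leavesEnvQ0.2.2.2.2.2.2.2.2.2.2.2.2.2.2.2.1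

theorem chkQ_29 : checkAlt 2 (envAlts 9 eEnvQ [10616832, 106168320, 1061683200]) (.leaf 0)
    [⟨4, 5, 32⟩, ⟨5, 6, 16⟩] = true := leavesEnvQ0.2.2.2.2.2.2.2.2.2.2.2.2.2.2.2.2.1

theorem chkQ_30 : checkAlt 2 (envAlts 9 eEnvQ [10616832, 106168320, 1061683200]) (.leaf 0)
    [⟨5, 6, 32⟩, ⟨10, 11, 32⟩] = true := leavesEnvQ0.2.2.2.2.2.2.2.2.2.2.2.2.2.2.2.2.2.1

theorem chkQ_31 : checkAlt 2 (envAlts 9 eEnvQ [10616832, 106168320, 1061683200]) (.cut 0 (.leaf 0) (.leaf 1))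
    [⟨5, 6, 32⟩, ⟨11, 12, 32⟩] = true := leavesEnvQ0.2.2.2.2.2.2.2.2.2.2.2.2.2.2.2.2.2.2.1

theorem chkQ_32 : checkAlt 2 (envAlts 9 eEnvQ [10616832, 106168320, 1061683200]) (.cut 1 (.leaf 0) (.cut 0 (.leaf 0) (.leaf 1)))
    [⟨5, 6, 32⟩, ⟨5, 6, 16⟩] = true := checkAlt_cut chkQ_30 chkQ_31

theorem chkQ_33 : checkAlt 2 (envAlts 9 eEnvQ [10616832, 106168320, 1061683200]) (.cut 0 (.leaf 0) (.cut 1 (.leaf 0) (.cut 0 (.leaf 0) (.leaf 1))))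
    [⟨2, 3, 16⟩, ⟨5, 6, 16⟩] = true := checkAlt_cut chkQ_29 chkQ_32

theorem chkQ_34 : checkAlt 2 (envAlts 9 eEnvQ [10616832, 106168320, 1061683200]) (.cut 1 (.leaf 0) (.cut 0 (.leaf 0) (.cut 1 (.leaf 0) (.cut 0 (.leaf 0) (.leaf 1)))))
    [⟨2, 3, 16⟩, ⟨2, 3, 8⟩] = true := checkAlt_cut chkQ_28 chkQ_33

theorem chkQ_35 : checkAlt 2 (envAlts 9 eEnvQ [10616832, 106168320, 1061683200]) (.leaf 3)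
    [⟨3, 4, 16⟩, ⟨2, 3, 8⟩] = true := leavesEnvQ0.2.2.2.2.2.2.2.2.2.2.2.2.2.2.2.2.2.2.2.1

theorem chkQ_36 : checkAlt 2 (envAlts 9 eEnvQ [10616832, 106168320, 1061683200]) (.cut 0 (.cut 1 (.leaf 0) (.cut 0 (.leaf 0) (.cut 1 (.leaf 0) (.cut 0 (.leaf 0) (.leaf 1))))) (.leaf 3))
    [⟨1, 2, 8⟩, ⟨2, 3, 8⟩] = true := checkAlt_cut chkQ_34 chkQ_35

theorem chkQ_37 : checkAlt 2 (envAlts 9 eEnvQ [10616832, 106168320, 1061683200]) (.leaf 0)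
    [⟨4, 5, 32⟩, ⟨6, 7, 16⟩] = true := leavesEnvQ0.2.2.2.2.2.2.2.2.2.2.2.2.2.2.2.2.2.2.2.2

theorem chkQ_38 : checkAlt 2 (envAlts 9 eEnvQ [10616832, 106168320, 1061683200]) (.cut 0 (.leaf 0) (.leaf 1))
    [⟨5, 6, 32⟩, ⟨12, 13, 32⟩] = true := leavesEnvQ1.1

theorem chkQ_39 : checkAlt 2 (envAlts 9 eEnvQ [10616832, 106168320, 1061683200]) (.leaf 1)
    [⟨5, 6, 32⟩, ⟨13, 14, 32⟩] = true := leavesEnvQ1.2.1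

theorem chkQ_40 : checkAlt 2 (envAlts 9 eEnvQ [10616832, 106168320, 1061683200]) (.cut 1 (.cut 0 (.leaf 0) (.leaf 1)) (.leaf 1))
    [⟨5, 6, 32⟩, ⟨6, 7, 16⟩] = true := checkAlt_cut chkQ_38 chkQ_39

theorem chkQ_41 : checkAlt 2 (envAlts 9 eEnvQ [10616832, 106168320, 1061683200]) (.cut 0 (.leaf 0) (.cut 1 (.cut 0 (.leaf 0) (.leaf 1)) (.leaf 1)))
    [⟨2, 3, 16⟩, ⟨6, 7, 16⟩] = true := checkAlt_cut chkQ_37 chkQ_40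

theorem chkQ_42 : checkAlt 2 (envAlts 9 eEnvQ [10616832, 106168320, 1061683200]) (.cut 0 (.leaf 0) (.leaf 1))
    [⟨2, 3, 16⟩, ⟨7, 8, 16⟩] = true := leavesEnvQ1.2.2.1

theorem chkQ_43 : checkAlt 2 (envAlts 9 eEnvQ [10616832, 106168320, 1061683200]) (.cut 1 (.cut 0 (.leaf 0) (.cut 1 (.cut 0 (.leaf 0) (.leaf 1)) (.leaf 1))) (.cut 0 (.leaf 0) (.leaf 1)))
    [⟨2, 3, 16⟩, ⟨3, 4, 8⟩] = true := checkAlt_cut chkQ_41 chkQ_42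

theorem chkQ_44 : checkAlt 2 (envAlts 9 eEnvQ [10616832, 106168320, 1061683200]) (.leaf 1)
    [⟨3, 4, 16⟩, ⟨3, 4, 8⟩] = true := leavesEnvQ1.2.2.2.1

theorem chkQ_45 : checkAlt 2 (envAlts 9 eEnvQ [10616832, 106168320, 1061683200]) (.cut 0 (.cut 1 (.cut 0 (.leaf 0) (.cut 1 (.cut 0 (.leaf 0) (.leaf 1)) (.leaf 1))) (.cut 0 (.leaf 0) (.leaf 1))) (.leaf 1))
    [⟨1, 2, 8⟩, ⟨3, 4, 8⟩] = true := checkAlt_cut chkQ_43 chkQ_44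

theorem chkQ_46 : checkAlt 2 (envAlts 9 eEnvQ [10616832, 106168320, 1061683200]) (.cut 1 (.cut 0 (.cut 1 (.leaf 0) (.cut 0 (.leaf 0) (.cut 1 (.leaf 0) (.cut 0 (.leaf 0) (.leaf 1))))) (.leaf 3)) (.cut 0 (.cut 1 (.cut 0 (.leaf 0) (.cut 1 (.cut 0 (.leaf 0) (.leaf 1)) (.leaf 1))) (.cut 0 (.leaf 0) (.leaf 1))) (.leaf 1)))
    [⟨1, 2, 8⟩, ⟨1, 2, 4⟩] = true := checkAlt_cut chkQ_36 chkQ_45

theorem chkQ_47 : checkAlt 2 (envAlts 9 eEnvQ [10616832, 106168320, 1061683200]) (.cut 0 (.leaf 0) (.cut 1 (.cut 0 (.cut 1 (.leaf 0) (.cut 0 (.leaf 0) (.cut 1 (.leaf 0) (.cut 0 (.leaf 0) (.leaf 1))))) (.leaf 3)) (.cut 0 (.cut 1 (.cut 0 (.leaf 0) (.cut 1 (.cut 0 (.leaf 0) (.leaf 1)) (.leaf 1))) (.cut 0 (.leaf 0) (.leaf 1))) (.leaf 1))))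
    [⟨0, 1, 4⟩, ⟨1, 2, 4⟩] = true := checkAlt_cut chkQ_27 chkQ_46

theorem chkQ_48 : checkAlt 2 (envAlts 9 eEnvQ [10616832, 106168320, 1061683200]) (.cut 1 (.cut 0 (.leaf 0) (.cut 1 (.cut 0 (.leaf 0) (.cut 1 (.leaf 0) (.cut 0 (.leaf 0) (.cut 1 (.leaf 0) (.cut 0 (.leaf 0) (.cut 1 (.leaf 0) (.cut 0 (.leaf 0) (.leaf 2)))))))) (.cut 0 (.leaf 0) (.cut 1 (.cut 0 (.leaf 0) (.cut 1 (.cut 0 (.leaf 0) (.leaf 2)) (.leaf 3))) (.cut 0 (.cut 1 (.leaf 0) (.leaf 2)) (.leaf 1)))))) (.cut 0 (.leaf 0) (.cut 1 (.cut 0 (.cut 1 (.leaf 0) (.cut 0 (.leaf 0) (.cut 1 (.leaf 0) (.cut 0 (.leaf 0) (.leaf 1))))) (.leaf 3)) (.cut 0 (.cut 1 (.cut 0 (.leaf 0) (.cut 1 (.cut 0 (.leaf 0) (.leaf 1)) (.leaf 1))) (.cut 0 (.leaf 0) (.leaf 1))) (.leaf 1)))))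
    [⟨0, 1, 4⟩, ⟨0, 1, 2⟩] = true := checkAlt_cut chkQ_26 chkQ_47

theorem chkQ_49 : checkAlt 2 (envAlts 9 eEnvQ [10616832, 106168320, 1061683200]) (.leaf 0)
    [⟨4, 5, 16⟩, ⟨0, 1, 16⟩] = true := leavesEnvQ1.2.2.2.2.1

theorem chkQ_50 : checkAlt 2 (envAlts 9 eEnvQ [10616832, 106168320, 1061683200]) (.leaf 0)
    [⟨16, 17, 64⟩, ⟨4, 5, 64⟩] = true := leavesEnvQ1.2.2.2.2.2.1

theorem chkQ_51 : checkAlt 2 (envAlts 9 eEnvQ [10616832, 106168320, 1061683200]) (.leaf 0)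
    [⟨32, 33, 128⟩, ⟨5, 6, 64⟩] = true := leavesEnvQ1.2.2.2.2.2.2.1

theorem chkQ_52 : checkAlt 2 (envAlts 9 eEnvQ [10616832, 106168320, 1061683200]) (.leaf 0)
    [⟨66, 67, 256⟩, ⟨10, 11, 128⟩] = true := leavesEnvQ1.2.2.2.2.2.2.2.1

theorem chkQ_53 : checkAlt 2 (envAlts 9 eEnvQ [10616832, 106168320, 1061683200]) (.cut 1 (.leaf 0) (.leaf 2))
    [⟨67, 68, 256⟩, ⟨10, 11, 128⟩] = true := leavesEnvQ1.2.2.2.2.2.2.2.2.1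

theorem chkQ_54 : checkAlt 2 (envAlts 9 eEnvQ [10616832, 106168320, 1061683200]) (.cut 0 (.leaf 0) (.cut 1 (.leaf 0) (.leaf 2)))
    [⟨33, 34, 128⟩, ⟨10, 11, 128⟩] = true := checkAlt_cut chkQ_52 chkQ_53

theorem chkQ_55 : checkAlt 2 (envAlts 9 eEnvQ [10616832, 106168320, 1061683200]) (.cut 0 (.leaf 0) (.leaf 2))
    [⟨66, 67, 256⟩, ⟨22, 23, 256⟩] = true := leavesEnvQ1.2.2.2.2.2.2.2.2.2.1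

theorem chkQ_56 : checkAlt 2 (envAlts 9 eEnvQ [10616832, 106168320, 1061683200]) (.leaf 1)
    [⟨66, 67, 256⟩, ⟨23, 24, 256⟩] = true := leavesEnvQ1.2.2.2.2.2.2.2.2.2.2.1

theorem chkQ_57 : checkAlt 2 (envAlts 9 eEnvQ [10616832, 106168320, 1061683200]) (.cut 1 (.cut 0 (.leaf 0) (.leaf 2)) (.leaf 1))
    [⟨66, 67, 256⟩, ⟨11, 12, 128⟩] = true := checkAlt_cut chkQ_55 chkQ_56

theorem chkQ_58 : checkAlt 2 (envAlts 9 eEnvQ [10616832, 106168320, 1061683200]) (.leaf 1)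
    [⟨67, 68, 256⟩, ⟨11, 12, 128⟩] = true := leavesEnvQ1.2.2.2.2.2.2.2.2.2.2.2.1

theorem chkQ_59 : checkAlt 2 (envAlts 9 eEnvQ [10616832, 106168320, 1061683200]) (.cut 0 (.cut 1 (.cut 0 (.leaf 0) (.leaf 2)) (.leaf 1)) (.leaf 1))
    [⟨33, 34, 128⟩, ⟨11, 12, 128⟩] = true := checkAlt_cut chkQ_57 chkQ_58

theorem chkQ_60 : checkAlt 2 (envAlts 9 eEnvQ [10616832, 106168320, 1061683200]) (.cut 1 (.cut 0 (.leaf 0) (.cut 1 (.leaf 0) (.leaf 2))) (.cut 0 (.cut 1 (.cut 0 (.leaf 0) (.leaf 2)) (.leaf 1)) (.leaf 1)))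
    [⟨33, 34, 128⟩, ⟨5, 6, 64⟩] = true := checkAlt_cut chkQ_54 chkQ_59

theorem chkQ_61 : checkAlt 2 (envAlts 9 eEnvQ [10616832, 106168320, 1061683200]) (.cut 0 (.leaf 0) (.cut 1 (.cut 0 (.leaf 0) (.cut 1 (.leaf 0) (.leaf 2))) (.cut 0 (.cut 1 (.cut 0 (.leaf 0) (.leaf 2)) (.leaf 1)) (.leaf 1))))
    [⟨16, 17, 64⟩, ⟨5, 6, 64⟩] = true := checkAlt_cut chkQ_51 chkQ_60

theorem chkQ_62 : checkAlt 2 (envAlts 9 eEnvQ [10616832, 106168320, 1061683200]) (.cut 1 (.leaf 0) (.cut 0 (.leaf 0) (.cut 1 (.cut 0 (.leaf 0) (.cut 1 (.leaf 0) (.leaf 2))) (.cut 0 (.cut 1 (.cut 0 (.leaf 0) (.leaf 2)) (.leaf 1)) (.leaf 1)))))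
    [⟨16, 17, 64⟩, ⟨2, 3, 32⟩] = true := checkAlt_cut chkQ_50 chkQ_61

theorem chkQ_63 : checkAlt 2 (envAlts 9 eEnvQ [10616832, 106168320, 1061683200]) (.cut 0 (.leaf 0) (.leaf 2))
    [⟨17, 18, 64⟩, ⟨4, 5, 64⟩] = true := leavesEnvQ1.2.2.2.2.2.2.2.2.2.2.2.2.1

theorem chkQ_64 : checkAlt 2 (envAlts 9 eEnvQ [10616832, 106168320, 1061683200]) (.leaf 2)
    [⟨17, 18, 64⟩, ⟨5, 6, 64⟩] = true := leavesEnvQ1.2.2.2.2.2.2.2.2.2.2.2.2.2.1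

theorem chkQ_65 : checkAlt 2 (envAlts 9 eEnvQ [10616832, 106168320, 1061683200]) (.cut 1 (.cut 0 (.leaf 0) (.leaf 2)) (.leaf 2))
    [⟨17, 18, 64⟩, ⟨2, 3, 32⟩] = true := checkAlt_cut chkQ_63 chkQ_64

theorem chkQ_66 : checkAlt 2 (envAlts 9 eEnvQ [10616832, 106168320, 1061683200]) (.cut 0 (.cut 1 (.leaf 0) (.cut 0 (.leaf 0) (.cut 1 (.cut 0 (.leaf 0) (.cut 1 (.leaf 0) (.leaf 2))) (.cut 0 (.cut 1 (.cut 0 (.leaf 0) (.leaf 2)) (.leaf 1)) (.leaf 1))))) (.cut 1 (.cut 0 (.leaf 0) (.leaf 2)) (.leaf 2)))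
    [⟨8, 9, 32⟩, ⟨2, 3, 32⟩] = true := checkAlt_cut chkQ_62 chkQ_65

theorem chkQ_67 : checkAlt 2 (envAlts 9 eEnvQ [10616832, 106168320, 1061683200]) (.cut 1 (.leaf 0) (.leaf 2))
    [⟨64, 65, 256⟩, ⟨12, 13, 128⟩] = true := leavesEnvQ1.2.2.2.2.2.2.2.2.2.2.2.2.2.2.1

theorem chkQ_68 : checkAlt 2 (envAlts 9 eEnvQ [10616832, 106168320, 1061683200]) (.leaf 2)
    [⟨65, 66, 256⟩, ⟨12, 13, 128⟩] = true := leavesEnvQ1.2.2.2.2.2.2.2.2.2.2.2.2.2.2.2.1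

theorem chkQ_69 : checkAlt 2 (envAlts 9 eEnvQ [10616832, 106168320, 1061683200]) (.cut 0 (.cut 1 (.leaf 0) (.leaf 2)) (.leaf 2))
    [⟨32, 33, 128⟩, ⟨12, 13, 128⟩] = true := checkAlt_cut chkQ_67 chkQ_68

theorem chkQ_70 : checkAlt 2 (envAlts 9 eEnvQ [10616832, 106168320, 1061683200]) (.leaf 1)
    [⟨32, 33, 128⟩, ⟨13, 14, 128⟩] = true := leavesEnvQ1.2.2.2.2.2.2.2.2.2.2.2.2.2.2.2.2.1

theorem chkQ_71 : checkAlt 2 (envAlts 9 eEnvQ [10616832, 106168320, 1061683200]) (.cut 1 (.cut 0 (.cut 1 (.leaf 0) (.leaf 2)) (.leaf 2)) (.leaf 1))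
    [⟨32, 33, 128⟩, ⟨6, 7, 64⟩] = true := checkAlt_cut chkQ_69 chkQ_70

theorem chkQ_72 : checkAlt 2 (envAlts 9 eEnvQ [10616832, 106168320, 1061683200]) (.leaf 1)
    [⟨33, 34, 128⟩, ⟨6, 7, 64⟩] = true := leavesEnvQ1.2.2.2.2.2.2.2.2.2.2.2.2.2.2.2.2.2.1

theorem chkQ_73 : checkAlt 2 (envAlts 9 eEnvQ [10616832, 106168320, 1061683200]) (.cut 0 (.cut 1 (.cut 0 (.cut 1 (.leaf 0) (.leaf 2)) (.leaf 2)) (.leaf 1)) (.leaf 1))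
    [⟨16, 17, 64⟩, ⟨6, 7, 64⟩] = true := checkAlt_cut chkQ_71 chkQ_72

theorem chkQ_74 : checkAlt 2 (envAlts 9 eEnvQ [10616832, 106168320, 1061683200]) (.leaf 1)
    [⟨16, 17, 64⟩, ⟨7, 8, 64⟩] = true := leavesEnvQ1.2.2.2.2.2.2.2.2.2.2.2.2.2.2.2.2.2.2.1

theorem chkQ_75 : checkAlt 2 (envAlts 9 eEnvQ [10616832, 106168320, 1061683200]) (.cut 1 (.cut 0 (.cut 1 (.cut 0 (.cut 1 (.leaf 0) (.leaf 2)) (.leaf 2)) (.leaf 1)) (.leaf 1)) (.leaf 1))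
    [⟨16, 17, 64⟩, ⟨3, 4, 32⟩] = true := checkAlt_cut chkQ_73 chkQ_74

theorem chkQ_76 : checkAlt 2 (envAlts 9 eEnvQ [10616832, 106168320, 1061683200]) (.leaf 1)
    [⟨17, 18, 64⟩, ⟨3, 4, 32⟩] = true := leavesEnvQ1.2.2.2.2.2.2.2.2.2.2.2.2.2.2.2.2.2.2.2.1

theorem chkQ_77 : checkAlt 2 (envAlts 9 eEnvQ [10616832, 106168320, 1061683200]) (.cut 0 (.cut 1 (.cut 0 (.cut 1 (.cut 0 (.cut 1 (.leaf 0) (.leaf 2)) (.leaf 2)) (.leaf 1)) (.leaf 1)) (.leaf 1)) (.leaf 1))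
    [⟨8, 9, 32⟩, ⟨3, 4, 32⟩] = true := checkAlt_cut chkQ_75 chkQ_76

theorem chkQ_78 : checkAlt 2 (envAlts 9 eEnvQ [10616832, 106168320, 1061683200]) (.cut 1 (.cut 0 (.cut 1 (.leaf 0) (.cut 0 (.leaf 0) (.cut 1 (.cut 0 (.leaf 0) (.cut 1 (.leaf 0) (.leaf 2))) (.cut 0 (.cut 1 (.cut 0 (.leaf 0) (.leaf 2)) (.leaf 1)) (.leaf 1))))) (.cut 1 (.cut 0 (.leaf 0) (.leaf 2)) (.leaf 2))) (.cut 0 (.cut 1 (.cut 0 (.cut 1 (.cut 0 (.cut 1 (.leaf 0) (.leaf 2)) (.leaf 2)) (.leaf 1)) (.leaf 1)) (.leaf 1)) (.leaf 1)))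
    [⟨8, 9, 32⟩, ⟨1, 2, 16⟩] = true := checkAlt_cut chkQ_66 chkQ_77

theorem chkQ_79 : checkAlt 2 (envAlts 9 eEnvQ [10616832, 106168320, 1061683200]) (.leaf 3)
    [⟨9, 10, 32⟩, ⟨1, 2, 16⟩] = true := leavesEnvQ1.2.2.2.2.2.2.2.2.2.2.2.2.2.2.2.2.2.2.2.2

theorem chkQ_80 : checkAlt 2 (envAlts 9 eEnvQ [10616832, 106168320, 1061683200]) (.cut 0 (.cut 1 (.cut 0 (.cut 1 (.leaf 0) (.cut 0 (.leaf 0) (.cut 1 (.cut 0 (.leaf 0) (.cut 1 (.leaf 0) (.leaf 2))) (.cut 0 (.cut 1 (.cut 0 (.leaf 0) (.leaf 2)) (.leaf 1)) (.leaf 1))))) (.cut 1 (.cut 0 (.leaf 0) (.leaf 2)) (.leaf 2))) (.cut 0 (.cut 1 (.cut 0 (.cut 1 (.cut 0 (.cut 1 (.leaf 0) (.leaf 2)) (.leaf 2)) (.leaf 1)) (.leaf 1)) (.leaf 1)) (.leaf 1))) (.leaf 3))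
    [⟨4, 5, 16⟩, ⟨1, 2, 16⟩] = true := checkAlt_cut chkQ_78 chkQ_79

theorem chkQ_81 : checkAlt 2 (envAlts 9 eEnvQ [10616832, 106168320, 1061683200]) (.cut 1 (.leaf 0) (.cut 0 (.cut 1 (.cut 0 (.cut 1 (.leaf 0) (.cut 0 (.leaf 0) (.cut 1 (.cut 0 (.leaf 0) (.cut 1 (.leaf 0) (.leaf 2))) (.cut 0 (.cut 1 (.cut 0 (.leaf 0) (.leaf 2)) (.leaf 1)) (.leaf 1))))) (.cut 1 (.cut 0 (.leaf 0) (.leaf 2)) (.leaf 2))) (.cut 0 (.cut 1 (.cut 0 (.cut 1 (.cut 0 (.cut 1 (.leaf 0) (.leaf 2)) (.leaf 2)) (.leaf 1)) (.leaf 1)) (.leaf 1)) (.leaf 1))) (.leaf 3)))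
    [⟨4, 5, 16⟩, ⟨0, 1, 8⟩] = true := checkAlt_cut chkQ_49 chkQ_80

theorem chkQ_82 : checkAlt 2 (envAlts 9 eEnvQ [10616832, 106168320, 1061683200]) (.leaf 2)
    [⟨10, 11, 32⟩, ⟨0, 1, 16⟩] = true := leavesEnvQ2.1

theorem chkQ_83 : checkAlt 2 (envAlts 9 eEnvQ [10616832, 106168320, 1061683200]) (.cut 1 (.leaf 0) (.leaf 1))
    [⟨11, 12, 32⟩, ⟨0, 1, 16⟩] = true := leavesEnvQ2.2.1

theorem chkQ_84 : checkAlt 2 (envAlts 9 eEnvQ [10616832, 106168320, 1061683200]) (.cut 0 (.leaf 2) (.cut 1 (.leaf 0) (.leaf 1)))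
    [⟨5, 6, 16⟩, ⟨0, 1, 16⟩] = true := checkAlt_cut chkQ_82 chkQ_83

theorem chkQ_85 : checkAlt 2 (envAlts 9 eEnvQ [10616832, 106168320, 1061683200]) (.leaf 1)
    [⟨5, 6, 16⟩, ⟨1, 2, 16⟩] = true := leavesEnvQ2.2.2.1

theorem chkQ_86 : checkAlt 2 (envAlts 9 eEnvQ [10616832, 106168320, 1061683200]) (.cut 1 (.cut 0 (.leaf 2) (.cut 1 (.leaf 0) (.leaf 1))) (.leaf 1))
    [⟨5, 6, 16⟩, ⟨0, 1, 8⟩] = true := checkAlt_cut chkQ_84 chkQ_85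

theorem chkQ_87 : checkAlt 2 (envAlts 9 eEnvQ [10616832, 106168320, 1061683200]) (.cut 0 (.cut 1 (.leaf 0) (.cut 0 (.cut 1 (.cut 0 (.cut 1 (.leaf 0) (.cut 0 (.leaf 0) (.cut 1 (.cut 0 (.leaf 0) (.cut 1 (.leaf 0) (.leaf 2))) (.cut 0 (.cut 1 (.cut 0 (.leaf 0) (.leaf 2)) (.leaf 1)) (.leaf 1))))) (.cut 1 (.cut 0 (.leaf 0) (.leaf 2)) (.leaf 2))) (.cut 0 (.cut 1 (.cut 0 (.cut 1 (.cut 0 (.cut 1 (.leaf 0) (.leaf 2)) (.leaf 2)) (.leaf 1)) (.leaf 1)) (.leaf 1)) (.leaf 1))) (.leaf 3))) (.cut 1 (.cut 0 (.leaf 2) (.cut 1 (.leaf 0) (.leaf 1))) (.leaf 1)))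
    [⟨2, 3, 8⟩, ⟨0, 1, 8⟩] = true := checkAlt_cut chkQ_81 chkQ_86

theorem chkQ_88 : checkAlt 2 (envAlts 9 eEnvQ [10616832, 106168320, 1061683200]) (.leaf 1)
    [⟨2, 3, 8⟩, ⟨1, 2, 8⟩] = true := leavesEnvQ2.2.2.2.1

theorem chkQ_89 : checkAlt 2 (envAlts 9 eEnvQ [10616832, 106168320, 1061683200]) (.cut 1 (.cut 0 (.cut 1 (.leaf 0) (.cut 0 (.cut 1 (.cut 0 (.cut 1 (.leaf 0) (.cut 0 (.leaf 0) (.cut 1 (.cut 0 (.leaf 0) (.cut 1 (.leaf 0) (.leaf 2))) (.cut 0 (.cut 1 (.cut 0 (.leaf 0) (.leaf 2)) (.leaf 1)) (.leaf 1))))) (.cut 1 (.cut 0 (.leaf 0) (.leaf 2)) (.leaf 2))) (.cut 0 (.cut 1 (.cut 0 (.cut 1 (.cut 0 (.cut 1 (.leaf 0) (.leaf 2)) (.leaf 2)) (.leaf 1)) (.leaf 1)) (.leaf 1)) (.leaf 1))) (.leaf 3))) (.cut 1 (.cut 0 (.leaf 2) (.cut 1 (.leaf 0) (.leaf 1))) (.leaf 1))) (.leaf 1))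
    [⟨2, 3, 8⟩, ⟨0, 1, 4⟩] = true := checkAlt_cut chkQ_87 chkQ_88

theorem chkQ_90 : checkAlt 2 (envAlts 9 eEnvQ [10616832, 106168320, 1061683200]) (.leaf 3)
    [⟨12, 13, 32⟩, ⟨0, 1, 16⟩] = true := leavesEnvQ2.2.2.2.2.1

theorem chkQ_91 : checkAlt 2 (envAlts 9 eEnvQ [10616832, 106168320, 1061683200]) (.leaf 3)
    [⟨26, 27, 64⟩, ⟨0, 1, 32⟩] = true := leavesEnvQ2.2.2.2.2.2.1

theorem chkQ_92 : checkAlt 2 (envAlts 9 eEnvQ [10616832, 106168320, 1061683200]) (.cut 0 (.leaf 0) (.leaf 1))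
    [⟨108, 109, 256⟩, ⟨0, 1, 256⟩] = true := leavesEnvQ2.2.2.2.2.2.2.1

theorem chkQ_93 : checkAlt 2 (envAlts 9 eEnvQ [10616832, 106168320, 1061683200]) (.leaf 1)
    [⟨108, 109, 256⟩, ⟨1, 2, 256⟩] = true := leavesEnvQ2.2.2.2.2.2.2.2.1

theorem chkQ_94 : checkAlt 2 (envAlts 9 eEnvQ [10616832, 106168320, 1061683200]) (.cut 1 (.cut 0 (.leaf 0) (.leaf 1)) (.leaf 1))
    [⟨108, 109, 256⟩, ⟨0, 1, 128⟩] = true := checkAlt_cut chkQ_92 chkQ_93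

theorem chkQ_95 : checkAlt 2 (envAlts 9 eEnvQ [10616832, 106168320, 1061683200]) (.leaf 1)
    [⟨109, 110, 256⟩, ⟨0, 1, 128⟩] = true := leavesEnvQ2.2.2.2.2.2.2.2.2.1

theorem chkQ_96 : checkAlt 2 (envAlts 9 eEnvQ [10616832, 106168320, 1061683200]) (.cut 0 (.cut 1 (.cut 0 (.leaf 0) (.leaf 1)) (.leaf 1)) (.leaf 1))
    [⟨54, 55, 128⟩, ⟨0, 1, 128⟩] = true := checkAlt_cut chkQ_94 chkQ_95

theorem chkQ_97 : checkAlt 2 (envAlts 9 eEnvQ [10616832, 106168320, 1061683200]) (.leaf 1)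
    [⟨54, 55, 128⟩, ⟨1, 2, 128⟩] = true := leavesEnvQ2.2.2.2.2.2.2.2.2.2.1

theorem chkQ_98 : checkAlt 2 (envAlts 9 eEnvQ [10616832, 106168320, 1061683200]) (.cut 1 (.cut 0 (.cut 1 (.cut 0 (.leaf 0) (.leaf 1)) (.leaf 1)) (.leaf 1)) (.leaf 1))
    [⟨54, 55, 128⟩, ⟨0, 1, 64⟩] = true := checkAlt_cut chkQ_96 chkQ_97

theorem chkQ_99 : checkAlt 2 (envAlts 9 eEnvQ [10616832, 106168320, 1061683200]) (.leaf 1)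
    [⟨55, 56, 128⟩, ⟨0, 1, 64⟩] = true := leavesEnvQ2.2.2.2.2.2.2.2.2.2.2.1

theorem chkQ_100 : checkAlt 2 (envAlts 9 eEnvQ [10616832, 106168320, 1061683200]) (.cut 0 (.cut 1 (.cut 0 (.cut 1 (.cut 0 (.leaf 0) (.leaf 1)) (.leaf 1)) (.leaf 1)) (.leaf 1)) (.leaf 1))
    [⟨27, 28, 64⟩, ⟨0, 1, 64⟩] = true := checkAlt_cut chkQ_98 chkQ_99

theorem chkQ_101 : checkAlt 2 (envAlts 9 eEnvQ [10616832, 106168320, 1061683200]) (.leaf 1)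
    [⟨27, 28, 64⟩, ⟨1, 2, 64⟩] = true := leavesEnvQ2.2.2.2.2.2.2.2.2.2.2.2.1

theorem chkQ_102 : checkAlt 2 (envAlts 9 eEnvQ [10616832, 106168320, 1061683200]) (.cut 1 (.cut 0 (.cut 1 (.cut 0 (.cut 1 (.cut 0 (.leaf 0) (.leaf 1)) (.leaf 1)) (.leaf 1)) (.leaf 1)) (.leaf 1)) (.leaf 1))
    [⟨27, 28, 64⟩, ⟨0, 1, 32⟩] = true := checkAlt_cut chkQ_100 chkQ_101

theorem chkQ_103 : checkAlt 2 (envAlts 9 eEnvQ [10616832, 106168320, 1061683200]) (.cut 0 (.leaf 3) (.cut 1 (.cut 0 (.cut 1 (.cut 0 (.cut 1 (.cut 0 (.leaf 0) (.leaf 1)) (.leaf 1)) (.leaf 1)) (.leaf 1)) (.leaf 1)) (.leaf 1)))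
    [⟨13, 14, 32⟩, ⟨0, 1, 32⟩] = true := checkAlt_cut chkQ_91 chkQ_102

theorem chkQ_104 : checkAlt 2 (envAlts 9 eEnvQ [10616832, 106168320, 1061683200]) (.leaf 1)
    [⟨13, 14, 32⟩, ⟨1, 2, 32⟩] = true := leavesEnvQ2.2.2.2.2.2.2.2.2.2.2.2.2.1

theorem chkQ_105 : checkAlt 2 (envAlts 9 eEnvQ [10616832, 106168320, 1061683200]) (.cut 1 (.cut 0 (.leaf 3) (.cut 1 (.cut 0 (.cut 1 (.cut 0 (.cut 1 (.cut 0 (.leaf 0) (.leaf 1)) (.leaf 1)) (.leaf 1)) (.leaf 1)) (.leaf 1)) (.leaf 1))) (.leaf 1))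
    [⟨13, 14, 32⟩, ⟨0, 1, 16⟩] = true := checkAlt_cut chkQ_103 chkQ_104

theorem chkQ_106 : checkAlt 2 (envAlts 9 eEnvQ [10616832, 106168320, 1061683200]) (.cut 0 (.leaf 3) (.cut 1 (.cut 0 (.leaf 3) (.cut 1 (.cut 0 (.cut 1 (.cut 0 (.cut 1 (.cut 0 (.leaf 0) (.leaf 1)) (.leaf 1)) (.leaf 1)) (.leaf 1)) (.leaf 1)) (.leaf 1))) (.leaf 1)))
    [⟨6, 7, 16⟩, ⟨0, 1, 16⟩] = true := checkAlt_cut chkQ_90 chkQ_105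

theorem chkQ_107 : checkAlt 2 (envAlts 9 eEnvQ [10616832, 106168320, 1061683200]) (.leaf 1)
    [⟨6, 7, 16⟩, ⟨1, 2, 16⟩] = true := leavesEnvQ2.2.2.2.2.2.2.2.2.2.2.2.2.2.1

theorem chkQ_108 : checkAlt 2 (envAlts 9 eEnvQ [10616832, 106168320, 1061683200]) (.cut 1 (.cut 0 (.leaf 3) (.cut 1 (.cut 0 (.leaf 3) (.cut 1 (.cut 0 (.cut 1 (.cut 0 (.cut 1 (.cut 0 (.leaf 0) (.leaf 1)) (.leaf 1)) (.leaf 1)) (.leaf 1)) (.leaf 1)) (.leaf 1))) (.leaf 1))) (.leaf 1))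
    [⟨6, 7, 16⟩, ⟨0, 1, 8⟩] = true := checkAlt_cut chkQ_106 chkQ_107

theorem chkQ_109 : checkAlt 2 (envAlts 9 eEnvQ [10616832, 106168320, 1061683200]) (.leaf 1)
    [⟨7, 8, 16⟩, ⟨0, 1, 8⟩] = true := leavesEnvQ2.2.2.2.2.2.2.2.2.2.2.2.2.2.2.1

theorem chkQ_110 : checkAlt 2 (envAlts 9 eEnvQ [10616832, 106168320, 1061683200]) (.cut 0 (.cut 1 (.cut 0 (.leaf 3) (.cut 1 (.cut 0 (.leaf 3) (.cut 1 (.cut 0 (.cut 1 (.cut 0 (.cut 1 (.cut 0 (.leaf 0) (.leaf 1)) (.leaf 1)) (.leaf 1)) (.leaf 1)) (.leaf 1)) (.leaf 1))) (.leaf 1))) (.leaf 1)) (.leaf 1))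
    [⟨3, 4, 8⟩, ⟨0, 1, 8⟩] = true := checkAlt_cut chkQ_108 chkQ_109

theorem chkQ_111 : checkAlt 2 (envAlts 9 eEnvQ [10616832, 106168320, 1061683200]) (.leaf 1)
    [⟨3, 4, 8⟩, ⟨1, 2, 8⟩] = true := leavesEnvQ2.2.2.2.2.2.2.2.2.2.2.2.2.2.2.2.1

theorem chkQ_112 : checkAlt 2 (envAlts 9 eEnvQ [10616832, 106168320, 1061683200]) (.cut 1 (.cut 0 (.cut 1 (.cut 0 (.leaf 3) (.cut 1 (.cut 0 (.leaf 3) (.cut 1 (.cut 0 (.cut 1 (.cut 0 (.cut 1 (.cut 0 (.leaf 0) (.leaf 1)) (.leaf 1)) (.leaf 1)) (.leaf 1)) (.leaf 1)) (.leaf 1))) (.leaf 1))) (.leaf 1)) (.leaf 1)) (.leaf 1))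
    [⟨3, 4, 8⟩, ⟨0, 1, 4⟩] = true := checkAlt_cut chkQ_110 chkQ_111

theorem chkQ_113 : checkAlt 2 (envAlts 9 eEnvQ [10616832, 106168320, 1061683200]) (.cut 0 (.cut 1 (.cut 0 (.cut 1 (.leaf 0) (.cut 0 (.cut 1 (.cut 0 (.cut 1 (.leaf 0) (.cut 0 (.leaf 0) (.cut 1 (.cut 0 (.leaf 0) (.cut 1 (.leaf 0) (.leaf 2))) (.cut 0 (.cut 1 (.cut 0 (.leaf 0) (.leaf 2)) (.leaf 1)) (.leaf 1))))) (.cut 1 (.cut 0 (.leaf 0) (.leaf 2)) (.leaf 2))) (.cut 0 (.cut 1 (.cut 0 (.cut 1 (.cut 0 (.cut 1 (.leaf 0) (.leaf 2)) (.leaf 2)) (.leaf 1)) (.leaf 1)) (.leaf 1)) (.leaf 1))) (.leaf 3))) (.cut 1 (.cut 0 (.leaf 2) (.cut 1 (.leaf 0) (.leaf 1))) (.leaf 1))) (.leaf 1)) (.cut 1 (.cut 0 (.cut 1 (.cut 0 (.leaf 3) (.cut 1 (.cut 0 (.leaf 3) (.cut 1 (.cut 0 (.cut 1 (.cut 0 (.cut 1 (.cut 0 (.leaf 0) (.leaf 1))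 (.leaf 1)) (.leaf 1)) (.leaf 1)) (.leaf 1)) (.leaf 1))) (.leaf 1))) (.leaf 1)) (.leaf 1)) (.leaf 1)))
    [⟨1, 2, 4⟩, ⟨0, 1, 4⟩] = true := checkAlt_cut chkQ_89 chkQ_112

theorem chkQ_114 : checkAlt 2 (envAlts 9 eEnvQ [10616832, 106168320, 1061683200]) (.leaf 1)
    [⟨1, 2, 4⟩, ⟨1, 2, 4⟩] = true := leavesEnvQ2.2.2.2.2.2.2.2.2.2.2.2.2.2.2.2.2.1

theorem chkQ_115 : checkAlt 2 (envAlts 9 eEnvQ [10616832, 106168320, 1061683200]) (.cut 1 (.cut 0 (.cut 1 (.cut 0 (.cut 1 (.leaf 0) (.cut 0 (.cut 1 (.cut 0 (.cut 1 (.leaf 0) (.cut 0 (.leaf 0) (.cut 1 (.cut 0 (.leaf 0) (.cut 1 (.leaf 0) (.leaf 2))) (.cut 0 (.cut 1 (.cut 0 (.leaf 0) (.leaf 2)) (.leaf 1)) (.leaf 1))))) (.cut 1 (.cut 0 (.leaf 0) (.leaf 2)) (.leaf 2))) (.cut 0 (.cut 1 (.cut 0 (.cut 1 (.cut 0 (.cut 1 (.leaf 0) (.leaf 2))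 (.leaf 2)) (.leaf 1)) (.leaf 1)) (.leaf 1)) (.leaf 1))) (.leaf 3))) (.cut 1 (.cut 0 (.leaf 2) (.cut 1 (.leaf 0) (.leaf 1))) (.leaf 1))) (.leaf 1)) (.cut 1 (.cut 0 (.cut 1 (.cut 0 (.leaf 3) (.cut 1 (.cut 0 (.leaf 3) (.cut 1 (.cut 0 (.cut 1 (.cut 0 (.cut 1 (.cut 0 (.leaf 0) (.leaf 1)) (.leaf 1)) (.leaf 1)) (.leaf 1)) (.leaf 1)) (.leaf 1))) (.leaf 1))) (.leaf 1)) (.leaf 1)) (.leaf 1))) (.leaf 1))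
    [⟨1, 2, 4⟩, ⟨0, 1, 2⟩] = true := checkAlt_cut chkQ_113 chkQ_114

theorem chkQ_116 : checkAlt 2 (envAlts 9 eEnvQ [10616832, 106168320, 1061683200]) (.cut 0 (.cut 1 (.cut 0 (.leaf 0) (.cut 1 (.cut 0 (.leaf 0) (.cut 1 (.leaf 0) (.cut 0 (.leaf 0) (.cut 1 (.leaf 0) (.cut 0 (.leaf 0) (.cut 1 (.leaf 0) (.cut 0 (.leaf 0) (.leaf 2)))))))) (.cut 0 (.leaf 0) (.cut 1 (.cut 0 (.leaf 0) (.cut 1 (.cut 0 (.leaf 0) (.leaf 2)) (.leaf 3))) (.cut 0 (.cut 1 (.leaf 0) (.leaf 2)) (.leaf 1)))))) (.cut 0 (.leaf 0) (.cut 1 (.cut 0 (.cut 1 (.leaf 0) (.cut 0 (.leaf 0) (.cut 1 (.leaf 0) (.cut 0 (.leaf 0) (.leaf 1))))) (.leaf 3)) (.cut 0 (.cut 1 (.cut 0 (.leaf 0) (.cut 1 (.cut 0 (.leaf 0) (.leaf 1)) (.leaf 1))) (.cut 0 (.leaf 0) (.leaf 1))) (.leaf 1))))) (.cut 1 (.cut 0 (.cut 1 (.cut 0 (.cut 1 (.leaf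 0) (.cut 0 (.cut 1 (.cut 0 (.cut 1 (.leaf 0) (.cut 0 (.leaf 0) (.cut 1 (.cut 0 (.leaf 0) (.cut 1 (.leaf 0) (.leaf 2))) (.cut 0 (.cut 1 (.cut 0 (.leaf 0) (.leaf 2)) (.leaf 1)) (.leaf 1))))) (.cut 1 (.cut 0 (.leaf 0) (.leaf 2)) (.leaf 2))) (.cut 0 (.cut 1 (.cut 0 (.cut 1 (.cut 0 (.cut 1 (.leaf 0) (.leaf 2)) (.leaf 2)) (.leaf 1)) (.leaf 1)) (.leaf 1)) (.leaf 1))) (.leaf 3))) (.cut 1 (.cut 0 (.leaf 2) (.cut 1 (.leaf 0) (.leaf 1))) (.leaf 1))) (.leaf 1)) (.cut 1 (.cut 0 (.cut 1 (.cut 0 (.leaf 3) (.cut 1 (.cut 0 (.leaf 3) (.cut 1 (.cut 0 (.cut 1 (.cut 0 (.cut 1 (.cut 0 (.leaf 0) (.leaf 1)) (.leaf 1)) (.leaf 1)) (.leaf 1)) (.leaf 1)) (.leaf 1))) (.leaf 1))) (.leaf 1)) (.leaf 1)) (.leaf 1))) (.leaf 1)))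
    [⟨0, 1, 2⟩, ⟨0, 1, 2⟩] = true := checkAlt_cut chkQ_48 chkQ_115

theorem chkQ_117 : checkAlt 2 (envAlts 9 eEnvQ [10616832, 106168320, 1061683200]) (.leaf 0)
    [⟨0, 1, 8⟩, ⟨2, 3, 4⟩] = true := leavesEnvQ2.2.2.2.2.2.2.2.2.2.2.2.2.2.2.2.2.2.1

theorem chkQ_118 : checkAlt 2 (envAlts 9 eEnvQ [10616832, 106168320, 1061683200]) (.leaf 0)
    [⟨8, 9, 64⟩, ⟨16, 17, 32⟩] = true := leavesEnvQ2.2.2.2.2.2.2.2.2.2.2.2.2.2.2.2.2.2.2.1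

theorem chkQ_119 : checkAlt 2 (envAlts 9 eEnvQ [10616832, 106168320, 1061683200]) (.cut 0 (.leaf 0) (.leaf 1))
    [⟨9, 10, 64⟩, ⟨32, 33, 64⟩] = true := leavesEnvQ2.2.2.2.2.2.2.2.2.2.2.2.2.2.2.2.2.2.2.2.1

theorem chkQ_120 : checkAlt 2 (envAlts 9 eEnvQ [10616832, 106168320, 1061683200]) (.leaf 2)
    [⟨9, 10, 64⟩, ⟨33, 34, 64⟩] = true := leavesEnvQ2.2.2.2.2.2.2.2.2.2.2.2.2.2.2.2.2.2.2.2.2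

theorem chkQ_121 : checkAlt 2 (envAlts 9 eEnvQ [10616832, 106168320, 1061683200]) (.cut 1 (.cut 0 (.leaf 0) (.leaf 1)) (.leaf 2))
    [⟨9, 10, 64⟩, ⟨16, 17, 32⟩] = true := checkAlt_cut chkQ_119 chkQ_120

theorem chkQ_122 : checkAlt 2 (envAlts 9 eEnvQ [10616832, 106168320, 1061683200]) (.cut 0 (.leaf 0) (.cut 1 (.cut 0 (.leaf 0) (.leaf 1)) (.leaf 2)))
    [⟨4, 5, 32⟩, ⟨16, 17, 32⟩] = true := checkAlt_cut chkQ_118 chkQ_121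

theorem chkQ_123 : checkAlt 2 (envAlts 9 eEnvQ [10616832, 106168320, 1061683200]) (.cut 0 (.leaf 0) (.leaf 1))
    [⟨4, 5, 32⟩, ⟨17, 18, 32⟩] = true := leavesEnvQ3.1

theorem chkQ_124 : checkAlt 2 (envAlts 9 eEnvQ [10616832, 106168320, 1061683200]) (.cut 1 (.cut 0 (.leaf 0) (.cut 1 (.cut 0 (.leaf 0) (.leaf 1)) (.leaf 2))) (.cut 0 (.leaf 0) (.leaf 1)))
    [⟨4, 5, 32⟩, ⟨8, 9, 16⟩] = true := checkAlt_cut chkQ_122 chkQ_123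

theorem chkQ_125 : checkAlt 2 (envAlts 9 eEnvQ [10616832, 106168320, 1061683200]) (.leaf 1)
    [⟨5, 6, 32⟩, ⟨8, 9, 16⟩] = true := leavesEnvQ3.2.1

theorem chkQ_126 : checkAlt 2 (envAlts 9 eEnvQ [10616832, 106168320, 1061683200]) (.cut 0 (.cut 1 (.cut 0 (.leaf 0) (.cut 1 (.cut 0 (.leaf 0) (.leaf 1)) (.leaf 2))) (.cut 0 (.leaf 0) (.leaf 1))) (.leaf 1))
    [⟨2, 3, 16⟩, ⟨8, 9, 16⟩] = true := checkAlt_cut chkQ_124 chkQ_125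

theorem chkQ_127 : checkAlt 2 (envAlts 9 eEnvQ [10616832, 106168320, 1061683200]) (.cut 0 (.leaf 0) (.leaf 1))
    [⟨4, 5, 32⟩, ⟨18, 19, 32⟩] = true := leavesEnvQ3.2.2.1

theorem chkQ_128 : checkAlt 2 (envAlts 9 eEnvQ [10616832, 106168320, 1061683200]) (.leaf 0)
    [⟨8, 9, 64⟩, ⟨38, 39, 64⟩] = true := leavesEnvQ3.2.2.2.1

theorem chkQ_129 : checkAlt 2 (envAlts 9 eEnvQ [10616832, 106168320, 1061683200]) (.cut 0 (.leaf 0) (.leaf 1))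
    [⟨8, 9, 64⟩, ⟨39, 40, 64⟩] = true := leavesEnvQ3.2.2.2.2.1

theorem chkQ_130 : checkAlt 2 (envAlts 9 eEnvQ [10616832, 106168320, 1061683200]) (.cut 1 (.leaf 0) (.cut 0 (.leaf 0) (.leaf 1)))
    [⟨8, 9, 64⟩, ⟨19, 20, 32⟩] = true := checkAlt_cut chkQ_128 chkQ_129

theorem chkQ_131 : checkAlt 2 (envAlts 9 eEnvQ [10616832, 106168320, 1061683200]) (.leaf 1)
    [⟨9, 10, 64⟩, ⟨19, 20, 32⟩] = true := leavesEnvQ3.2.2.2.2.2.1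

theorem chkQ_132 : checkAlt 2 (envAlts 9 eEnvQ [10616832, 106168320, 1061683200]) (.cut 0 (.cut 1 (.leaf 0) (.cut 0 (.leaf 0) (.leaf 1))) (.leaf 1))
    [⟨4, 5, 32⟩, ⟨19, 20, 32⟩] = true := checkAlt_cut chkQ_130 chkQ_131

theorem chkQ_133 : checkAlt 2 (envAlts 9 eEnvQ [10616832, 106168320, 1061683200]) (.cut 1 (.cut 0 (.leaf 0) (.leaf 1)) (.cut 0 (.cut 1 (.leaf 0) (.cut 0 (.leaf 0) (.leaf 1))) (.leaf 1)))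
    [⟨4, 5, 32⟩, ⟨9, 10, 16⟩] = true := checkAlt_cut chkQ_127 chkQ_132

theorem chkQ_134 : checkAlt 2 (envAlts 9 eEnvQ [10616832, 106168320, 1061683200]) (.leaf 1)
    [⟨5, 6, 32⟩, ⟨9, 10, 16⟩] = true := leavesEnvQ3.2.2.2.2.2.2.1

theorem chkQ_135 : checkAlt 2 (envAlts 9 eEnvQ [10616832, 106168320, 1061683200]) (.cut 0 (.cut 1 (.cut 0 (.leaf 0) (.leaf 1)) (.cut 0 (.cut 1 (.leaf 0) (.cut 0 (.leaf 0) (.leaf 1))) (.leaf 1))) (.leaf 1))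
    [⟨2, 3, 16⟩, ⟨9, 10, 16⟩] = true := checkAlt_cut chkQ_133 chkQ_134

theorem chkQ_136 : checkAlt 2 (envAlts 9 eEnvQ [10616832, 106168320, 1061683200]) (.cut 1 (.cut 0 (.cut 1 (.cut 0 (.leaf 0) (.cut 1 (.cut 0 (.leaf 0) (.leaf 1)) (.leaf 2))) (.cut 0 (.leaf 0) (.leaf 1))) (.leaf 1)) (.cut 0 (.cut 1 (.cut 0 (.leaf 0) (.leaf 1)) (.cut 0 (.cut 1 (.leaf 0) (.cut 0 (.leaf 0) (.leaf 1))) (.leaf 1))) (.leaf 1)))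
    [⟨2, 3, 16⟩, ⟨4, 5, 8⟩] = true := checkAlt_cut chkQ_126 chkQ_135

theorem chkQ_137 : checkAlt 2 (envAlts 9 eEnvQ [10616832, 106168320, 1061683200]) (.leaf 1)
    [⟨3, 4, 16⟩, ⟨4, 5, 8⟩] = true := leavesEnvQ3.2.2.2.2.2.2.2.1

theorem chkQ_138 : checkAlt 2 (envAlts 9 eEnvQ [10616832, 106168320, 1061683200]) (.cut 0 (.cut 1 (.cut 0 (.cut 1 (.cut 0 (.leaf 0) (.cut 1 (.cut 0 (.leaf 0) (.leaf 1)) (.leaf 2))) (.cut 0 (.leaf 0) (.leaf 1))) (.leaf 1)) (.cut 0 (.cut 1 (.cut 0 (.leaf 0) (.leaf 1)) (.cut 0 (.cut 1 (.leaf 0) (.cut 0 (.leaf 0) (.leaf 1))) (.leaf 1))) (.leaf 1))) (.leaf 1))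
    [⟨1, 2, 8⟩, ⟨4, 5, 8⟩] = true := checkAlt_cut chkQ_136 chkQ_137

theorem chkQ_139 : checkAlt 2 (envAlts 9 eEnvQ [10616832, 106168320, 1061683200]) (.cut 0 (.leaf 0) (.leaf 1))
    [⟨8, 9, 64⟩, ⟨40, 41, 64⟩] = true := leavesEnvQ3.2.2.2.2.2.2.2.2.1

theorem chkQ_140 : checkAlt 2 (envAlts 9 eEnvQ [10616832, 106168320, 1061683200]) (.cut 0 (.leaf 0) (.leaf 1))
    [⟨8, 9, 64⟩, ⟨41, 42, 64⟩] = true := leavesEnvQ3.2.2.2.2.2.2.2.2.2.1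

theorem chkQ_141 : checkAlt 2 (envAlts 9 eEnvQ [10616832, 106168320, 1061683200]) (.cut 1 (.cut 0 (.leaf 0) (.leaf 1)) (.cut 0 (.leaf 0) (.leaf 1)))
    [⟨8, 9, 64⟩, ⟨20, 21, 32⟩] = true := checkAlt_cut chkQ_139 chkQ_140

theorem chkQ_142 : checkAlt 2 (envAlts 9 eEnvQ [10616832, 106168320, 1061683200]) (.leaf 1)
    [⟨9, 10, 64⟩, ⟨20, 21, 32⟩] = true := leavesEnvQ3.2.2.2.2.2.2.2.2.2.2.1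

theorem chkQ_143 : checkAlt 2 (envAlts 9 eEnvQ [10616832, 106168320, 1061683200]) (.cut 0 (.cut 1 (.cut 0 (.leaf 0) (.leaf 1)) (.cut 0 (.leaf 0) (.leaf 1))) (.leaf 1))
    [⟨4, 5, 32⟩, ⟨20, 21, 32⟩] = true := checkAlt_cut chkQ_141 chkQ_142

theorem chkQ_144 : checkAlt 2 (envAlts 9 eEnvQ [10616832, 106168320, 1061683200]) (.cut 0 (.leaf 0) (.leaf 1))
    [⟨8, 9, 64⟩, ⟨42, 43, 64⟩] = true := leavesEnvQ3.2.2.2.2.2.2.2.2.2.2.2.1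

theorem chkQ_145 : checkAlt 2 (envAlts 9 eEnvQ [10616832, 106168320, 1061683200]) (.cut 0 (.leaf 0) (.leaf 1))
    [⟨8, 9, 64⟩, ⟨43, 44, 64⟩] = true := leavesEnvQ3.2.2.2.2.2.2.2.2.2.2.2.2.1

theorem chkQ_146 : checkAlt 2 (envAlts 9 eEnvQ [10616832, 106168320, 1061683200]) (.cut 1 (.cut 0 (.leaf 0) (.leaf 1)) (.cut 0 (.leaf 0) (.leaf 1)))
    [⟨8, 9, 64⟩, ⟨21, 22, 32⟩] = true := checkAlt_cut chkQ_144 chkQ_145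

theorem chkQ_147 : checkAlt 2 (envAlts 9 eEnvQ [10616832, 106168320, 1061683200]) (.leaf 1)
    [⟨9, 10, 64⟩, ⟨21, 22, 32⟩] = true := leavesEnvQ3.2.2.2.2.2.2.2.2.2.2.2.2.2.1

theorem chkQ_148 : checkAlt 2 (envAlts 9 eEnvQ [10616832, 106168320, 1061683200]) (.cut 0 (.cut 1 (.cut 0 (.leaf 0) (.leaf 1)) (.cut 0 (.leaf 0) (.leaf 1))) (.leaf 1))
    [⟨4, 5, 32⟩, ⟨21, 22, 32⟩] = true := checkAlt_cut chkQ_146 chkQ_147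

theorem chkQ_149 : checkAlt 2 (envAlts 9 eEnvQ [10616832, 106168320, 1061683200]) (.cut 1 (.cut 0 (.cut 1 (.cut 0 (.leaf 0) (.leaf 1)) (.cut 0 (.leaf 0) (.leaf 1))) (.leaf 1)) (.cut 0 (.cut 1 (.cut 0 (.leaf 0) (.leaf 1)) (.cut 0 (.leaf 0) (.leaf 1))) (.leaf 1)))
    [⟨4, 5, 32⟩, ⟨10, 11, 16⟩] = true := checkAlt_cut chkQ_143 chkQ_148

theorem chkQ_150 : checkAlt 2 (envAlts 9 eEnvQ [10616832, 106168320, 1061683200]) (.leaf 1)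
    [⟨5, 6, 32⟩, ⟨10, 11, 16⟩] = true := leavesEnvQ3.2.2.2.2.2.2.2.2.2.2.2.2.2.2.1

theorem chkQ_151 : checkAlt 2 (envAlts 9 eEnvQ [10616832, 106168320, 1061683200]) (.cut 0 (.cut 1 (.cut 0 (.cut 1 (.cut 0 (.leaf 0) (.leaf 1)) (.cut 0 (.leaf 0) (.leaf 1))) (.leaf 1)) (.cut 0 (.cut 1 (.cut 0 (.leaf 0) (.leaf 1)) (.cut 0 (.leaf 0) (.leaf 1))) (.leaf 1))) (.leaf 1))
    [⟨2, 3, 16⟩, ⟨10, 11, 16⟩] = true := checkAlt_cut chkQ_149 chkQ_150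

theorem chkQ_152 : checkAlt 2 (envAlts 9 eEnvQ [10616832, 106168320, 1061683200]) (.leaf 1)
    [⟨2, 3, 16⟩, ⟨11, 12, 16⟩] = true := leavesEnvQ3.2.2.2.2.2.2.2.2.2.2.2.2.2.2.2.1

theorem chkQ_153 : checkAlt 2 (envAlts 9 eEnvQ [10616832, 106168320, 1061683200]) (.cut 1 (.cut 0 (.cut 1 (.cut 0 (.cut 1 (.cut 0 (.leaf 0) (.leaf 1)) (.cut 0 (.leaf 0) (.leaf 1))) (.leaf 1)) (.cut 0 (.cut 1 (.cut 0 (.leaf 0) (.leaf 1)) (.cut 0 (.leaf 0) (.leaf 1))) (.leaf 1))) (.leaf 1)) (.leaf 1))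
    [⟨2, 3, 16⟩, ⟨5, 6, 8⟩] = true := checkAlt_cut chkQ_151 chkQ_152

theorem chkQ_154 : checkAlt 2 (envAlts 9 eEnvQ [10616832, 106168320, 1061683200]) (.leaf 1)
    [⟨3, 4, 16⟩, ⟨5, 6, 8⟩] = true := leavesEnvQ3.2.2.2.2.2.2.2.2.2.2.2.2.2.2.2.2.1

theorem chkQ_155 : checkAlt 2 (envAlts 9 eEnvQ [10616832, 106168320, 1061683200]) (.cut 0 (.cut 1 (.cut 0 (.cut 1 (.cut 0 (.cut 1 (.cut 0 (.leaf 0) (.leaf 1)) (.cut 0 (.leaf 0) (.leaf 1))) (.leaf 1)) (.cut 0 (.cut 1 (.cut 0 (.leaf 0) (.leaf 1)) (.cut 0 (.leaf 0) (.leaf 1))) (.leaf 1))) (.leaf 1)) (.leaf 1)) (.leaf 1))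
    [⟨1, 2, 8⟩, ⟨5, 6, 8⟩] = true := checkAlt_cut chkQ_153 chkQ_154

theorem chkQ_156 : checkAlt 2 (envAlts 9 eEnvQ [10616832, 106168320, 1061683200]) (.cut 1 (.cut 0 (.cut 1 (.cut 0 (.cut 1 (.cut 0 (.leaf 0) (.cut 1 (.cut 0 (.leaf 0) (.leaf 1)) (.leaf 2))) (.cut 0 (.leaf 0) (.leaf 1))) (.leaf 1)) (.cut 0 (.cut 1 (.cut 0 (.leaf 0) (.leaf 1)) (.cut 0 (.cut 1 (.leaf 0) (.cut 0 (.leaf 0) (.leaf 1))) (.leaf 1))) (.leaf 1))) (.leaf 1)) (.cut 0 (.cut 1 (.cut 0 (.cut 1 (.cut 0 (.cut 1 (.cut 0 (.leaf 0) (.leaf 1)) (.cut 0 (.leaf 0) (.leaf 1))) (.leaf 1)) (.cut 0 (.cut 1 (.cut 0 (.leaf 0) (.leaf 1)) (.cut 0 (.leaf 0) (.leaf 1))) (.leaf 1))) (.leaf 1)) (.leaf 1)) (.leaf 1)))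
    [⟨1, 2, 8⟩, ⟨2, 3, 4⟩] = true := checkAlt_cut chkQ_138 chkQ_155

theorem chkQ_157 : checkAlt 2 (envAlts 9 eEnvQ [10616832, 106168320, 1061683200]) (.cut 0 (.leaf 0) (.cut 1 (.cut 0 (.cut 1 (.cut 0 (.cut 1 (.cut 0 (.leaf 0) (.cut 1 (.cut 0 (.leaf 0) (.leaf 1)) (.leaf 2))) (.cut 0 (.leaf 0) (.leaf 1))) (.leaf 1)) (.cut 0 (.cut 1 (.cut 0 (.leaf 0) (.leaf 1)) (.cut 0 (.cut 1 (.leaf 0) (.cut 0 (.leaf 0) (.leaf 1))) (.leaf 1))) (.leaf 1))) (.leaf 1)) (.cut 0 (.cut 1 (.cut 0 (.cut 1 (.cut 0 (.cut 1 (.cut 0 (.leaf 0) (.leaf 1)) (.cut 0 (.leaf 0) (.leaf 1))) (.leaf 1)) (.cut 0 (.cut 1 (.cut 0 (.leaf 0) (.leaf 1)) (.cut 0 (.leaf 0) (.leaf 1))) (.leaf 1))) (.leaf 1)) (.leaf 1)) (.leaf 1))))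
    [⟨0, 1, 4⟩, ⟨2, 3, 4⟩] = true := checkAlt_cut chkQ_117 chkQ_156

theorem chkQ_158 : checkAlt 2 (envAlts 9 eEnvQ [10616832, 106168320, 1061683200]) (.cut 0 (.leaf 0) (.leaf 0))
    [⟨0, 1, 8⟩, ⟨6, 7, 8⟩] = true := leavesEnvQ3.2.2.2.2.2.2.2.2.2.2.2.2.2.2.2.2.2.1

theorem chkQ_159 : checkAlt 2 (envAlts 9 eEnvQ [10616832, 106168320, 1061683200]) (.cut 0 (.leaf 0) (.leaf 0))
    [⟨0, 1, 8⟩, ⟨7, 8, 8⟩] = true := leavesEnvQ3.2.2.2.2.2.2.2.2.2.2.2.2.2.2.2.2.2.2.1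

theorem chkQ_160 : checkAlt 2 (envAlts 9 eEnvQ [10616832, 106168320, 1061683200]) (.cut 1 (.cut 0 (.leaf 0) (.leaf 0)) (.cut 0 (.leaf 0) (.leaf 0)))
    [⟨0, 1, 8⟩, ⟨3, 4, 4⟩] = true := checkAlt_cut chkQ_158 chkQ_159

theorem chkQ_161 : checkAlt 2 (envAlts 9 eEnvQ [10616832, 106168320, 1061683200]) (.leaf 0)
    [⟨1, 2, 8⟩, ⟨3, 4, 4⟩] = true := leavesEnvQ3.2.2.2.2.2.2.2.2.2.2.2.2.2.2.2.2.2.2.2.1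

theorem chkQ_162 : checkAlt 2 (envAlts 9 eEnvQ [10616832, 106168320, 1061683200]) (.cut 0 (.cut 1 (.cut 0 (.leaf 0) (.leaf 0)) (.cut 0 (.leaf 0) (.leaf 0))) (.leaf 0))
    [⟨0, 1, 4⟩, ⟨3, 4, 4⟩] = true := checkAlt_cut chkQ_160 chkQ_161

theorem chkQ_163 : checkAlt 2 (envAlts 9 eEnvQ [10616832, 106168320, 1061683200]) (.cut 1 (.cut 0 (.leaf 0) (.cut 1 (.cut 0 (.cut 1 (.cut 0 (.cut 1 (.cut 0 (.leaf 0) (.cut 1 (.cut 0 (.leaf 0) (.leaf 1)) (.leaf 2))) (.cut 0 (.leaf 0) (.leaf 1))) (.leaf 1)) (.cut 0 (.cut 1 (.cut 0 (.leaf 0) (.leaf 1)) (.cut 0 (.cut 1 (.leaf 0) (.cut 0 (.leaf 0) (.leaf 1))) (.leaf 1))) (.leaf 1))) (.leaf 1)) (.cut 0 (.cut 1 (.cut 0 (.cut 1 (.cut 0 (.cut 1 (.cut 0 (.leaf 0) (.leaf 1)) (.cut 0 (.leaf 0) (.leaf 1))) (.leaf 1)) (.cut 0 (.cut 1 (.cut 0 (.leaf 0)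 (.leaf 1)) (.cut 0 (.leaf 0) (.leaf 1))) (.leaf 1))) (.leaf 1)) (.leaf 1)) (.leaf 1)))) (.cut 0 (.cut 1 (.cut 0 (.leaf 0) (.leaf 0)) (.cut 0 (.leaf 0) (.leaf 0))) (.leaf 0)))
    [⟨0, 1, 4⟩, ⟨1, 2, 2⟩] = true := checkAlt_cut chkQ_157 chkQ_162

theorem chkQ_164 : checkAlt 2 (envAlts 9 eEnvQ [10616832, 106168320, 1061683200]) (.leaf 1)
    [⟨1, 2, 4⟩, ⟨1, 2, 2⟩] = true := leavesEnvQ3.2.2.2.2.2.2.2.2.2.2.2.2.2.2.2.2.2.2.2.2.1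

theorem chkQ_165 : checkAlt 2 (envAlts 9 eEnvQ [10616832, 106168320, 1061683200]) (.cut 0 (.cut 1 (.cut 0 (.leaf 0) (.cut 1 (.cut 0 (.cut 1 (.cut 0 (.cut 1 (.cut 0 (.leaf 0) (.cut 1 (.cut 0 (.leaf 0) (.leaf 1)) (.leaf 2))) (.cut 0 (.leaf 0) (.leaf 1))) (.leaf 1)) (.cut 0 (.cut 1 (.cut 0 (.leaf 0) (.leaf 1)) (.cut 0 (.cut 1 (.leaf 0) (.cut 0 (.leaf 0) (.leaf 1))) (.leaf 1))) (.leaf 1))) (.leaf 1)) (.cut 0 (.cut 1 (.cut 0 (.cut 1 (.cut 0 (.cut 1 (.cut 0 (.leaf 0) (.leaf 1)) (.cut 0 (.leaf 0) (.leaf 1))) (.leaf 1)) (.cut 0 (.cut 1 (.cut 0 (.leaf 0) (.leaf 1)) (.cut 0 (.leaf 0) (.leaf 1))) (.leaf 1))) (.leaf 1)) (.leaf 1)) (.leaf 1)))) (.cut 0 (.cut 1 (.cut 0 (.leaf 0) (.leaf 0)) (.cut 0 (.leaf 0) (.leaf 0))) (.leaf 0))) (.leaf 1))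
    [⟨0, 1, 2⟩, ⟨1, 2, 2⟩] = true := checkAlt_cut chkQ_163 chkQ_164

theorem chkQ_166 : checkAlt 2 (envAlts 9 eEnvQ [10616832, 106168320, 1061683200]) (.cut 1 (.cut 0 (.cut 1 (.cut 0 (.leaf 0) (.cut 1 (.cut 0 (.leaf 0) (.cut 1 (.leaf 0) (.cut 0 (.leaf 0) (.cut 1 (.leaf 0) (.cut 0 (.leaf 0) (.cut 1 (.leaf 0) (.cut 0 (.leaf 0) (.leaf 2)))))))) (.cut 0 (.leaf 0) (.cut 1 (.cut 0 (.leaf 0) (.cut 1 (.cut 0 (.leaf 0) (.leaf 2)) (.leaf 3))) (.cut 0 (.cut 1 (.leaf 0) (.leaf 2)) (.leaf 1)))))) (.cut 0 (.leaf 0) (.cut 1 (.cut 0 (.cut 1 (.leaf 0) (.cut 0 (.leaf 0) (.cut 1 (.leaf 0) (.cut 0 (.leaf 0) (.leaf 1))))) (.leaf 3)) (.cut 0 (.cut 1 (.cut 0 (.leaf 0) (.cut 1 (.cut 0 (.leaf 0) (.leaf 1)) (.leaf 1))) (.cut 0 (.leaf 0) (.leaf 1))) (.leaf 1))))) (.cut 1 (.cut 0 (.cut 1 (.cut 0 (.cut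 1 (.leaf 0) (.cut 0 (.cut 1 (.cut 0 (.cut 1 (.leaf 0) (.cut 0 (.leaf 0) (.cut 1 (.cut 0 (.leaf 0) (.cut 1 (.leaf 0) (.leaf 2))) (.cut 0 (.cut 1 (.cut 0 (.leaf 0) (.leaf 2)) (.leaf 1)) (.leaf 1))))) (.cut 1 (.cut 0 (.leaf 0) (.leaf 2)) (.leaf 2))) (.cut 0 (.cut 1 (.cut 0 (.cut 1 (.cut 0 (.cut 1 (.leaf 0) (.leaf 2)) (.leaf 2)) (.leaf 1)) (.leaf 1)) (.leaf 1)) (.leaf 1))) (.leaf 3))) (.cut 1 (.cut 0 (.leaf 2) (.cut 1 (.leaf 0) (.leaf 1))) (.leaf 1))) (.leaf 1)) (.cut 1 (.cut 0 (.cut 1 (.cut 0 (.leaf 3) (.cut 1 (.cut 0 (.leaf 3) (.cut 1 (.cut 0 (.cut 1 (.cut 0 (.cut 1 (.cut 0 (.leaf 0) (.leaf 1)) (.leaf 1)) (.leaf 1)) (.leaf 1)) (.leaf 1)) (.leaf 1))) (.leaf 1))) (.leaf 1)) (.leaf 1)) (.leaf 1))) (.leaf 1))) (.cut 0 (.cut 1 (.cut 0 (.leaf 0) (.cut 1 (.cut 0 (.cut 1 (.cut 0 (.cut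 1 (.cut 0 (.leaf 0) (.cut 1 (.cut 0 (.leaf 0) (.leaf 1)) (.leaf 2))) (.cut 0 (.leaf 0) (.leaf 1))) (.leaf 1)) (.cut 0 (.cut 1 (.cut 0 (.leaf 0) (.leaf 1)) (.cut 0 (.cut 1 (.leaf 0) (.cut 0 (.leaf 0) (.leaf 1))) (.leaf 1))) (.leaf 1))) (.leaf 1)) (.cut 0 (.cut 1 (.cut 0 (.cut 1 (.cut 0 (.cut 1 (.cut 0 (.leaf 0) (.leaf 1)) (.cut 0 (.leaf 0) (.leaf 1))) (.leaf 1)) (.cut 0 (.cut 1 (.cut 0 (.leaf 0) (.leaf 1)) (.cut 0 (.leaf 0) (.leaf 1))) (.leaf 1))) (.leaf 1)) (.leaf 1)) (.leaf 1)))) (.cut 0 (.cut 1 (.cut 0 (.leaf 0) (.leaf 0)) (.cut 0 (.leaf 0) (.leaf 0))) (.leaf 0))) (.leaf 1)))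
    [⟨0, 1, 2⟩, ⟨0, 1, 1⟩] = true := checkAlt_cut chkQ_116 chkQ_165

theorem chkQ_167 : checkAlt 2 (envAlts 9 eEnvQ [10616832, 106168320, 1061683200]) (.leaf 1)
    [⟨1, 2, 2⟩, ⟨0, 1, 1⟩] = true := leavesEnvQ3.2.2.2.2.2.2.2.2.2.2.2.2.2.2.2.2.2.2.2.2.2

theorem chkQ_168 : checkAlt 2 (envAlts 9 eEnvQ [10616832, 106168320, 1061683200]) (.cut 0 (.cut 1 (.cut 0 (.cut 1 (.cut 0 (.leaf 0) (.cut 1 (.cut 0 (.leaf 0) (.cut 1 (.leaf 0) (.cut 0 (.leaf 0) (.cut 1 (.leaf 0) (.cut 0 (.leaf 0) (.cut 1 (.leaf 0) (.cut 0 (.leaf 0) (.leaf 2)))))))) (.cut 0 (.leaf 0) (.cut 1 (.cut 0 (.leaf 0) (.cut 1 (.cut 0 (.leaf 0) (.leaf 2)) (.leaf 3))) (.cut 0 (.cut 1 (.leaf 0) (.leaf 2)) (.leaf 1)))))) (.cut 0 (.leaf 0) (.cut 1 (.cut 0 (.cut 1 (.leaf 0) (.cut 0 (.leaf 0) (.cut 1 (.leaf 0) (.cut 0 (.leaf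 0) (.leaf 1))))) (.leaf 3)) (.cut 0 (.cut 1 (.cut 0 (.leaf 0) (.cut 1 (.cut 0 (.leaf 0) (.leaf 1)) (.leaf 1))) (.cut 0 (.leaf 0) (.leaf 1))) (.leaf 1))))) (.cut 1 (.cut 0 (.cut 1 (.cut 0 (.cut 1 (.leaf 0) (.cut 0 (.cut 1 (.cut 0 (.cut 1 (.leaf 0) (.cut 0 (.leaf 0) (.cut 1 (.cut 0 (.leaf 0) (.cut 1 (.leaf 0) (.leaf 2))) (.cut 0 (.cut 1 (.cut 0 (.leaf 0) (.leaf 2)) (.leaf 1)) (.leaf 1))))) (.cut 1 (.cut 0 (.leaf 0) (.leaf 2)) (.leaf 2))) (.cut 0 (.cut 1 (.cut 0 (.cut 1 (.cut 0 (.cut 1 (.leaf 0) (.leaf 2)) (.leaf 2)) (.leaf 1)) (.leaf 1)) (.leaf 1)) (.leaf 1))) (.leaf 3))) (.cut 1 (.cut 0 (.leaf 2) (.cut 1 (.leaf 0) (.leaf 1))) (.leaf 1))) (.leaf 1)) (.cut 1 (.cut 0 (.cut 1 (.cut 0 (.leaf 3) (.cut 1 (.cut 0 (.leaf 3) (.cut 1 (.cut 0 (.cut 1 (.cut 0 (.cut 1 (.cut 0 (.leaf 0)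 (.leaf 1)) (.leaf 1)) (.leaf 1)) (.leaf 1)) (.leaf 1)) (.leaf 1))) (.leaf 1))) (.leaf 1)) (.leaf 1)) (.leaf 1))) (.leaf 1))) (.cut 0 (.cut 1 (.cut 0 (.leaf 0) (.cut 1 (.cut 0 (.cut 1 (.cut 0 (.cut 1 (.cut 0 (.leaf 0) (.cut 1 (.cut 0 (.leaf 0) (.leaf 1)) (.leaf 2))) (.cut 0 (.leaf 0) (.leaf 1))) (.leaf 1)) (.cut 0 (.cut 1 (.cut 0 (.leaf 0) (.leaf 1)) (.cut 0 (.cut 1 (.leaf 0) (.cut 0 (.leaf 0) (.leaf 1))) (.leaf 1))) (.leaf 1))) (.leaf 1)) (.cut 0 (.cut 1 (.cut 0 (.cut 1 (.cut 0 (.cut 1 (.cut 0 (.leaf 0) (.leaf 1)) (.cut 0 (.leaf 0) (.leaf 1))) (.leaf 1)) (.cut 0 (.cut 1 (.cut 0 (.leaf 0) (.leaf 1)) (.cut 0 (.leaf 0) (.leaf 1))) (.leaf 1))) (.leaf 1)) (.leaf 1)) (.leaf 1)))) (.cut 0 (.cut 1 (.cut 0 (.leaf 0) (.leaf 0)) (.cut 0 (.leaf 0) (.leaf 0))) (.leaf 0))) (.leaf 1)))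 (.leaf 1))
    [⟨0, 1, 1⟩, ⟨0, 1, 1⟩] = true := checkAlt_cut chkQ_166 chkQ_167

theorem envQ_nonneg {p z : ℝ} (hp : 0 ≤ p) (hp1 : p ≤ 1) (hz : 0 ≤ z) (hz1 : z ≤ 1)
    (hY : 0 ≤ ysum (chart p z)) (hr : 3000 ≤ 1473 * ysum (chart p z)) :
    0 ≤ eEnvQ.eval (pt [p, z]) :=
  env_nonneg (by decide) chkQ_168 hp hp1 hz hz1 hY hr

end Vale.Agent.P154.NegEnd
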