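import Vale.Agent.P154.NegEnd.EnvDefs

/-!
P154 NegEnd: certificate of envelope V, on all deviations (generated).
-/

namespace Vale.Agent.P154.NegEnd

open PolyCheck

theorem leavesEnvV0 :
    (checkAlt 2 [[eEnvV]] (.leaf 0) [⟨0, 1, 4⟩, ⟨0, 1, 1⟩] = true) ∧
    (checkAlt 2 [[eEnvV]] (.leaf 0) [⟨2, 3, 8⟩, ⟨0, 1, 1⟩] = true) ∧
    (checkAlt 2 [[eEnvV]] (.cut 0 (.leaf 0) (.leaf 0)) [⟨3, 4, 8⟩, ⟨0, 1, 2⟩] = true) := by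
  refine ⟨?_, ?_, ?_⟩ <;> decide +kernel

theorem leavesEnvV1 :
    (checkAlt 2 [[eEnvV]] (.leaf 0) [⟨3, 4, 8⟩, ⟨1, 2, 2⟩] = true) ∧
    (checkAlt 2 [[eEnvV]] (.leaf 0) [⟨2, 3, 4⟩, ⟨0, 1, 1⟩] = true) ∧
    (checkAlt 2 [[eEnvV]] (.leaf 0) [⟨6, 7, 8⟩, ⟨0, 1, 1⟩] = true) := by
  refine ⟨?_, ?_, ?_⟩ <;> decide +kernel

theorem leavesEnvV2 :
    (checkAlt 2 [[eEnvV]] (.leaf 0) [⟨7, 8, 8⟩, ⟨0, 1, 2⟩] = true) ∧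
    (checkAlt 2 [[eEnvV]] (.leaf 0) [⟨14, 15, 16⟩, ⟨1, 2, 2⟩] = true) ∧
    (checkAlt 2 [[eEnvV]] (.cut 1 (.leaf 0) (.leaf 0)) [⟨15, 16, 16⟩, ⟨1, 2, 2⟩] = true) := by
  refine ⟨?_, ?_, ?_⟩ <;> decide +kernel

theorem chkV_0 : checkAlt 2 [[eEnvV]] (.leaf 0)
    [⟨0, 1, 4⟩, ⟨0, 1, 1⟩] = true := leavesEnvV0.1

theorem chkV_1 : checkAlt 2 [[eEnvV]] (.leaf 0)
    [⟨2, 3, 8⟩, ⟨0, 1, 1⟩] = true := leavesEnvV0.2.1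

theorem chkV_2 : checkAlt 2 [[eEnvV]] (.cut 0 (.leaf 0) (.leaf 0))
    [⟨3, 4, 8⟩, ⟨0, 1, 2⟩] = true := leavesEnvV0.2.2

theorem chkV_3 : checkAlt 2 [[eEnvV]] (.leaf 0)
    [⟨3, 4, 8⟩, ⟨1, 2, 2⟩] = true := leavesEnvV1.1

theorem chkV_4 : checkAlt 2 [[eEnvV]] (.cut 1 (.cut 0 (.leaf 0) (.leaf 0)) (.leaf 0))
    [⟨3, 4, 8⟩, ⟨0, 1, 1⟩] = true := checkAlt_cut chkV_2 chkV_3

theorem chkV_5 : checkAlt 2 [[eEnvV]] (.cut 0 (.leaf 0) (.cut 1 (.cut 0 (.leaf 0) (.leaf 0)) (.leaf 0)))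
    [⟨1, 2, 4⟩, ⟨0, 1, 1⟩] = true := checkAlt_cut chkV_1 chkV_4

theorem chkV_6 : checkAlt 2 [[eEnvV]] (.cut 0 (.leaf 0) (.cut 0 (.leaf 0) (.cut 1 (.cut 0 (.leaf 0) (.leaf 0)) (.leaf 0))))
    [⟨0, 1, 2⟩, ⟨0, 1, 1⟩] = true := checkAlt_cut chkV_0 chkV_5

theorem chkV_7 : checkAlt 2 [[eEnvV]] (.leaf 0)
    [⟨2, 3, 4⟩, ⟨0, 1, 1⟩] = true := leavesEnvV1.2.1

theorem chkV_8 : checkAlt 2 [[eEnvV]] (.leaf 0)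
    [⟨6, 7, 8⟩, ⟨0, 1, 1⟩] = true := leavesEnvV1.2.2

theorem chkV_9 : checkAlt 2 [[eEnvV]] (.leaf 0)
    [⟨7, 8, 8⟩, ⟨0, 1, 2⟩] = true := leavesEnvV2.1

theorem chkV_10 : checkAlt 2 [[eEnvV]] (.leaf 0)
    [⟨14, 15, 16⟩, ⟨1, 2, 2⟩] = true := leavesEnvV2.2.1

theorem chkV_11 : checkAlt 2 [[eEnvV]] (.cut 1 (.leaf 0) (.leaf 0))
    [⟨15, 16, 16⟩, ⟨1, 2, 2⟩] = true := leavesEnvV2.2.2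

theorem chkV_12 : checkAlt 2 [[eEnvV]] (.cut 0 (.leaf 0) (.cut 1 (.leaf 0) (.leaf 0)))
    [⟨7, 8, 8⟩, ⟨1, 2, 2⟩] = true := checkAlt_cut chkV_10 chkV_11

theorem chkV_13 : checkAlt 2 [[eEnvV]] (.cut 1 (.leaf 0) (.cut 0 (.leaf 0) (.cut 1 (.leaf 0) (.leaf 0))))
    [⟨7, 8, 8⟩, ⟨0, 1, 1⟩] = true := checkAlt_cut chkV_9 chkV_12

theorem chkV_14 : checkAlt 2 [[eEnvV]] (.cut 0 (.leaf 0) (.cut 1 (.leaf 0) (.cut 0 (.leaf 0) (.cut 1 (.leaf 0) (.leaf 0)))))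
    [⟨3, 4, 4⟩, ⟨0, 1, 1⟩] = true := checkAlt_cut chkV_8 chkV_13

theorem chkV_15 : checkAlt 2 [[eEnvV]] (.cut 0 (.leaf 0) (.cut 0 (.leaf 0) (.cut 1 (.leaf 0) (.cut 0 (.leaf 0) (.cut 1 (.leaf 0) (.leaf 0))))))
    [⟨1, 2, 2⟩, ⟨0, 1, 1⟩] = true := checkAlt_cut chkV_7 chkV_14

theorem chkV_16 : checkAlt 2 [[eEnvV]] (.cut 0 (.cut 0 (.leaf 0) (.cut 0 (.leaf 0) (.cut 1 (.cut 0 (.leaf 0) (.leaf 0)) (.leaf 0)))) (.cut 0 (.leaf 0) (.cut 0 (.leaf 0) (.cut 1 (.leaf 0) (.cut 0 (.leaf 0) (.cut 1 (.leaf 0) (.leaf 0)))))))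
    [⟨0, 1, 1⟩, ⟨0, 1, 1⟩] = true := checkAlt_cut chkV_6 chkV_15

theorem envV_nonneg {p z : ℝ} (hp : 0 ≤ p) (hp1 : p ≤ 1) (hz : 0 ≤ z) (hz1 : z ≤ 1) :
    0 ≤ eEnvV.eval (pt [p, z]) :=
  single_nonneg chkV_16 hp hp1 hz hz1

end Vale.Agent.P154.NegEnd
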