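import Vale.Agent.P154.NegEnd.EnvV
import Vale.Agent.P154.NegEnd.EnvG
import Vale.Agent.P154.NegEnd.EnvA
import Vale.Agent.P154.NegEnd.EnvD1
import Vale.Agent.P154.NegEnd.EnvD2
import Vale.Agent.P154.NegEnd.EnvD3
import Vale.Agent.P154.NegEnd.EnvD4
import Vale.Agent.P154.NegEnd.EnvQ
import Vale.Agent.P154.NegEnd.ClosingData

/-!
P154 NegEnd: the envelopes, for deviations.
-/

namespace Vale.Agent.P154.NegEnd

open PolyCheck

/-- The atoms. -/
noncomputable def atom (j : Fin 5) : Fin 3 → ℝ := fun i => (atomI j i : ℝ) / 6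

/-- The coefficients. -/
noncomputable def coef : Fin 5 → ℝ :=
  ![-4212 / 100, 6513 / 100, -1944 / 100, -532 / 100, 370 / 100]

/-- The tangent ratios. -/
noncomputable def rat : Fin 5 → ℝ := ![1, 906 / 1000, 745 / 1000, 607 / 1000, 390 / 1000]

lemma atomI_sum (j : Fin 5) : atomI j 0 + atomI j 1 + atomI j 2 = 6 := by
  fin_cases j <;> decide

lemma chart_facts (p z : ℝ) (hY : 0 < ysum (chart p z)) :
    eNS.eval (pt [p, z]) = 6 * ysum (chart p z) ^ 2 *
        (numS (chart p z) / (6 * ysum (chart p z) ^ 2)) ∧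
      eNC.eval (pt [p, z]) = 6 * ysum (chart p z) ^ 3 *
        (numC (chart p z) / (6 * ysum (chart p z) ^ 3)) ∧
      ∀ a, (eT a).eval (pt [p, z]) = 2 * ysum (chart p z) * tau a (chart p z) := by
  refine ⟨?_, ?_, fun a => ?_⟩
  · rw [eNS_eval]; field_simp
  · rw [eNC_eval]; field_simp
  · rw [eT_eval, tau, mul_div_cancel₀ _ (by positivity)]

lemma sval_Vp (S C : ℝ) : sval L_Vp S C = -sval L_V S C := by
  simp [sval, L_Vp, L_V]; ring

/-- The envelope of the vertex side. -/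
theorem envelope_vertex {u : Fin 3 → ℝ} (hu : Dev u) :
    1197 / 1200 * Neg3.S u + sval L_Vp (Neg3.S u) (Neg3.C u) / 100000 ≤
      ∑ j, coef j * vert (atom j) u := by
  have hM : ∀ i, u i ≤ 2 := fun i => by
    have h3 := hu.1
    rw [Fin.sum_univ_three] at h3
    fin_cases i <;> simp <;> linarith [hu.2 0, hu.2 1, hu.2 2]
  obtain ⟨p, z, hp, hp1, hz, hz1, hY, -, hS, hC, hT⟩ := exists_chart hu hM
  obtain ⟨eS, eC, eTau⟩ := chart_facts p z hY
  rw [← hS] at eS
  rw [← hC] at eC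
  have hj : ∀ j, vert (atom j) u = tau (atomI j) (chart p z) := fun j => hT _ (atomI_sum j)
  have h := envV_nonneg hp hp1 hz hz1
  simp only [eEnvV, eval_add, eval_mul, eval_pow, eval_c, eTau, eYs_eval, eS,
    polEx_eval 10 5 p z hY.ne' L_V (by decide), ← hS, ← hC] at h
  simp only [Fin.sum_univ_five, hj, sval_Vp]
  refine le_of_mul_le_mul_left ?_ (mul_pos (show (0 : ℝ) < 777600000 by norm_num) (pow_pos hY 10))
  simp [coef]
  push_cast at h
  linarith

/-- The envelopes after one edge. -/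
theorem envelope_edge {v : Fin 3 → ℝ} (hv : Dev v) (hM : ∀ i, v i ≤ 473 / 1000) :
    ∑ j, coef j * vert (atom j) v ≤
        1197 / 1200 * Neg3.S v + sval L_G (Neg3.S v) (Neg3.C v) / 100000 ∧
      sval L_D1f (Neg3.S v) (Neg3.C v) / 4800000000 ≤
        vert (atom 1) v - 906 / 1000 * vert (atom 0) v ∧
      vert (atom 2) v - 745 / 1000 * vert (atom 0) v ≤
        sval L_D2f (Neg3.S v) (Neg3.C v) / 4800000000 ∧
      vert (atom 3) v - 607 / 1000 * vert (atom 0) v ≤
        sval L_D3f (Neg3.S v) (Neg3.C v) / 4800000000 ∧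
      sval L_D4f (Neg3.S v) (Neg3.C v) / 4800000000 ≤
        vert (atom 4) v - 390 / 1000 * vert (atom 0) v ∧
      vert (atom 0) v ≤ sval L_Af (Neg3.S v) (Neg3.C v) / 300000 ∧
      1944 / 100 * (vert (atom 2) v - 745 / 1000 * vert (atom 0) v) ^ 2 +
          532 / 100 * (vert (atom 3) v - 607 / 1000 * vert (atom 0) v) ^ 2 ≤
        sval L_Qf (Neg3.S v) (Neg3.C v) / 57600000000 := by
  obtain ⟨p, z, hp, hp1, hz, hz1, hY, hr, hS, hC, hT⟩ := exists_chart hv hM
  obtain ⟨eS, eC, eTau⟩ := chart_facts p z hY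
  rw [← hS] at eS
  rw [← hC] at eC
  have hj : ∀ j, vert (atom j) v = tau (atomI j) (chart p z) := fun j => hT _ (atomI_sum j)
  have hr' : 3000 ≤ 1473 * ysum (chart p z) := by linarith
  have pE := fun W l h => polEx_eval W 5 p z hY.ne' l h
  have hG := envG_nonneg hp hp1 hz hz1 hY.le hr'
  have h1 := envD1_nonneg hp hp1 hz hz1 hY.le hr'
  have h2 := envD2_nonneg hp hp1 hz hz1 hY.le hr'
  have h3 := envD3_nonneg hp hp1 hz hz1 hY.le hr'
  have h4 := envD4_nonneg hp hp1 hz hz1 hY.le hr'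
  have hA := envA_nonneg hp hp1 hz hz1 hY.le hr'
  have hQ := envQ_nonneg hp hp1 hz hz1 hY.le hr'
  simp only [eEnvG, eEnvD1, eEnvD2, eEnvD3, eEnvD4, eEnvA, eEnvQ, eval_add, eval_sub, eval_mul,
    eval_pow, eval_c, eTau, eYs_eval, eS, eC, pE 8 L_G (by decide), pE 8 L_D1 (by decide),
    pE 8 L_D2 (by decide), pE 8 L_D3 (by decide), pE 8 L_D4 (by decide), pE 8 L_A (by decide),
    pE 10 L_Q (by decide), ← hS, ← hC] at hG h1 h2 h3 h4 hA hQ
  simp only [Fin.sum_univ_five, hj]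
  have hK : (0 : ℝ) < 777600000 := by norm_num
  push_cast at hG h1 h2 h3 h4 hA hQ
  refine ⟨?_, ?_, ?_, ?_, ?_, ?_, ?_⟩
  · refine le_of_mul_le_mul_left ?_ (mul_pos hK (pow_pos hY 8))
    simp [coef]
    linarith
  · refine le_of_mul_le_mul_left ?_ (mul_pos hK (pow_pos hY 8))
    simp [sval, L_D1f, L_D1] at h1 ⊢
    linarith
  · refine le_of_mul_le_mul_left ?_ (mul_pos hK (pow_pos hY 8))
    simp [sval, L_D2f, L_D2] at h2 ⊢
    linarith
  · refine le_of_mul_le_mul_left ?_ (mul_pos hK (pow_pos hY 8))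
    simp [sval, L_D3f, L_D3] at h3 ⊢
    linarith
  · refine le_of_mul_le_mul_left ?_ (mul_pos hK (pow_pos hY 8))
    simp [sval, L_D4f, L_D4] at h4 ⊢
    linarith
  · refine le_of_mul_le_mul_left ?_ (mul_pos hK (pow_pos hY 8))
    simp [sval, L_Af, L_A] at hA ⊢
    linarith
  · refine le_of_mul_le_mul_left ?_ (mul_pos (mul_pos hK (pow_pos hY 10)) (show (0:ℝ) < 8000 by norm_num))
    simp [sval, L_Qf, L_Q] at hQ ⊢
    linarith

end Vale.Agent.P154.NegEnd
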