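import Vale.Agent.P154.NegEnd.TanAssembly
import Vale.Agent.P154.Neg3.Basic

/-!
P154 NegEnd: sixth roots of the sorted components of `1 + u`, and averaged monomials in them.
-/

namespace Vale.Agent.P154.NegEnd

open Finset

/-- `3` over the largest component. -/
def ysum (y : Fin 3 → ℝ) : ℝ := y 0 ^ 6 + y 1 ^ 6 + y 2 ^ 6

/-- The sum of a monomial over the six permutations. -/
def pmon (a : Fin 3 → ℕ) (y : Fin 3 → ℝ) : ℝ :=
  y 0 ^ a 0 * y 1 ^ a 1 * y 2 ^ a 2 + y 1 ^ a 0 * y 2 ^ a 1 * y 0 ^ a 2 +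
    y 2 ^ a 0 * y 0 ^ a 1 * y 1 ^ a 2 + y 0 ^ a 0 * y 2 ^ a 1 * y 1 ^ a 2 +
    y 2 ^ a 0 * y 1 ^ a 1 * y 0 ^ a 2 + y 1 ^ a 0 * y 0 ^ a 1 * y 2 ^ a 2

/-- An atom with exponents `a / 6` in the roots. -/
noncomputable def tau (a : Fin 3 → ℕ) (y : Fin 3 → ℝ) : ℝ :=
  (2 * ysum y - pmon a y) / (2 * ysum y)

/-- `6 Y² S`. -/
def numS (y : Fin 3 → ℝ) : ℝ :=
  (3 * y 0 ^ 6 - ysum y) ^ 2 + (3 * y 1 ^ 6 - ysum y) ^ 2 + (3 * y 2 ^ 6 - ysum y) ^ 2

/-- `6 Y³ C`. -/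
def numC (y : Fin 3 → ℝ) : ℝ :=
  (3 * y 0 ^ 6 - ysum y) ^ 3 + (3 * y 1 ^ 6 - ysum y) ^ 3 + (3 * y 2 ^ 6 - ysum y) ^ 3

/-- The roots in the chart. -/
def chart (p z : ℝ) : Fin 3 → ℝ := ![1, 1 - p * z, 1 - p]

lemma perm_sum (h : Fin 3 → Fin 3 → Fin 3 → ℝ) :
    (∑ σ : Equiv.Perm (Fin 3), h (σ 0) (σ 1) (σ 2)) =
      h 0 1 2 + h 1 2 0 + h 2 0 1 + h 0 2 1 + h 2 1 0 + h 1 0 2 := by
  have hu : (Finset.univ : Finset (Equiv.Perm (Fin 3))) =
      {1, finRotate 3, (finRotate 3)⁻¹, Equiv.swap 1 2, Equiv.swap 0 2, Equiv.swap 0 1} := by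
    decide
  rw [hu, Finset.sum_insert (by decide), Finset.sum_insert (by decide),
    Finset.sum_insert (by decide), Finset.sum_insert (by decide), Finset.sum_insert (by decide),
    Finset.sum_singleton]
  have h1 : ((1 : Equiv.Perm (Fin 3)) 0 = 0) ∧ ((1 : Equiv.Perm (Fin 3)) 1 = 1) ∧
      ((1 : Equiv.Perm (Fin 3)) 2 = 2) := by decide
  have h2 : (finRotate 3 0 = 1) ∧ (finRotate 3 1 = 2) ∧ (finRotate 3 2 = 0) := by decide
  have h3 : ((finRotate 3)⁻¹ 0 = 2) ∧ ((finRotate 3)⁻¹ 1 = 0) ∧ ((finRotate 3)⁻¹ 2 = 1) := by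
    decide
  have h4 : (Equiv.swap (1 : Fin 3) 2 0 = 0) ∧ (Equiv.swap (1 : Fin 3) 2 1 = 2) ∧
      (Equiv.swap (1 : Fin 3) 2 2 = 1) := by decide
  have h5 : (Equiv.swap (0 : Fin 3) 2 0 = 2) ∧ (Equiv.swap (0 : Fin 3) 2 1 = 1) ∧
      (Equiv.swap (0 : Fin 3) 2 2 = 0) := by decide
  have h6 : (Equiv.swap (0 : Fin 3) 1 0 = 1) ∧ (Equiv.swap (0 : Fin 3) 1 1 = 0) ∧
      (Equiv.swap (0 : Fin 3) 1 2 = 2) := by decide
  simp only [h1, h2, h3, h4, h5, h6]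
  ring

lemma edge_eq {q : ℕ} (lam d : ℝ) (α : Fin q → ℝ) (u : Fin q → ℝ) :
    edge lam d α u = d * vert α fun i => lam * u i := by
  simp only [edge, vert, PointAssembly.pav, ← Finset.mul_sum, mul_div_assoc]
  rfl

lemma vert_perm (α : Fin 3 → ℝ) (u : Fin 3 → ℝ) (σ : Equiv.Perm (Fin 3)) :
    vert α (u ∘ σ) = vert α u := by
  simp only [vert, PointAssembly.pav]
  congr 1
  exact Fintype.sum_equiv (Equiv.mulLeft σ) _ _ fun τ => rfl

/-- Every deviation below `M` in the chart. -/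
theorem exists_chart {v : Fin 3 → ℝ} (hv : Dev v) {M : ℝ} (hM : ∀ i, v i ≤ M) :
    ∃ p z : ℝ, 0 ≤ p ∧ p ≤ 1 ∧ 0 ≤ z ∧ z ≤ 1 ∧ 0 < ysum (chart p z) ∧
      3 ≤ ysum (chart p z) * (1 + M) ∧
      Neg3.S v = numS (chart p z) / (6 * ysum (chart p z) ^ 2) ∧
      Neg3.C v = numC (chart p z) / (6 * ysum (chart p z) ^ 3) ∧
      ∀ a : Fin 3 → ℕ, a 0 + a 1 + a 2 = 6 →
        vert (fun i => (a i : ℝ) / 6) v = tau a (chart p z) := by
  set σ : Equiv.Perm (Fin 3) := Tuple.sort fun i => -v i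
  have hs := Tuple.monotone_sort fun i => -v i
  have h01 : v (σ 1) ≤ v (σ 0) := by
    have := hs (show (0 : Fin 3) ≤ 1 by decide)
    simpa using this
  have h12 : v (σ 2) ≤ v (σ 1) := by
    have := hs (show (1 : Fin 3) ≤ 2 by decide)
    simpa using this
  set w : Fin 3 → ℝ := v ∘ σ with hw
  have hsum : w 0 + w 1 + w 2 = 0 := by
    have h := hv.1
    rw [← Equiv.sum_comp σ v, Fin.sum_univ_three] at h
    exact h
  have hge : ∀ i, -1 ≤ w i := fun i => hv.2 (σ i)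
  have hm : w 1 ≤ w 0 ∧ w 2 ≤ w 1 := ⟨h01, h12⟩
  have hp : 0 < 1 + w 0 := by linarith [hge 0, hge 1, hge 2, hm.1, hm.2]
  obtain ⟨y1, hy1⟩ : ∃ y, y = ((1 + w 1) / (1 + w 0)) ^ (1 / 6 : ℝ) := ⟨_, rfl⟩
  obtain ⟨y2, hy2⟩ : ∃ y, y = ((1 + w 2) / (1 + w 0)) ^ (1 / 6 : ℝ) := ⟨_, rfl⟩
  have q1 : 0 ≤ (1 + w 1) / (1 + w 0) := div_nonneg (by linarith [hge 1]) hp.le
  have q2 : 0 ≤ (1 + w 2) / (1 + w 0) := div_nonneg (by linarith [hge 2]) hp.le
  have e1 : y1 ^ 6 = (1 + w 1) / (1 + w 0) := by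
    rw [hy1, ← Real.rpow_natCast, ← Real.rpow_mul q1]; norm_num
  have e2 : y2 ^ 6 = (1 + w 2) / (1 + w 0) := by
    rw [hy2, ← Real.rpow_natCast, ← Real.rpow_mul q2]; norm_num
  have b1 : 0 ≤ y1 := hy1 ▸ Real.rpow_nonneg q1 _
  have b2 : 0 ≤ y2 := hy2 ▸ Real.rpow_nonneg q2 _
  have le21 : y2 ≤ y1 := by
    rw [hy1, hy2]
    exact Real.rpow_le_rpow q2 ((div_le_div_iff_of_pos_right hp).2 (by linarith [hm.2]))
      (by norm_num)
  have le1 : y1 ≤ 1 := by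
    rw [hy1]
    exact Real.rpow_le_one q1 ((div_le_one hp).2 (by linarith [hm.1])) (by norm_num)
  obtain ⟨z, hz⟩ : ∃ z, z = (1 - y1) / (1 - y2) := ⟨_, rfl⟩
  have hpz : (1 - y2) * z = 1 - y1 := by
    rcases eq_or_ne (1 - y2) 0 with h | h
    · rw [h, zero_mul]; linarith
    · rw [hz]; field_simp
  have hc : chart (1 - y2) z = ![1, y1, y2] := by
    simp only [chart, hpz, sub_sub_cancel]
  have hY : ysum ![1, y1, y2] = 3 / (1 + w 0) := by
    simp only [ysum, Matrix.cons_val_zero, Matrix.cons_val_one, Matrix.cons_val_two,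
      Matrix.head_cons, Matrix.tail_cons, e1, e2, one_pow]
    field_simp
    linarith
  have hr : ∀ i, 1 + w i = (1 + w 0) * ![1, y1, y2] i ^ 6 := by
    intro i
    fin_cases i <;> simp [e1, e2, mul_div_cancel₀ _ hp.ne']
  have hy0 : ∀ i, 0 ≤ ![1, y1, y2] i := by
    intro i
    fin_cases i <;> simp [b1, b2]
  refine ⟨1 - y2, z, by linarith, by linarith, hz ▸ div_nonneg (by linarith) (by linarith), ?_, ?_,
    ?_, ?_, ?_, fun a ha => ?_⟩
  · rw [hz]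
    exact div_le_one_of_le₀ (by linarith) (by linarith)
  · rw [hc, hY]; positivity
  · rw [hc, hY, div_mul_eq_mul_div, le_div_iff₀ hp]
    have : w 0 ≤ M := hM _
    linarith
  · have hS : Neg3.S v = (w 0 ^ 2 + w 1 ^ 2 + w 2 ^ 2) / 6 := by
      have h := Equiv.sum_comp σ fun i => v i ^ 2
      simp only [Fin.sum_univ_three] at h
      simp only [Neg3.S, hw, Function.comp_apply, h]
    rw [hc, hS, hY, numS, hY]
    simp only [Matrix.cons_val_zero, Matrix.cons_val_one, Matrix.cons_val_two, Matrix.head_cons,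
      Matrix.tail_cons, e1, e2, one_pow]
    field_simp
    ring
  · have hC : Neg3.C v = (w 0 ^ 3 + w 1 ^ 3 + w 2 ^ 3) / 6 := by
      have h := Equiv.sum_comp σ fun i => v i ^ 3
      simp only [Fin.sum_univ_three] at h
      simp only [Neg3.C, hw, Function.comp_apply, h]
    rw [hc, hC, hY, numC, hY]
    simp only [Matrix.cons_val_zero, Matrix.cons_val_one, Matrix.cons_val_two, Matrix.head_cons,
      Matrix.tail_cons, e1, e2, one_pow]
    field_simp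
    ring
  · rw [← vert_perm _ v σ, ← hw, hc]
    obtain ⟨y, hy⟩ : ∃ y, y = ![1, y1, y2] := ⟨_, rfl⟩
    rw [← hy] at hr hy0 hY ⊢
    have hpow : ∀ (i : Fin 3) (n : ℕ),
        (1 + w i) ^ ((n : ℝ) / 6) = (1 + w 0) ^ ((n : ℝ) / 6) * y i ^ n := fun i n => by
      rw [hr i, Real.mul_rpow hp.le (by have := hy0 i; positivity), ← Real.rpow_natCast (y i) 6,
        ← Real.rpow_mul (hy0 i)]
      congr 1
      rw [← Real.rpow_natCast (y i) n]
      congr 1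
      push_cast
      ring
    have hmain : ∀ i j k : Fin 3,
        (1 + w i) ^ ((a 0 : ℝ) / 6) * (1 + w j) ^ ((a 1 : ℝ) / 6) * (1 + w k) ^ ((a 2 : ℝ) / 6) =
          (1 + w 0) * (y i ^ a 0 * y j ^ a 1 * y k ^ a 2) := fun i j k => by
      rw [hpow i (a 0), hpow j (a 1), hpow k (a 2)]
      have h6 : (1 + w 0) ^ ((a 0 : ℝ) / 6) * (1 + w 0) ^ ((a 1 : ℝ) / 6) *
          (1 + w 0) ^ ((a 2 : ℝ) / 6) = 1 + w 0 := by
        rw [← Real.rpow_add hp, ← Real.rpow_add hp, ← add_div, ← add_div]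
        have : (a 0 : ℝ) + a 1 + a 2 = 6 := by exact_mod_cast ha
        rw [this, div_self (by norm_num : (6 : ℝ) ≠ 0), Real.rpow_one]
      linear_combination (y i ^ a 0 * y j ^ a 1 * y k ^ a 2) * h6
    simp only [vert, PointAssembly.pav, aff, Fin.prod_univ_three, Function.comp_apply]
    rw [perm_sum fun i j k => 1 - (1 + w i) ^ ((a 0 : ℝ) / 6) * (1 + w j) ^ ((a 1 : ℝ) / 6) *
      (1 + w k) ^ ((a 2 : ℝ) / 6)]
    simp only [hmain, tau, pmon, hY, Fintype.card_perm, Fintype.card_fin]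
    norm_num [Nat.factorial]
    field_simp
    ring

end Vale.Agent.P154.NegEnd
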