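import Vale.Agent.P154.NegEnd.PointCert

/-!
P154 NegEnd: Poisson trees, three states, `lam ∈ [-473/1000, -447/1000]`.
-/

namespace Vale.Agent.P154.NegEnd

/-- No reconstruction on Poisson trees at and below the threshold. -/
theorem nonReconstructs_poisson_end (lam : ℝ) (h0 : -(473 / 1000) ≤ lam)
    (h1 : lam ≤ -(447 / 1000)) (d : ℝ) (hd : 0 ≤ d) (hdl : d * lam ^ 2 ≤ 1) :
    NonReconstructs (aPoisson 3 lam d) := by
  have hlam : 0 < lam ^ 2 := pow_two_pos_of_ne_zero (by linarith)
  have hadm : -(1 / (((3 : ℕ) : ℝ) - 1)) ≤ lam := by norm_num; linarith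
  have hd' : 0 < 1 / lam ^ 2 := by positivity
  have h := nonReconstructs_poisson_of_affCert (by norm_num) lam hadm (by linarith) _ hd'.le
    (affCert_of_tanCertN (by norm_num) lam hadm (by linarith) hd' zero_le_one (tanBd_poisson hd')
      (tanCert h0 h1))
  exact nonReconstructs_poisson_mono (by norm_num) lam hadm (by linarith) hd
    ((le_div_iff₀ hlam).2 hdl) h

end Vale.Agent.P154.NegEnd
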